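import Mathlib

/-!
# Row 207, blocks C, D, E: the scalar heat calculus (interface)

`HC M` collects the scalar data of a Ricci flow on a compact 4-manifold; the structures
`Alg, Intg, Evo, Solv, Dist, Sob0, Bump, GBV` list the facts that blocks C, D, E use.
All time strips are `Icc a b` with `0 < a < b < T`.
-/

set_option autoImplicit false
set_option linter.dupNamespace false
open Set MeasureTheory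
open scoped ContDiff

noncomputable section

namespace Crest.Agent.N207

/-- `f'` is the time derivative of `f` on the strip `[a,b] × M` -/
def HasDt {M : Type*} (a b : ℝ) (f f' : ℝ → M → ℝ) : Prop :=
  ∀ t ∈ Icc a b, ∀ x, HasDerivWithinAt (fun s => f s x) (f' t x) (Icc a b) t

/-- scalar data of a Ricci flow -/
structure HC (M : Type*) [MeasurableSpace M] where
  T : ℝ
  /-- smooth functions on `M` -/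
  S0 : (M → ℝ) → Prop
  /-- smooth functions on `[a,b] × M` -/
  Sm : ℝ → ℝ → (ℝ → M → ℝ) → Prop
  /-- Laplacian of `g t` -/
  lap : ℝ → (M → ℝ) → M → ℝ
  /-- `⟨∇u, ∇v⟩` -/
  gam : ℝ → (M → ℝ) → (M → ℝ) → M → ℝ
  /-- `|Hess u|²` -/
  hh : ℝ → (M → ℝ) → M → ℝ
  /-- `⟨Ric, Hess u⟩` -/
  rh : ℝ → (M → ℝ) → M → ℝ
  /-- scalar curvature -/
  R : ℝ → M → ℝ
  /-- `|∇ᵏ Rm|²` -/
  N : ℕ → ℝ → M → ℝ
  /-- `|∇ᵏ Ric|²` -/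
  Q : ℕ → ℝ → M → ℝ
  vol : ℝ → Measure M
  d : ℝ → M → M → ℝ

namespace HC

variable {M : Type*} [TopologicalSpace M] [MeasurableSpace M] (H : HC M)

/-- admissible time strips -/
def St (a b : ℝ) : Prop := 0 < a ∧ a < b ∧ b < H.T

/-- the Chern-Gauss-Bonnet integrand -/
def Pf (t : ℝ) (x : M) : ℝ := H.N 0 t x - 4 * H.Q 0 t x + H.R t x ^ 2

/-- the potential `f` of `u = (4πτ)⁻² e^{-f}` -/
def pot (τ : ℝ) (u : M → ℝ) (x : M) : ℝ := -Real.log (u x) - 2 * Real.log (4 * Real.pi * τ)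

/-- Perelman's `W` of the density `u` -/
def W (t τ : ℝ) (u : M → ℝ) : ℝ :=
  ∫ x, (τ * (H.gam t u u x / u x ^ 2 + H.R t x) + pot τ u x - 4) * u x ∂H.vol t

/-- the Nash entropy of the density `u` -/
def Na (t τ : ℝ) (u : M → ℝ) : ℝ := (∫ x, pot τ u x * u x ∂H.vol t) - 2

/-- `|Ric + Hess f - g/(2τ)|²` -/
def sol (t τ : ℝ) (f : M → ℝ) (x : M) : ℝ :=
  H.hh t f x + 2 * H.rh t f x + H.Q 0 t x - (H.R t x + H.lap t f x) / τ + 1 / τ ^ 2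

/-- heat solution on the strip -/
def Heat (a b : ℝ) (u : ℝ → M → ℝ) : Prop := H.Sm a b u ∧ HasDt a b u fun t => H.lap t (u t)

/-- conjugate heat solution on the strip -/
def Conj (a b : ℝ) (u : ℝ → M → ℝ) : Prop :=
  H.Sm a b u ∧ HasDt a b u fun t x => -H.lap t (u t) x + H.R t x * u t x

/-- algebra of smooth functions, first and second order calculus at fixed time -/
structure Alg : Prop where
  T_pos : 0 < H.T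
  s0_const : ∀ c : ℝ, H.S0 fun _ => c
  s0_add : ∀ {u v : M → ℝ}, H.S0 u → H.S0 v → H.S0 fun x => u x + v x
  s0_mul : ∀ {u v : M → ℝ}, H.S0 u → H.S0 v → H.S0 fun x => u x * v x
  s0_comp : ∀ {u : M → ℝ} {φ : ℝ → ℝ} {U : Set ℝ}, IsOpen U → ContDiffOn ℝ ∞ φ U →
    (∀ x, u x ∈ U) → H.S0 u → H.S0 fun x => φ (u x)
  s0_cont : ∀ {u : M → ℝ}, H.S0 u → Continuous u
  sm_s0 : ∀ {a b : ℝ} {f : ℝ → M → ℝ}, H.Sm a b f → ∀ t ∈ Icc a b, H.S0 (f t)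
  sm_static : ∀ {a b : ℝ} {u : M → ℝ}, H.S0 u → H.Sm a b fun _ => u
  sm_time : ∀ {a b : ℝ} {c : ℝ → ℝ}, ContDiffOn ℝ ∞ c (Icc a b) → H.Sm a b fun t _ => c t
  sm_add : ∀ {a b : ℝ} {f g : ℝ → M → ℝ}, H.Sm a b f → H.Sm a b g →
    H.Sm a b fun t x => f t x + g t x
  sm_mul : ∀ {a b : ℝ} {f g : ℝ → M → ℝ}, H.Sm a b f → H.Sm a b g →
    H.Sm a b fun t x => f t x * g t x
  sm_comp : ∀ {a b : ℝ} {f : ℝ → M → ℝ} {φ : ℝ → ℝ} {U : Set ℝ}, IsOpen U → ContDiffOn ℝ ∞ φ U →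
    (∀ t ∈ Icc a b, ∀ x, f t x ∈ U) → H.Sm a b f → H.Sm a b fun t x => φ (f t x)
  sm_congr : ∀ {a b : ℝ} {f g : ℝ → M → ℝ}, H.Sm a b f → (∀ t ∈ Icc a b, g t = f t) → H.Sm a b g
  sm_mono : ∀ {a b a' b' : ℝ} {f : ℝ → M → ℝ}, H.Sm a b f → a ≤ a' → b' ≤ b → H.Sm a' b' f
  sm_cont : ∀ {a b : ℝ} {f : ℝ → M → ℝ}, H.Sm a b f →
    ContinuousOn (fun p : ℝ × M => f p.1 p.2) (Icc a b ×ˢ univ)
  sm_dt : ∀ {a b : ℝ} {f : ℝ → M → ℝ}, a < b → H.Sm a b f → ∃ f', H.Sm a b f' ∧ HasDt a b f f'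
  sm_lap : ∀ {a b : ℝ} {f : ℝ → M → ℝ}, H.St a b → H.Sm a b f → H.Sm a b fun t => H.lap t (f t)
  sm_gam : ∀ {a b : ℝ} {f g : ℝ → M → ℝ}, H.St a b → H.Sm a b f → H.Sm a b g →
    H.Sm a b fun t => H.gam t (f t) (g t)
  sm_hh : ∀ {a b : ℝ} {f : ℝ → M → ℝ}, H.St a b → H.Sm a b f → H.Sm a b fun t => H.hh t (f t)
  sm_rh : ∀ {a b : ℝ} {f : ℝ → M → ℝ}, H.St a b → H.Sm a b f → H.Sm a b fun t => H.rh t (f t)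
  sm_R : ∀ {a b : ℝ}, H.St a b → H.Sm a b H.R
  sm_N : ∀ {a b : ℝ} (k : ℕ), H.St a b → H.Sm a b (H.N k)
  sm_Q : ∀ {a b : ℝ} (k : ℕ), H.St a b → H.Sm a b (H.Q k)
  gam_symm : ∀ t ∈ Ioo 0 H.T, ∀ {u v : M → ℝ}, H.S0 u → H.S0 v → ∀ x, H.gam t u v x = H.gam t v u x
  gam_add : ∀ t ∈ Ioo 0 H.T, ∀ {u v w : M → ℝ}, H.S0 u → H.S0 v → H.S0 w → ∀ x,
    H.gam t (fun y => u y + v y) w x = H.gam t u w x + H.gam t v w x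
  gam_mul : ∀ t ∈ Ioo 0 H.T, ∀ {u v w : M → ℝ}, H.S0 u → H.S0 v → H.S0 w → ∀ x,
    H.gam t (fun y => u y * v y) w x = u x * H.gam t v w x + v x * H.gam t u w x
  gam_comp : ∀ t ∈ Ioo 0 H.T, ∀ {u w : M → ℝ} {φ : ℝ → ℝ} {U : Set ℝ}, IsOpen U →
    ContDiffOn ℝ ∞ φ U → (∀ x, u x ∈ U) → H.S0 u → H.S0 w → ∀ x,
    H.gam t (fun y => φ (u y)) w x = deriv φ (u x) * H.gam t u w x
  gam_nonneg : ∀ t ∈ Ioo 0 H.T, ∀ {u : M → ℝ}, H.S0 u → ∀ x, 0 ≤ H.gam t u u x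
  lap_add : ∀ t ∈ Ioo 0 H.T, ∀ {u v : M → ℝ}, H.S0 u → H.S0 v → ∀ x,
    H.lap t (fun y => u y + v y) x = H.lap t u x + H.lap t v x
  lap_mul : ∀ t ∈ Ioo 0 H.T, ∀ {u v : M → ℝ}, H.S0 u → H.S0 v → ∀ x,
    H.lap t (fun y => u y * v y) x = u x * H.lap t v x + v x * H.lap t u x + 2 * H.gam t u v x
  lap_comp : ∀ t ∈ Ioo 0 H.T, ∀ {u : M → ℝ} {φ : ℝ → ℝ} {U : Set ℝ}, IsOpen U →
    ContDiffOn ℝ ∞ φ U → (∀ x, u x ∈ U) → H.S0 u → ∀ x,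
    H.lap t (fun y => φ (u y)) x =
      deriv φ (u x) * H.lap t u x + deriv (deriv φ) (u x) * H.gam t u u x
  /-- at a local maximum -/
  at_max : ∀ t ∈ Ioo 0 H.T, ∀ {u : M → ℝ} {x : M}, H.S0 u → IsLocalMax u x →
    H.lap t u x ≤ 0 ∧ H.gam t u u x = 0

/-- integration -/
structure Intg : Prop where
  fin : ∀ t ∈ Ioo 0 H.T, IsFiniteMeasure (H.vol t)
  pos : ∀ t ∈ Ioo 0 H.T, (H.vol t).IsOpenPosMeasure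
  int_lap : ∀ t ∈ Ioo 0 H.T, ∀ {u : M → ℝ}, H.S0 u → ∫ x, H.lap t u x ∂H.vol t = 0
  ibp : ∀ t ∈ Ioo 0 H.T, ∀ {u v : M → ℝ}, H.S0 u → H.S0 v →
    ∫ x, u x * H.lap t v x ∂H.vol t = -∫ x, H.gam t u v x ∂H.vol t
  int_dt : ∀ {a b : ℝ} {f f' : ℝ → M → ℝ}, H.St a b → H.Sm a b f → HasDt a b f f' →
    ∀ t ∈ Icc a b, HasDerivWithinAt (fun s => ∫ x, f s x ∂H.vol s)
      (∫ x, (f' t x - H.R t x * f t x) ∂H.vol t) (Icc a b) t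
  /-- the volume forms are comparable (`dvol' = -R dvol`) -/
  vol_le : ∀ {K : ℝ}, (∀ t ∈ Ioo 0 H.T, ∀ x, |H.R t x| ≤ K) → ∀ s ∈ Ioo 0 H.T, ∀ t ∈ Ioo 0 H.T,
    H.vol t ≤ ENNReal.ofReal (Real.exp (K * |t - s|)) • H.vol s

/-- evolution equations and pointwise curvature algebra -/
structure Evo : Prop where
  R_bd : ∃ K, ∀ t ∈ Ioo 0 H.T, ∀ x, |H.R t x| ≤ K
  dt_gam : ∀ {a b : ℝ} {u u' : ℝ → M → ℝ}, H.St a b → H.Sm a b u → HasDt a b u u' →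
    HasDt a b (fun t => H.gam t (u t) (u t)) fun t x =>
      H.lap t (H.gam t (u t) (u t)) x
        + 2 * H.gam t (u t) (fun y => u' t y - H.lap t (u t) y) x - 2 * H.hh t (u t) x
  dt_gam_static : ∀ {a b : ℝ} {u : M → ℝ} {G' : ℝ → M → ℝ}, H.St a b → H.S0 u →
    HasDt a b (fun t => H.gam t u u) G' → ∀ t ∈ Icc a b, ∀ x,
      |G' t x| ≤ 2 * √(H.Q 0 t x) * H.gam t u u x
  dt_lap : ∀ {a b : ℝ} {u u' : ℝ → M → ℝ}, H.St a b → H.Sm a b u → HasDt a b u u' →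
    HasDt a b (fun t => H.lap t (u t)) fun t x => H.lap t (u' t) x + 2 * H.rh t (u t) x
  dt_R : ∀ {a b : ℝ}, H.St a b → HasDt a b H.R fun t x => H.lap t (H.R t) x + 2 * H.Q 0 t x
  hh_nonneg : ∀ t ∈ Ioo 0 H.T, ∀ {u : M → ℝ}, H.S0 u → ∀ x, 0 ≤ H.hh t u x
  lap_sq : ∀ t ∈ Ioo 0 H.T, ∀ {u : M → ℝ}, H.S0 u → ∀ x, H.lap t u x ^ 2 ≤ 4 * H.hh t u x
  rh_sq : ∀ t ∈ Ioo 0 H.T, ∀ {u : M → ℝ}, H.S0 u → ∀ x, H.rh t u x ^ 2 ≤ H.Q 0 t x * H.hh t u x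
  sol_nonneg : ∀ t ∈ Ioo 0 H.T, ∀ τ > 0, ∀ {u : M → ℝ}, H.S0 u → ∀ x, 0 ≤ H.sol t τ u x
  kato_gam : ∀ t ∈ Ioo 0 H.T, ∀ {u : M → ℝ}, H.S0 u → ∀ x,
    H.gam t (H.gam t u u) (H.gam t u u) x ≤ 4 * H.gam t u u x * H.hh t u x
  R_sq : ∀ t ∈ Ioo 0 H.T, ∀ x, H.R t x ^ 2 ≤ 4 * H.Q 0 t x
  N_nonneg : ∀ k, ∀ t ∈ Ioo 0 H.T, ∀ x, 0 ≤ H.N k t x
  Q_nonneg : ∀ k, ∀ t ∈ Ioo 0 H.T, ∀ x, 0 ≤ H.Q k t x
  Q_le : ∀ k, ∀ t ∈ Ioo 0 H.T, ∀ x, H.Q k t x ≤ 4 * H.N k t x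
  gam_R : ∀ t ∈ Ioo 0 H.T, ∀ x, H.gam t (H.R t) (H.R t) x ≤ 4 * H.Q 1 t x
  kato_N : ∀ k, ∀ t ∈ Ioo 0 H.T, ∀ x,
    H.gam t (H.N k t) (H.N k t) x ≤ 4 * H.N k t x * H.N (k + 1) t x
  kato_Q : ∀ k, ∀ t ∈ Ioo 0 H.T, ∀ x,
    H.gam t (H.Q k t) (H.Q k t) x ≤ 4 * H.Q k t x * H.Q (k + 1) t x
  dt_N : ∀ k, ∃ C, 0 ≤ C ∧ ∀ {a b : ℝ} {N' : ℝ → M → ℝ}, H.St a b → HasDt a b (H.N k) N' →
    ∀ t ∈ Icc a b, ∀ x, |N' t x - H.lap t (H.N k t) x + 2 * H.N (k + 1) t x| ≤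
      C * ∑ i ∈ Finset.range (k + 1), √(H.N i t x) * √(H.N (k - i) t x) * √(H.N k t x)
  dt_Q : ∀ k, ∃ C, 0 ≤ C ∧ ∀ {a b : ℝ} {Q' : ℝ → M → ℝ}, H.St a b → HasDt a b (H.Q k) Q' →
    ∀ t ∈ Icc a b, ∀ x, |Q' t x - H.lap t (H.Q k t) x + 2 * H.Q (k + 1) t x| ≤
      C * ∑ i ∈ Finset.range (k + 1), √(H.N i t x) * √(H.Q (k - i) t x) * √(H.Q k t x)

/-- the linear solvers (block B) -/
structure Solv : Prop where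
  heat : ∀ {a b : ℝ} {u0 : M → ℝ}, H.St a b → H.S0 u0 → ∃ u, H.Heat a b u ∧ u a = u0
  conj : ∀ {a b : ℝ} {u0 : M → ℝ}, H.St a b → H.S0 u0 → ∃ u, H.Conj a b u ∧ u b = u0

/-- the distance -/
structure Dist : Prop where
  self : ∀ t ∈ Ioo 0 H.T, ∀ x, H.d t x x = 0
  symm : ∀ t ∈ Ioo 0 H.T, ∀ x y, H.d t x y = H.d t y x
  tri : ∀ t ∈ Ioo 0 H.T, ∀ x y z, H.d t x z ≤ H.d t x y + H.d t y z
  cont : ∀ t ∈ Ioo 0 H.T, ∀ x, Continuous (H.d t x)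
  /-- a function with gradient at most one on a ball is 1-Lipschitz from the centre -/
  lip : ∀ t ∈ Ioo 0 H.T, ∀ {u : M → ℝ} {x y : M} {r : ℝ}, H.S0 u →
    (∀ z, H.d t x z < r → H.gam t u u z ≤ 1) → H.d t x y < r → |u y - u x| ≤ H.d t x y
  /-- smooth approximation of the distance from `x` -/
  approx : ∀ t ∈ Ioo 0 H.T, ∀ x, ∀ ε > 0, ∃ u, H.S0 u ∧ (∀ z, H.gam t u u z ≤ 1) ∧
    ∀ z, |u z - H.d t x z| ≤ ε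
  conn : ∀ t ∈ Ioo 0 H.T, ∀ {x y : M} {r : ℝ}, H.d t x y < r →
    ∃ K : Set M, IsPreconnected K ∧ x ∈ K ∧ y ∈ K ∧ ∀ z ∈ K, H.d t x z < r

/-- a Sobolev inequality at each fixed time (constants depend on the time) -/
def Sob0 : Prop :=
  ∀ t ∈ Ioo 0 H.T, ∃ A B : ℝ, 0 < A ∧ 0 < B ∧ ∀ w : M → ℝ, H.S0 w →
    √(∫ x, w x ^ 4 ∂H.vol t) ≤ A * ∫ x, H.gam t w w x ∂H.vol t + B * ∫ x, w x ^ 2 ∂H.vol t

/-- tiny Gaussian bumps -/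
def Bump : Prop :=
  ∀ t ∈ Ioo 0 H.T, ∀ x, ∀ ε > 0, ∃ τ, 0 < τ ∧ τ < ε ∧ ∃ u, H.S0 u ∧ (∀ y, 0 < u y) ∧
    ∫ y, u y ∂H.vol t = 1 ∧ H.W t τ u ≤ ε ∧ |H.Na t τ u| ≤ ε ∧
    ∫ y in {y | ε ≤ H.d t x y}, u y ∂H.vol t ≤ ε

/-- local variation of the Gauss-Bonnet integrand -/
def GBV : Prop :=
  ∃ C, 0 ≤ C ∧ ∀ {a b : ℝ} {P' : ℝ → M → ℝ}, H.St a b → HasDt a b H.Pf P' → ∀ t ∈ Icc a b,
    ∀ {ψ : M → ℝ}, H.S0 ψ → |∫ x, ψ x * (P' t x - H.R t x * H.Pf t x) ∂H.vol t| ≤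
      C * ∫ x, √(H.gam t ψ ψ x) * √(H.N 0 t x) * √(H.Q 1 t x) ∂H.vol t

/-- everything -/
structure Ok : Prop where
  alg : H.Alg
  int : H.Intg
  evo : H.Evo
  solv : H.Solv
  dist : H.Dist
  sob0 : H.Sob0
  bump : H.Bump
  gbv : H.GBV

end HC

end Crest.Agent.N207

end
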