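import Crest.Agent.N207.C.Dist2
import Crest.Agent.N207.AI.HcDef
import Crest.Agent.R247.Ms10_322

/-!
# Row 207 (helper99): the Riemannian distance is the intrinsic distance; `HC.Dist` for a flow
-/

set_option autoImplicit false
set_option linter.unusedSectionVars false
set_option linter.style.haveILetI false

open Bundle Set Filter Metric Manifold
open scoped ContDiff Topology NNReal ENNReal
open Crest.Agent.R247

noncomputable section

namespace Crest.Agent.N207.Dist

/-- a function that is locally below the intrinsic distance is below it -/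
theorem GS.le_of_loc {M : Type*} [TopologicalSpace M] [CompactSpace M] [PreconnectedSpace M]
    (G : GS M) {ρ : M → M → ℝ} (h0 : ∀ x, ρ x x ≤ 0) (ht : ∀ x y z, ρ x z ≤ ρ x y + ρ y z)
    (hl : ∀ p, ∀ c > 1, ∃ U ∈ 𝓝 p, ∀ y ∈ U, ∀ z ∈ U, ∃ u, G.S u ∧ (∀ w ∈ U, G.gam u u w ≤ 1) ∧
      ρ y z ≤ c * (u z - u y)) (x y : M) : ρ x y ≤ G.d x y := by
  have key : ∀ c > 1, ∀ r, G.d x y < r → ρ x y ≤ c * r := by
    intro c hc r hr
    let _ := G.pms
    choose U hU hP using fun p => hl p c hc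
    obtain ⟨δ, hδ, hL⟩ := lebesgue_number_lemma_of_metric (s := univ)
      (c := fun p => interior (U p)) isCompact_univ (fun _ => isOpen_interior)
      fun z _ => mem_iUnion.2 ⟨z, mem_interior_iff_mem_nhds.2 (hU z)⟩
    obtain ⟨n, e, e0, e1, e2, e3⟩ := GS.steps (GS.d_nonneg x y) hr hδ
    have := GS.chain (G := G) e0 (P := fun j z => ρ x z ≤ c * (j * e)) (n := n + 1)
      (by simpa using h0 x) (fun j _ z w _ z2 z3 => by
        obtain ⟨p, hp⟩ := hL z trivial
        have hb : ∀ v, G.d z v < δ → v ∈ U p := fun v hv =>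
          interior_subset (hp (show G.d v z < δ by rwa [GS.d_comm]))
        obtain ⟨u, u1, u2, u3⟩ := hP p z (hb z (by rwa [GS.d_self])) w (hb w (by linarith))
        have := (le_abs_self _).trans (GS.lip_ball u1 (fun v hv => u2 v (hb v hv))
          (show G.d z w < δ by linarith))
        have : c * (u w - u z) ≤ c * e := by gcongr; linarith
        push_cast; linarith [ht x z w]) n n.lt_succ_self y e2
    push_cast at this
    exact this.trans (by gcongr)
  refine le_of_forall_pos_le_add fun ε hε => ?_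
  have D0 := GS.d_nonneg (G := G) x y
  have := key (1 + ε / (2 * G.d x y + ε)) (by
    have : 0 < ε / (2 * G.d x y + ε) := by positivity
    linarith) (G.d x y + ε / 2) (by linarith)
  refine this.trans_eq ?_
  field_simp
  ring

section Riem

variable {n : ℕ} {X : Type*} [MetricSpace X] [ChartedSpace (EuclideanSpace ℝ (Fin n)) X]
  [IsManifold (𝓡 n) ∞ X] [RiemannianBundle (fun p : X => TangentSpace (𝓡 n) p)]
  [IsContMDiffRiemannianBundle (𝓡 n) ∞ (EuclideanSpace ℝ (Fin n))
    (fun p : X => TangentSpace (𝓡 n) p)] [IsRiemannianManifold (𝓡 n) X]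

local notation "𝔼" => EuclideanSpace ℝ (Fin n)

/-- gradient at most one implies 1-Lipschitz -/
theorem sub_le_dist {u : X → ℝ} (hu : ContMDiff (𝓡 n) 𝓘(ℝ, ℝ) ∞ u)
    (h : ∀ z, Bo84.mGam n u u z ≤ 1) (x y : X) : u y - u x ≤ dist x y := by
  have : edist (u x) (u y) ≤ edist x y := by
    refine le_of_forall_gt fun δ hδ => ?_
    rw [IsRiemannianManifold.out (I := 𝓡 n)] at hδ
    obtain ⟨γ, h0, h1, hs, hγ⟩ := exists_lt_of_riemannianEDist_lt hδ
    have := Ms322.edist_le_of_path (I := 𝓡 n) (f := u) (C := 1) isOpen_univ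
      (hu.of_le (by exact_mod_cast le_top)).contMDiffOn (fun y _ v => by
        have e := Bo84.inner_mgrad (n := n) u y v
        have l : ‖Bo84.mgrad n u y‖ ≤ 1 := by
          have := h y
          rw [Bo84.mGam_self] at this
          nlinarith [norm_nonneg (Bo84.mgrad n u y)]
        have k : ‖(inner ℝ (Bo84.mgrad n u y) v : ℝ)‖ ≤ ‖v‖ :=
          (norm_inner_le_norm _ _).trans (by nlinarith [norm_nonneg v])
        have k' : ‖(inner ℝ (Bo84.mgrad n u y) v : ℝ)‖ₑ ≤ ‖v‖ₑ := by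
          rw [← ofReal_norm, ← ofReal_norm]
          exact ENNReal.ofReal_le_ofReal k
        rw [← e, ENNReal.coe_one, one_mul]
        exact k') hs (fun _ _ => trivial)
    rw [h0, h1, ENNReal.coe_one, one_mul] at this
    exact this.trans_lt hγ
  rw [edist_dist, edist_dist, ENNReal.ofReal_le_ofReal_iff dist_nonneg, Real.dist_eq] at this
  linarith [neg_abs_le (u x - u y)]

/-- locally, the distance is almost realised by smooth functions of gradient at most one -/
theorem loc_dist [SecondCountableTopology X] (p : X) {c : ℝ} (hc : 1 < c) :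
    ∃ U ∈ 𝓝 p, ∀ y ∈ U, ∀ z ∈ U, ∃ u, ContMDiff (𝓡 n) 𝓘(ℝ, ℝ) ∞ u ∧
      (∀ w ∈ U, Bo84.mGam n u u w ≤ 1) ∧ dist y z ≤ c * (u z - u y) := by
  have : Nonempty X := ⟨p⟩
  obtain ⟨η, η0, η1⟩ : ∃ η : ℝ≥0, 0 < η ∧ (1 + η : ℝ) ^ 2 ≤ c := by
    refine ⟨⟨√c - 1, by simp [hc.le]⟩, ?_, ?_⟩
    · show (0 : ℝ) < √c - 1
      rw [sub_pos, Real.lt_sqrt zero_le_one]; linarith
    · show (1 + (√c - 1)) ^ 2 ≤ c
      rw [add_sub_cancel, Real.sq_sqrt (by linarith)]
  have ha : chartAt 𝔼 p p ∈ (chartAt 𝔼 p).target := mem_chart_target 𝔼 p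
  obtain ⟨A, hA, -⟩ := Ms322.exists_isometry (n := n) p ha
  obtain ⟨r, r0, rt, L1, L2⟩ := Ms322.exists_bilip (n := n) p ha hA η0
  obtain ⟨f⟩ : Nonempty (SmoothBumpFunction (𝓡 n) p) := inferInstance
  set V := (chartAt 𝔼 p).symm '' ball (chartAt 𝔼 p p) r
  have Vo : IsOpen V := (chartAt 𝔼 p).symm.isOpen_image_of_subset_source isOpen_ball rt
  have pV : p ∈ V := ⟨_, mem_ball_self r0, (chartAt 𝔼 p).left_inv (mem_chart_source 𝔼 p)⟩
  refine ⟨V ∩ interior {w | f w = 1}, inter_mem (Vo.mem_nhds pV)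
    (interior_mem_nhds.2 f.eventuallyEq_one), fun y hy z hz => ?_⟩
  obtain ⟨g, g1, g2⟩ := exists_dual_vector'' ℝ (A (chartAt 𝔼 p z) - A (chartAt 𝔼 p y))
  have k0 : (0 : ℝ) < 1 + η := by positivity
  set l : X → ℝ := fun w => (1 + η : ℝ)⁻¹ * g (A (chartAt 𝔼 p w)) with hl
  have ls : ContMDiffOn (𝓡 n) 𝓘(ℝ, ℝ) ∞ l (chartAt 𝔼 p).source := by
    have h2 : ContDiff ℝ ∞ fun w : 𝔼 => (1 + η : ℝ)⁻¹ * g (A w) := by fun_prop
    exact h2.contMDiff.comp_contMDiffOn contMDiffOn_chart
  have e1 : ∀ w ∈ V ∩ interior {w | f w = 1}, f w • l w = l w := fun w hw => by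
    have : w ∈ {w | f w = 1} := interior_subset hw.2
    rw [show f w = 1 from this, one_smul]
  refine ⟨fun w => f w • l w, f.contMDiff_smul ls, fun w hw => ?_, ?_⟩
  · have lp : LipschitzOnWith 1 (fun w => f w • l w) (V ∩ interior {w | f w = 1}) := by
      refine LipschitzOnWith.of_dist_le_mul fun a ha b hb => ?_
      have := L2.dist_le_mul a ha.1 b hb.1
      rw [e1 a ha, e1 b hb, hl, Real.dist_eq, ← mul_sub, ← map_sub, abs_mul,
        abs_of_pos (inv_pos.2 k0), inv_mul_le_iff₀ k0, NNReal.coe_one, one_mul]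
      have h3 := g.le_opNorm (A (chartAt 𝔼 p a) - A (chartAt 𝔼 p b))
      rw [dist_eq_norm] at this
      push_cast at this
      rw [Real.norm_eq_abs] at h3
      nlinarith [norm_nonneg (A (chartAt 𝔼 p a) - A (chartAt 𝔼 p b))]
    have := Ms322.norm_Gr_le_of_lipschitzOn (n := n) ((Vo.inter isOpen_interior).mem_nhds hw) lp
    rw [← Ms322.norm_Gr_sq_eq_mGam]
    rw [NNReal.coe_one] at this
    nlinarith [norm_nonneg (Ms322.Gr (n := n) (fun w => f w • l w) w)]
  · show dist y z ≤ c * (f z • l z - f y • l y)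
    rw [e1 y hy, e1 z hz, hl, ← mul_sub, ← map_sub, g2]
    obtain ⟨⟨a, ha, rfl⟩, -⟩ := hy
    obtain ⟨⟨b, hb, rfl⟩, -⟩ := hz
    have := L1.dist_le_mul _ (mem_image_of_mem _ ha) _ (mem_image_of_mem _ hb)
    simp only [ContinuousLinearEquiv.symm_apply_apply] at this
    rw [(chartAt 𝔼 p).right_inv (rt ha), (chartAt 𝔼 p).right_inv (rt hb)]
    rw [dist_comm (A a), dist_eq_norm] at this
    push_cast at this
    refine this.trans ?_
    rw [RCLike.ofReal_real_eq_id, id, ← mul_assoc]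
    gcongr
    rw [le_mul_inv_iff₀ k0]; linarith

variable (n X) in
/-- the carré du champ of a compact Riemannian manifold -/
def rgs [CompactSpace X] : GS X where
  S u := ContMDiff (𝓡 n) 𝓘(ℝ, ℝ) ∞ u
  gam := Bo84.mGam n
  cont h := h.continuous
  const _ := contMDiff_const
  add := ContMDiff.add
  comp hφ hf := hφ.comp_contMDiff hf
  symm _ _ x := Bo84.mGam_comm _ _ x
  gadd hf hh _ x := Bo84.mGam_add_left (hf.mdifferentiable (by simp) x)
    (hh.mdifferentiable (by simp) x)
  gcomp hφ hf _ x := Bo84.mGam_comp_left (hφ.differentiable (by simp) _)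
    (hf.mdifferentiable (by simp) x)
  nn _ x := Bo84.mGam_self_nonneg _ x
  eqc x ε hε := by
    filter_upwards [ball_mem_nhds x hε] with y hy f hf h
    exact (sub_le_dist hf h x y).trans (mem_ball'.1 hy).le
  bump x U hU := by
    obtain ⟨f, hf⟩ := (SmoothBumpFunction.nhds_basis_support (I := 𝓡 n) hU).ex_mem
    have s : ContMDiff (𝓡 n) 𝓘(ℝ, ℝ) ∞ fun y => 1 - f y := contMDiff_const.sub f.contMDiff
    have c : Continuous (Bo84.mGam n (fun y => 1 - f y) fun y => 1 - f y) :=
      continuous_iff_continuousAt.2 fun p =>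
        (Bo84.contMDiffAt_mGam (m := 0) (s p) (s p) (by simp) le_rfl).continuousAt
    obtain ⟨C, hC⟩ := (isCompact_range c).bddAbove
    refine ⟨_, C, s, fun z => hC ⟨z, rfl⟩, by simp, fun y hy => ?_⟩
    rw [image_eq_zero_of_notMem_tsupport fun h => hy (hf h), sub_zero]

/-- **the Riemannian distance is the intrinsic distance** -/
theorem dist_eq [CompactSpace X] [PreconnectedSpace X] (x y : X) :
    dist x y = (rgs n X).d x y :=
  le_antisymm ((rgs n X).le_of_loc (ρ := dist) (fun x => (dist_self x).le) dist_triangle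
    (fun p _ hc => loc_dist p hc) x y) (GS.d_le fun _ hf => sub_le_dist hf.1 hf.2 x y)

end Riem

end Crest.Agent.N207.Dist

namespace Crest.Agent.N207

open _root_.Crest.Agent.N207.Dist

section Met

variable {n : ℕ} {M : Type*} [TopologicalSpace M] [ChartedSpace (En n) M]
  [IsManifold 𝓘(ℝ, En n) ∞ M] [T3Space M] [ConnectedSpace M] [CompactSpace M] (m : Met n M)

/-- the carré du champ of a metric: `S = Sm n`, `gam = m.gam` -/
def Met.gs : GS M := rgs n (Sl m)

theorem Met.gs_S (u : M → ℝ) : m.gs.S u ↔ Sm n u := Iff.rfl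

theorem Met.gs_gam : m.gs.gam = m.gam := rfl

theorem Met.d_gs : m.d = m.gs.d := funext₂ fun x y => dist_eq (n := n) (X := Sl m) x y

end Met

variable {M : Type*} [TopologicalSpace M] [ChartedSpace E4 M] [IsManifold 𝓘(ℝ, E4) ∞ M]
  [T3Space M] [ConnectedSpace M] [CompactSpace M] [MeasurableSpace M] [BorelSpace M]

/-- **the distance facts for a Ricci flow** -/
theorem Flow.hc_dist (F : Flow M) : F.hc.Dist where
  self t _ x := by rw [F.hc_d, Met.d_gs]; exact GS.d_self x
  symm t _ x y := by rw [F.hc_d, Met.d_gs]; exact GS.d_comm x y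
  tri t _ x y z := by rw [F.hc_d, Met.d_gs]; exact GS.d_tri x y z
  cont t _ x := by rw [F.hc_d, Met.d_gs]; exact GS.d_cont' x
  lip t _ u x y r hu := by rw [F.hc_d, Met.d_gs]; exact GS.lip_ball (G := (F.m t).gs) hu
  approx t _ x ε hε := by
    rw [F.hc_d, Met.d_gs]
    obtain ⟨f, f1, f2⟩ := (F.m t).gs.approx x hε
    exact ⟨f, f1.1, f1.2, f2⟩
  conn t _ x y r h := by
    rw [F.hc_d, Met.d_gs] at h ⊢
    exact ⟨_, (F.m t).gs.ball_conn x r, show _ < r by
      rw [GS.d_self]; exact (GS.d_nonneg x y).trans_lt h, h, fun _ hz => hz⟩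

end Crest.Agent.N207

end
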