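import Crest.Agent.N207.C.ULS
import Crest.Agent.N207.E.MV0

/-!
# Row 207, block C: heat functions and cutoffs on parabolic windows
-/

set_option autoImplicit false
set_option linter.dupNamespace false
set_option linter.unusedSectionVars false
open Set MeasureTheory Filter Topology
open scoped ContDiff

noncomputable section

namespace Crest.Agent.N207

namespace HC

variable {M : Type*} [TopologicalSpace M] [CompactSpace M] [MeasurableSpace M]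
  [OpensMeasurableSpace M] {H : HC M}

theorem isOpen_B (D : H.Dist) {t : ℝ} (ht : t ∈ Ioo 0 H.T) (x : M) (r : ℝ) : IsOpen (H.B t x r) :=
  isOpen_lt (D.cont t ht x) continuous_const

theorem B_mono2 (t : ℝ) (x : M) {r s : ℝ} (h : r ≤ s) : H.B t x r ⊆ H.B t x s :=
  fun _ hy => lt_of_lt_of_le hy h

theorem en_nonneg (E : H.Evo) {t : ℝ} (ht : t ∈ Ioo 0 H.T) (x : M) (r : ℝ) : 0 ≤ H.en t x r :=
  integral_nonneg fun y => E.N_nonneg 0 t ht y

theorem en_mono_set (h : H.Ok) {t : ℝ} (ht : t ∈ Ioo 0 H.T) {x y : M} {r s : ℝ}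
    (hs : H.B t x r ⊆ H.B t y s) : H.en t x r ≤ H.en t y s :=
  setIntegral_mono_set (h.alg.integrable h.int ht (h.alg.s0_N ht 0)).integrableOn
    (Eventually.of_forall fun z => h.evo.N_nonneg 0 t ht z) hs.eventuallyLE

/-- a weight equal to one on an open set dominates the integral over the set -/
theorem setInt_le_wt (h : H.Ok) {t : ℝ} (ht : t ∈ Ioo 0 H.T) {S : Set M} (hS : IsOpen S)
    {χ P : M → ℝ} (sχ : H.S0 χ) (sP : H.S0 P) (h0 : ∀ y, 0 ≤ χ y) (hP : ∀ y, 0 ≤ P y)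
    (h1 : ∀ y ∈ S, 1 ≤ χ y) : ∫ y in S, P y ∂H.vol t ≤ ∫ y, χ y * P y ∂H.vol t := by
  have i1 := h.alg.integrable h.int ht (h.alg.s0_mul sχ sP)
  refine le_trans (setIntegral_mono_on (h.alg.integrable h.int ht sP).integrableOn
    i1.integrableOn hS.measurableSet fun y hy => ?_)
    (setIntegral_le_integral i1 (Eventually.of_forall fun y => mul_nonneg (h0 y) (hP y)))
  nlinarith [h1 y hy, hP y]

/-- a weight at most one supported in an open set is dominated by the integral over the set -/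
theorem wt_le_setInt (h : H.Ok) {t : ℝ} (ht : t ∈ Ioo 0 H.T) {S : Set M} (hS : IsOpen S)
    {χ P : M → ℝ} (sχ : H.S0 χ) (sP : H.S0 P) (h1 : ∀ y, χ y ≤ 1) (hP : ∀ y, 0 ≤ P y)
    (h0 : ∀ y, χ y ≠ 0 → y ∈ S) : ∫ y, χ y * P y ∂H.vol t ≤ ∫ y in S, P y ∂H.vol t := by
  have i1 := h.alg.integrable h.int ht (h.alg.s0_mul sχ sP)
  rw [← setIntegral_eq_integral_of_forall_compl_eq_zero (s := S) fun y hy => by
    rw [not_not.1 (mt (h0 y) hy), zero_mul]]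
  refine setIntegral_mono_on i1.integrableOn (h.alg.integrable h.int ht sP).integrableOn
    hS.measurableSet fun y _ => ?_
  nlinarith [h1 y, hP y]

omit [OpensMeasurableSpace M] in
/-- `psi ((u - l) / ρ)` is a cutoff -/
theorem cutf_of_heat : ∃ K : ℝ, 1 ≤ K ∧ ∀ {H : HC M}, H.Alg → ∀ {a b r δ l C L : ℝ}
    {u : ℝ → M → ℝ}, H.St a b → H.Heat a b u → 0 < r → 0 < δ → 0 ≤ C →
    (∀ t ∈ Icc a b, ∀ y, H.gam t (u t) (u t) y ≤ 1) →
    (∀ t ∈ Icc a b, ∀ y, |H.lap t (u t) y| ≤ C / r) → K * (C / δ + 1 / δ ^ 2) ≤ L →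
    (∀ t ∈ Icc a b, (H.vol t).real {y | E.psi ((u t y - l) / (δ * r)) ≠ 0} ≤ L * r ^ 4) →
    H.Cutf a b r L (fun t y => E.psi ((u t y - l) / (δ * r)))
      fun t y => deriv E.psi ((u t y - l) / (δ * r)) / (δ * r) * H.lap t (u t) y := by
  obtain ⟨K, hK, k1, k2⟩ := E.psi_bounds
  refine ⟨K, hK, fun {H} A {a b r δ l C L u} hs hu hr hδ hC g1 g2 hL hv => ?_⟩
  have cp := E.cd_aff E.psi_cd l (δ * r)
  have q1 : ∀ s, √(E.psi s) = E.chi s := fun s => by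
    rw [E.psi_eq, Real.sqrt_sq (E.chi_nonneg s)]
  have q2 : ∀ s, deriv E.psi s ^ 2 ≤ K * E.psi s := fun s => (k1 s).trans (by
    have := E.psi_nonneg s
    have h1 : 0 ≤ K * E.psi s := by positivity
    nlinarith [E.chi_le_one s])
  have q3 : ∀ s, |deriv E.psi s| ≤ K * E.chi s := fun s => by
    refine abs_le_of_sq_le_sq' ?_ (by have := E.chi_nonneg s; positivity) |> abs_le.2
    have := q2 s
    rw [E.psi_eq] at this
    nlinarith [sq_nonneg (E.chi s), mul_nonneg (sub_nonneg.2 hK) (sq_nonneg (E.chi s))]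
  have b1 : ∀ t ∈ Icc a b, ∀ y s, |deriv E.psi s / (δ * r) * H.lap t (u t) y| ≤
      K * (C / δ) / r ^ 2 * E.chi s := fun t ht y s => by
    rw [abs_mul, abs_div, abs_of_pos (by positivity : 0 < δ * r)]
    have := E.chi_nonneg s
    calc _ ≤ K * E.chi s / (δ * r) * (C / r) := by gcongr; exacts [q3 s, g2 t ht y]
      _ = _ := by field_simp
  have e1 : K * (C / δ) / r ^ 2 + K * (1 / δ ^ 2) / r ^ 2 ≤ L / r ^ 2 := by
    rw [← add_div, ← mul_add]; gcongr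
  have e2 : 0 ≤ K * (C / δ) / r ^ 2 := by positivity
  have e3 : 0 ≤ K * (1 / δ ^ 2) / r ^ 2 := by positivity
  refine ⟨A.sm_compU (φ := fun s => E.psi ((s - l) / (δ * r))) cp hu.1, ?_, fun t _ y => E.psi_nonneg _, fun t _ y => E.psi_le_one _,
    fun t ht y => ?_, fun t ht y => ?_, fun t ht y => ?_, hv⟩
  · refine (hu.2.comp isOpen_univ cp.contDiffOn fun _ _ _ => mem_univ _).congr_d fun t _ y => ?_
    rw [E.deriv_aff E.psi_cd]
  · rw [q1]
    exact (b1 t ht y _).trans (mul_le_mul_of_nonneg_right (by linarith) (E.chi_nonneg _))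
  · have su := A.sm_s0 hu.1 t ht
    rw [q1, A.lap_compU (hs.mem ht) cp su, E.deriv2_aff E.psi_cd, E.deriv_aff E.psi_cd]
    refine (abs_add_le _ _).trans ?_
    have c0 := E.chi_nonneg ((u t y - l) / (δ * r))
    have g0 := A.gam_nonneg t (hs.mem ht) su y
    have b2 : |deriv (deriv E.psi) ((u t y - l) / (δ * r)) / (δ * r) ^ 2 * H.gam t (u t) (u t) y|
        ≤ K * (1 / δ ^ 2) / r ^ 2 * E.chi ((u t y - l) / (δ * r)) := by
      rw [abs_mul, abs_div, abs_of_pos (by positivity : 0 < (δ * r) ^ 2), abs_of_nonneg g0]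
      calc _ ≤ K * E.chi ((u t y - l) / (δ * r)) / (δ * r) ^ 2 * 1 := by
            gcongr; exacts [k2 _, g1 t ht y]
        _ = _ := by field_simp
    nlinarith [b1 t ht y ((u t y - l) / (δ * r))]
  · have su := A.sm_s0 hu.1 t ht
    rw [A.gam_compU2 (hs.mem ht) cp su, E.deriv_aff E.psi_cd]
    have c0 := E.psi_nonneg ((u t y - l) / (δ * r))
    have g0 := A.gam_nonneg t (hs.mem ht) su y
    calc _ ≤ K * E.psi ((u t y - l) / (δ * r)) / (δ * r) ^ 2 * 1 := by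
          rw [div_pow]; gcongr; exacts [q2 _, g1 t ht y]
      _ = K * (1 / δ ^ 2) / r ^ 2 * E.psi ((u t y - l) / (δ * r)) := by field_simp
      _ ≤ _ := mul_le_mul_of_nonneg_right (by linarith) c0

omit [OpensMeasurableSpace M] in
/-- the heat function at scale `r` about `(x, t)`: its sublevel sets between `δ r` and `6 δ r`
are squeezed between the balls `B σ x (δ r / 4)` and `B σ x r` -/
theorem exists_hf (h : H.Ok) (hU : H.DistUp) {t0 : ℝ} (h0 : 0 < t0) :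
    ∃ θ δ C r0 : ℝ, 0 < θ ∧ 0 < δ ∧ 0 < C ∧ 0 < r0 ∧ r0 ≤ 1 ∧ 3 * θ * r0 ^ 2 ≤ t0 / 2 ∧
      ∀ t ∈ Ico t0 H.T, ∀ x, ∀ r, 0 < r → r ≤ r0 → ∀ b, t ≤ b → b ≤ t + θ * r ^ 2 → b < H.T →
      ∃ u, H.St (t - 3 * θ * r ^ 2) b ∧ H.Heat (t - 3 * θ * r ^ 2) b u ∧
        (∀ s ∈ Icc (t - 3 * θ * r ^ 2) b, ∀ y, H.gam s (u s) (u s) y ≤ 1) ∧
        (∀ s ∈ Icc (t - 2 * θ * r ^ 2) b, ∀ y, |H.lap s (u s) y| ≤ C / r) ∧
        (∀ s ∈ Icc (t - 3 * θ * r ^ 2) b, ∀ y ∈ H.B s x (δ / 4 * r), u s y ≤ δ * r) ∧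
        (∀ s ∈ Icc (t - 3 * θ * r ^ 2) b, ∀ y, u s y ≤ 6 * δ * r → y ∈ H.B s x r) := by
  obtain ⟨C1, hC1, h1⟩ := h.alg.exists_lipheat h.evo h.solv h.dist
  obtain ⟨C2, hC2, h2⟩ := distLo h
  obtain ⟨A, hA, h3⟩ := hU (t0 / 2) (by linarith)
  set δ := 1 / (8 * A) with hδ
  have δ0 : 0 < δ := by positivity
  set κ := δ / (8 * (C1 + C2 + 1)) with hκ
  have κ0 : 0 < κ := by positivity
  have eκ : (C1 + C2 + 1) * κ = δ / 8 := by rw [hκ]; field_simp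
  have eδ : A * δ = 1 / 8 := by rw [hδ]; field_simp
  clear_value κ δ
  refine ⟨κ ^ 2, δ, C1 / κ, min 1 (√t0 / (3 * κ)), by positivity, δ0, by positivity,
    by have := Real.sqrt_pos.2 h0; positivity, min_le_left _ _, ?_, ?_⟩
  · have a1 : min 1 (√t0 / (3 * κ)) ^ 2 ≤ (√t0 / (3 * κ)) ^ 2 :=
      pow_le_pow_left₀ (by positivity) (min_le_right _ _) 2
    have a2 : 3 * κ ^ 2 * (√t0 / (3 * κ)) ^ 2 = t0 / 3 := by
      rw [div_pow, Real.sq_sqrt h0.le]; field_simp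
    nlinarith [mul_le_mul_of_nonneg_left a1 (by positivity : 0 ≤ 3 * κ ^ 2)]
  intro t ht x r hr hr0 b hb1 hb2 hb3
  have a1 : r ^ 2 ≤ (√t0 / (3 * κ)) ^ 2 :=
    pow_le_pow_left₀ hr.le (hr0.trans (min_le_right _ _)) 2
  have a2 : 3 * κ ^ 2 * (√t0 / (3 * κ)) ^ 2 = t0 / 3 := by
    rw [div_pow, Real.sq_sqrt h0.le]; field_simp
  have a3 : 3 * κ ^ 2 * r ^ 2 ≤ t0 / 3 := by
    rw [← a2]; exact mul_le_mul_of_nonneg_left a1 (by positivity)
  have a4 : 0 < κ ^ 2 * r ^ 2 := by positivity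
  set a := t - 3 * κ ^ 2 * r ^ 2 with ha
  have a5 : t0 / 2 ≤ a := by linarith [ht.1]
  have hs : H.St a b := ⟨by linarith, by linarith, hb3⟩
  obtain ⟨u, hu, g1, g2, -, g3, -⟩ := h1 hs x (δ / 4 * r) (by positivity)
  have q : ∀ s ∈ Icc a b, √(s - a) ≤ 2 * κ * r := fun s hs' =>
    Real.sqrt_le_iff.2 ⟨by positivity, by nlinarith [hs'.2]⟩
  refine ⟨u, hs, hu, g1, fun s hs' y => ?_, fun s hs' y hy => ?_, fun s hs' y hy => ?_⟩
  · refine (g2 s ⟨by linarith [hs'.1], hs'.2⟩ y).trans ?_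
    rw [div_div]
    refine div_le_div_of_nonneg_left hC1.le (by positivity) (Real.le_sqrt_of_sq_le ?_)
    nlinarith [hs'.1]
  · have k1 := (abs_le.1 (g3 s hs' y)).2
    have k2 := h2 a s hs.1 hs'.1 (hs.mem hs').2 x y
    have k3 : H.d s x y < δ / 4 * r := hy
    have k4 := mul_le_mul_of_nonneg_left (q s hs') (by positivity : 0 ≤ C1 + C2 + 1)
    have k5 : (C1 + C2 + 1) * (2 * κ * r) = δ / 4 * r := by linear_combination 2 * r * eκ
    nlinarith [Real.sqrt_nonneg (s - a), mul_pos δ0 hr]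
  · have k1 := (abs_le.1 (g3 s hs' y)).1
    have k2 := h3 a s a5 hs'.1 (hs.mem hs').2 x y
    have k4 := mul_le_mul_of_nonneg_left (q s hs') (by positivity : 0 ≤ C1 + C2 + 1)
    have k5 : (C1 + C2 + 1) * (2 * κ * r) = δ / 4 * r := by linear_combination 2 * r * eκ
    have k6 : H.d a x y + √(s - a) ≤ 7 * δ * r := by
      nlinarith [Real.sqrt_nonneg (s - a), mul_pos δ0 hr]
    have k7 := mul_le_mul_of_nonneg_left k6 hA.le
    have k8 : A * (7 * δ * r) = 7 / 8 * r := by linear_combination 7 * r * eδ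
    show H.d s x y < r
    linarith

/-- the cutoff at scale `r` about `(x, t)` -/
theorem exists_cutf (h : H.Ok) (hU : H.DistUp) (hV : H.VolUp) {t0 : ℝ} (h0 : 0 < t0) :
    ∃ θ lam L r0 : ℝ, 0 < θ ∧ 0 < lam ∧ 1 ≤ L ∧ 1 / L ≤ θ ∧ 0 < r0 ∧ r0 ≤ 1 ∧
      3 * θ * r0 ^ 2 ≤ t0 / 2 ∧
      ∀ t ∈ Ico t0 H.T, ∀ x, ∀ r, 0 < r → r ≤ r0 → ∀ b, t ≤ b → b ≤ t + θ * r ^ 2 → b < H.T →
      ∃ ψ ψ', H.St (t - 2 * θ * r ^ 2) b ∧ H.Cutf (t - 2 * θ * r ^ 2) b r L ψ ψ' ∧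
        (∀ s ∈ Icc (t - 2 * θ * r ^ 2) b, ∀ y ∈ H.B s x (lam * r), ψ s y = 1) ∧
        (∀ s ∈ Icc (t - 2 * θ * r ^ 2) b, ∀ y, ψ s y ≠ 0 → y ∈ H.B s x r) := by
  obtain ⟨θ, δ, C, r0, hθ, hδ, hC, hr0, hr1, ht0, h1⟩ := exists_hf h hU h0
  obtain ⟨K, hK, h2⟩ := cutf_of_heat (M := M)
  obtain ⟨V, hV0, h3⟩ := hV (t0 / 2) (by linarith)
  have p1 : 0 ≤ K * (C / δ + 1 / δ ^ 2) := by positivity
  have p2 : 0 < 1 / θ := by positivity
  refine ⟨θ, δ / 4, K * (C / δ + 1 / δ ^ 2) + V + 1 / θ + 1, r0, hθ, by positivity, by linarith,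
    ?_, hr0, hr1, ht0, fun t ht x r hr hrr b hb1 hb2 hb3 => ?_⟩
  · rw [one_div_le (by positivity) hθ]; linarith
  obtain ⟨u, hs, hu, g1, g2, g3, g4⟩ := h1 t ht x r hr hrr b hb1 hb2 hb3
  have a1 : 0 < θ * r ^ 2 := by positivity
  have a2 : 3 * θ * r ^ 2 ≤ t0 / 2 := le_trans (by gcongr) ht0
  have sub : Icc (t - 2 * θ * r ^ 2) b ⊆ Icc (t - 3 * θ * r ^ 2) b :=
    Icc_subset_Icc (by linarith) le_rfl
  have hs' : H.St (t - 2 * θ * r ^ 2) b := hs.mono (by linarith) (by linarith) le_rfl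
  have sp : ∀ s ∈ Icc (t - 2 * θ * r ^ 2) b, ∀ y, E.psi ((u s y - 0) / (δ * r)) ≠ 0 →
      y ∈ H.B s x r := fun s hs'' y hy => by
    refine g4 s (sub hs'') y ?_
    by_contra hc
    refine hy (E.psi_zero ?_)
    rw [le_div_iff₀ (by positivity)]
    nlinarith [mul_pos hδ hr]
  refine ⟨_, _, hs', h2 h.alg (l := 0) hs' (h.alg.heat_mono hu (by linarith) le_rfl) hr hδ hC.le
    (fun s hs'' => g1 s (sub hs'')) g2 (by linarith) fun s hs'' => ?_, fun s hs'' y hy => ?_, sp⟩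
  · have := h.int.fin s (hs'.mem hs'')
    refine (measureReal_mono (sp s hs'')).trans ((h3 s ⟨by linarith [hs''.1, ht.1],
      (hs'.mem hs'').2⟩ x r hr).trans ?_)
    gcongr; linarith
  · refine E.psi_one ?_
    rw [div_le_one (by positivity), sub_zero]
    exact g3 s (sub hs'') y hy

end HC

end Crest.Agent.N207

end
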