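import Mathlib

/-!
# Row 207 (helper99): the intrinsic distance of a carré du champ

`GS M` = a class of "smooth" functions on `M` with a bilinear form `gam` obeying the chain rule.
The distance is the supremum of `f y - f x` over smooth `f` with `gam f f ≤ 1`.
-/

set_option autoImplicit false
open Set Filter Topology
open scoped ContDiff

noncomputable section

namespace Crest.Agent.N207.Dist

/-- a smooth positive part -/
theorem exists_psi {ε : ℝ} (hε : 0 < ε) : ∃ ψ : ℝ → ℝ, ContDiff ℝ ∞ ψ ∧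
    (∀ s, 0 ≤ deriv ψ s ∧ deriv ψ s ≤ 1) ∧ (∀ s ≤ 0, deriv ψ s = 0) ∧ (∀ s ≤ 0, ψ s = 0) ∧
    ∀ s, max s 0 - ε ≤ ψ s ∧ ψ s ≤ max s 0 := by
  set g : ℝ → ℝ := fun u => Real.smoothTransition (u / ε) with hg
  have gc : ContDiff ℝ ∞ g := Real.smoothTransition.contDiff.comp (contDiff_id.div_const ε)
  have g0 : ∀ u, 0 ≤ g u := fun u => Real.smoothTransition.nonneg _
  have g1 : ∀ u, g u ≤ 1 := fun u => Real.smoothTransition.le_one _
  have gz : ∀ u ≤ 0, g u = 0 := fun u hu =>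
    Real.smoothTransition.zero_of_nonpos (div_nonpos_of_nonpos_of_nonneg hu hε.le)
  have go : ∀ u, ε ≤ u → g u = 1 := fun u hu =>
    Real.smoothTransition.one_of_one_le ((one_le_div hε).2 hu)
  have hd : ∀ s, HasDerivAt (fun s => ∫ u in (0:ℝ)..s, g u) (g s) s := fun s =>
    (gc.continuous.integral_hasStrictDerivAt 0 s).hasDerivAt
  have hde : deriv (fun s => ∫ u in (0:ℝ)..s, g u) = g := funext fun s => (hd s).deriv
  have ii : ∀ a b, IntervalIntegrable g MeasureTheory.volume a b := fun a b =>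
    gc.continuous.intervalIntegrable a b
  have hz : ∀ s ≤ 0, ∫ u in (0:ℝ)..s, g u = 0 := fun s hs => by
    rw [intervalIntegral.integral_congr (g := fun _ => 0) fun u hu => gz u (by
      rw [uIcc_of_ge hs] at hu; exact hu.2)]
    simp
  refine ⟨_, contDiff_infty_iff_deriv.2 ⟨fun s => (hd s).differentiableAt, by rw [hde]; exact gc⟩,
    fun s => by rw [hde]; exact ⟨g0 s, g1 s⟩, fun s hs => by rw [hde]; exact gz s hs, hz,
    fun s => ?_⟩
  rcases le_total s 0 with hs | hs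
  · rw [hz s hs, max_eq_right hs]; constructor <;> linarith
  rw [max_eq_left hs]
  have n0 : ∀ a b, a ≤ b → 0 ≤ ∫ u in a..b, g u := fun a b h =>
    intervalIntegral.integral_nonneg h fun u _ => g0 u
  constructor
  · rcases le_total s ε with h | h
    · linarith [n0 0 s hs]
    · rw [← intervalIntegral.integral_add_adjacent_intervals (ii 0 ε) (ii ε s),
        intervalIntegral.integral_congr (a := ε) (b := s) (g := fun _ => 1) fun u hu => go u (by
          rw [uIcc_of_le h] at hu; exact hu.1)]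
      simp only [intervalIntegral.integral_const, smul_eq_mul, mul_one]
      linarith [n0 0 ε hε.le]
  · have := intervalIntegral.integral_mono_on hs (ii 0 s) (intervalIntegrable_const (c := (1:ℝ)))
      fun u _ => g1 u
    simpa using this

/-- smooth functions with a carré du champ on a compact connected space -/
structure GS (M : Type*) [TopologicalSpace M] where
  S : (M → ℝ) → Prop
  gam : (M → ℝ) → (M → ℝ) → M → ℝ
  cont : ∀ {f}, S f → Continuous f
  const : ∀ c, S fun _ => c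
  add : ∀ {f h}, S f → S h → S fun x => f x + h x
  comp : ∀ {φ : ℝ → ℝ} {f}, ContDiff ℝ ∞ φ → S f → S fun x => φ (f x)
  symm : ∀ {f h}, S f → S h → ∀ x, gam f h x = gam h f x
  gadd : ∀ {f h k}, S f → S h → S k → ∀ x, gam (fun x => f x + h x) k x = gam f k x + gam h k x
  gcomp : ∀ {φ : ℝ → ℝ} {f k}, ContDiff ℝ ∞ φ → S f → S k → ∀ x,
    gam (fun x => φ (f x)) k x = deriv φ (f x) * gam f k x
  nn : ∀ {f}, S f → ∀ x, 0 ≤ gam f f x
  /-- the functions of gradient at most one are equicontinuous -/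
  eqc : ∀ x, ∀ ε > 0, ∀ᶠ y in 𝓝 x, ∀ f, S f → (∀ z, gam f f z ≤ 1) → f y - f x ≤ ε
  /-- bump functions with bounded gradient -/
  bump : ∀ x, ∀ U ∈ 𝓝 x, ∃ f C, S f ∧ (∀ z, gam f f z ≤ C) ∧ f x = 0 ∧ ∀ y ∉ U, 1 ≤ f y

namespace GS

variable {M : Type*} [TopologicalSpace M] (G : GS M)

/-- smooth with gradient at most one -/
def L1 (f : M → ℝ) : Prop := G.S f ∧ ∀ z, G.gam f f z ≤ 1

/-- the intrinsic distance -/
def d (x y : M) : ℝ := sSup ((fun f : M → ℝ => f y - f x) '' {f | G.L1 f})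

variable {G} {f h : M → ℝ} {φ χ : ℝ → ℝ}

theorem gam_cc (hφ : ContDiff ℝ ∞ φ) (hχ : ContDiff ℝ ∞ χ) (hf : G.S f) (hh : G.S h) (x : M) :
    G.gam (fun x => φ (f x)) (fun x => χ (h x)) x = deriv φ (f x) * deriv χ (h x) * G.gam f h x := by
  rw [G.gcomp hφ hf (G.comp hχ hh), G.symm hf (G.comp hχ hh), G.gcomp hχ hh hf, G.symm hh hf]; ring

theorem gam_add_self (hf : G.S f) (hh : G.S h) (x : M) :
    G.gam (fun x => f x + h x) (fun x => f x + h x) x =
      G.gam f f x + 2 * G.gam f h x + G.gam h h x := by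
  rw [G.gadd hf hh (G.add hf hh), G.symm hf (G.add hf hh), G.symm hh (G.add hf hh),
    G.gadd hf hh hf, G.gadd hf hh hh, G.symm hh hf]; ring

theorem gam_two (hφ : ContDiff ℝ ∞ φ) (hχ : ContDiff ℝ ∞ χ) (hf : G.S f) (hh : G.S h) (x : M) :
    G.gam (fun x => φ (f x) + χ (h x)) (fun x => φ (f x) + χ (h x)) x =
      deriv φ (f x) ^ 2 * G.gam f f x + 2 * (deriv φ (f x) * deriv χ (h x)) * G.gam f h x +
        deriv χ (h x) ^ 2 * G.gam h h x := by
  rw [gam_add_self (G.comp hφ hf) (G.comp hχ hh), gam_cc hφ hφ hf hf, gam_cc hφ hχ hf hh,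
    gam_cc hχ hχ hh hh]; ring

theorem aff (a b : ℝ) : ContDiff ℝ ∞ fun s : ℝ => a * s + b := by fun_prop

theorem deriv_aff (a b s : ℝ) : deriv (fun s : ℝ => a * s + b) s = a :=
  (((hasDerivAt_id s).const_mul a).add_const b).deriv.trans (mul_one a)

theorem gam_aff (hf : G.S f) (a b : ℝ) (x : M) :
    G.gam (fun x => a * f x + b) (fun x => a * f x + b) x = a ^ 2 * G.gam f f x := by
  rw [gam_cc (aff a b) (aff a b) hf hf, deriv_aff]; ring

theorem two_gam_le (hf : G.S f) (hh : G.S h) (x : M) :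
    2 * G.gam f h x ≤ G.gam f f x + G.gam h h x := by
  have := G.nn (G.add (G.comp (aff 1 0) hf) (G.comp (aff (-1) 0) hh)) x
  rw [gam_two (aff 1 0) (aff (-1) 0) hf hh, deriv_aff, deriv_aff] at this
  linarith

theorem L1.comp (hf : G.L1 f) (hφ : ContDiff ℝ ∞ φ) (h1 : ∀ s, |deriv φ s| ≤ 1) :
    G.L1 fun x => φ (f x) :=
  ⟨G.comp hφ hf.1, fun z => by
    rw [gam_cc hφ hφ hf.1 hf.1]
    have := hf.2 z
    have := G.nn hf.1 z
    have : deriv φ (f z) * deriv φ (f z) ≤ 1 := by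
      have := abs_le.1 (h1 (f z)); nlinarith
    nlinarith [mul_self_nonneg (deriv φ (f z))]⟩

theorem L1.aff (hf : G.L1 f) {a : ℝ} (ha : |a| ≤ 1) (b : ℝ) : G.L1 fun x => a * f x + b :=
  hf.comp (GS.aff a b) fun s => by rw [deriv_aff]; exact ha

theorem L1_const (c : ℝ) : G.L1 fun _ => c :=
  ⟨G.const c, fun z => by
    have := gam_aff (G.const c) 0 c z
    simp only [zero_mul, zero_add] at this
    rw [this]; norm_num⟩

/-- smooth maximum of two functions of gradient at most one -/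
theorem L1.smax (hf : G.L1 f) (hh : G.L1 h) {ε : ℝ} (hε : 0 < ε) :
    ∃ k, G.L1 k ∧ ∀ z, max (f z) (h z) ≤ k z ∧ k z ≤ max (f z) (h z) + ε := by
  obtain ⟨ψ, hψ, h01, -, -, hb⟩ := exists_psi hε
  have s1 : G.S fun x => 1 * f x + 0 + (-1 * h x + 0) :=
    G.add (G.comp (GS.aff 1 0) hf.1) (G.comp (GS.aff (-1) 0) hh.1)
  refine ⟨fun x => ψ (1 * f x + 0 + (-1 * h x + 0)) + (1 * h x + ε),
    ⟨G.add (G.comp hψ s1) (G.comp (GS.aff 1 ε) hh.1), fun z => ?_⟩, fun z => ?_⟩
  · rw [gam_two hψ (GS.aff 1 ε) s1 hh.1, gam_two (GS.aff 1 0) (GS.aff (-1) 0) hf.1 hh.1,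
      G.gadd (G.comp (GS.aff 1 0) hf.1) (G.comp (GS.aff (-1) 0) hh.1) hh.1,
      G.gcomp (GS.aff 1 0) hf.1 hh.1, G.gcomp (GS.aff (-1) 0) hh.1 hh.1]
    simp only [deriv_aff]
    obtain ⟨a0, a1⟩ := h01 (1 * f z + 0 + (-1 * h z + 0))
    set l := deriv ψ (1 * f z + 0 + (-1 * h z + 0))
    have := two_gam_le hf.1 hh.1 z
    have := hf.2 z
    have := hh.2 z
    have e : l ^ 2 * (1 ^ 2 * G.gam f f z + 2 * (1 * -1) * G.gam f h z + (-1) ^ 2 * G.gam h h z) +
        2 * (l * 1) * (1 * G.gam f h z + -1 * G.gam h h z) + 1 ^ 2 * G.gam h h z =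
        l ^ 2 * G.gam f f z + l * (1 - l) * (2 * G.gam f h z) + (1 - l) ^ 2 * G.gam h h z := by
      ring
    rw [e]
    nlinarith [mul_nonneg a0 (sub_nonneg.2 a1), sq_nonneg l, sq_nonneg (1 - l)]
  · have := hb (1 * f z + 0 + (-1 * h z + 0))
    rcases le_total (f z) (h z) with c | c
    · rw [max_eq_right (by linarith)] at this; rw [max_eq_right c]; constructor <;> linarith
    · rw [max_eq_left (by linarith)] at this; rw [max_eq_left c]; constructor <;> linarith

theorem L1.neg (hf : G.L1 f) : G.L1 fun x => -1 * f x + 0 := hf.aff (by norm_num) 0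

theorem eqc' (x : M) {ε : ℝ} (hε : 0 < ε) : ∀ᶠ y in 𝓝 x, ∀ f, G.L1 f → |f y - f x| ≤ ε :=
  (G.eqc x ε hε).mono fun y hy f hf => abs_le.2
    ⟨by have := hy _ hf.neg.1 hf.neg.2; linarith, hy f hf.1 hf.2⟩

variable [PreconnectedSpace M]

theorem bdd (x y : M) : BddAbove ((fun f : M → ℝ => f y - f x) '' {f | G.L1 f}) := by
  set A : Set M := {y | ∃ C, ∀ f, G.L1 f → f y - f x ≤ C}
  have st : ∀ y, ∀ᶠ z in 𝓝 y, (z ∈ A ↔ y ∈ A) := fun y => (eqc' (G := G) y one_pos).mono
    fun z hz => ⟨fun ⟨C, hC⟩ => ⟨C + 1, fun f hf => by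
        have := hC f hf; have := abs_le.1 (hz f hf); linarith⟩,
      fun ⟨C, hC⟩ => ⟨C + 1, fun f hf => by
        have := hC f hf; have := abs_le.1 (hz f hf); linarith⟩⟩
  have hc : IsClopen A := ⟨isOpen_compl_iff.1 (isOpen_iff_mem_nhds.2 fun y hy =>
    (st y).mono fun z hz hA => hy (hz.1 hA)), isOpen_iff_mem_nhds.2 fun y hy =>
    (st y).mono fun z hz => hz.2 hy⟩
  have : y ∈ A := by
    rw [hc.eq_univ ⟨x, 0, fun f _ => by simp⟩]; trivial
  obtain ⟨C, hC⟩ := this
  exact ⟨C, by rintro _ ⟨f, hf, rfl⟩; exact hC f hf⟩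

theorem L1.le_d (hf : G.L1 f) (x y : M) : f y - f x ≤ G.d x y := le_csSup (bdd x y) ⟨f, hf, rfl⟩

omit [PreconnectedSpace M] in
theorem d_le {x y : M} {c : ℝ} (H : ∀ f, G.L1 f → f y - f x ≤ c) : G.d x y ≤ c :=
  csSup_le ⟨_, _, L1_const 0, rfl⟩ (by rintro _ ⟨f, hf, rfl⟩; exact H f hf)

omit [PreconnectedSpace M] in
theorem exists_lt {x y : M} {c : ℝ} (H : c < G.d x y) : ∃ f, G.L1 f ∧ c < f y - f x := by
  by_contra! hn
  exact absurd (d_le hn) (not_le.2 H)

theorem d_nonneg (x y : M) : 0 ≤ G.d x y := by simpa using (L1_const (G := G) 0).le_d x y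

theorem d_self (x : M) : G.d x x = 0 := le_antisymm (d_le fun f _ => by simp) (d_nonneg x x)

theorem d_comm (x y : M) : G.d x y = G.d y x := by
  have : ∀ x y, G.d x y ≤ G.d y x := fun x y => d_le fun f hf => by
    have := hf.neg.le_d y x; linarith
  exact le_antisymm (this x y) (this y x)

theorem d_tri (x y z : M) : G.d x z ≤ G.d x y + G.d y z := d_le fun f hf => by
  have := hf.le_d x y; have := hf.le_d y z; linarith

theorem L1.abs_le (hf : G.L1 f) (x y : M) : |f y - f x| ≤ G.d x y :=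
  _root_.abs_le.2 ⟨by have := hf.le_d y x; rw [d_comm] at this; linarith, hf.le_d x y⟩

/-- a bound on the gradient gives a Lipschitz bound -/
theorem lip (hf : G.S f) {K : ℝ} (hK : 0 < K) (H : ∀ z, G.gam f f z ≤ K ^ 2) (x y : M) :
    |f y - f x| ≤ K * G.d x y := by
  have l : G.L1 fun x => K⁻¹ * f x + 0 := ⟨G.comp (aff _ _) hf, fun z => by
    rw [gam_aff hf, inv_pow, inv_mul_le_iff₀ (by positivity), mul_one]; exact H z⟩
  have := l.abs_le x y
  rw [add_zero, add_zero, ← mul_sub, abs_mul, abs_of_pos (inv_pos.2 hK), inv_mul_le_iff₀ hK] at this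
  exact this

omit [PreconnectedSpace M] in
theorem ev_lt (x : M) {ε : ℝ} (hε : 0 < ε) : ∀ᶠ y in 𝓝 x, G.d x y < ε :=
  (G.eqc x (ε / 2) (by positivity)).mono fun y hy =>
    (d_le fun f hf => hy f hf.1 hf.2).trans_lt (by linarith)

theorem exists_ball (x : M) {U : Set M} (hU : U ∈ 𝓝 x) : ∃ δ > 0, ∀ y, G.d x y < δ → y ∈ U := by
  obtain ⟨f, C, hf, hC, h0, h1⟩ := G.bump x U hU
  have C0 : 0 ≤ C := (G.nn hf x).trans (hC x)
  refine ⟨(C + 1)⁻¹, by positivity, fun y hy => by_contra fun hn => ?_⟩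
  have := lip hf (K := C + 1) (by positivity) (fun z => (hC z).trans (by nlinarith)) x y
  rw [h0, sub_zero, abs_of_nonneg (by linarith [h1 y hn])] at this
  have h3 := mul_lt_mul_of_pos_left hy (show 0 < C + 1 by positivity)
  rw [mul_inv_cancel₀ (by positivity)] at h3
  linarith [h1 y hn]

/-- the distance as a pseudo-metric with the given topology -/
@[reducible] def pms (G : GS M) : PseudoMetricSpace M :=
  PseudoMetricSpace.ofDistTopology G.d d_self d_comm d_tri fun s =>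
    ⟨fun hs x hx => exists_ball x (hs.mem_nhds hx), fun H => isOpen_iff_mem_nhds.2 fun x hx => by
      obtain ⟨ε, hε, h⟩ := H x hx
      exact (ev_lt x hε).mono h⟩

theorem d_cont : Continuous fun p : M × M => G.d p.1 p.2 := by
  let _ := G.pms
  exact continuous_dist

theorem d_cont' (x : M) : Continuous (G.d x) := d_cont.comp (Continuous.prodMk_right x)

theorem isOpen_ball (x : M) (r : ℝ) : IsOpen {y | G.d x y < r} :=
  isOpen_lt (d_cont' x) continuous_const

theorem eq_of_d [T1Space M] {x y : M} (H : G.d x y = 0) : x = y := by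
  by_contra hn
  obtain ⟨δ, hδ, h⟩ := exists_ball (G := G) x (isOpen_compl_singleton.mem_nhds hn)
  exact h y (H ▸ hδ) rfl

end GS

end Crest.Agent.N207.Dist

end
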