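import Crest.Agent.N207.C.Dist
import Crest.Agent.N207.C.HC

/-!
# Row 207 (helper99): smooth approximation, midpoints, connected balls, local Lipschitz bound
-/

set_option autoImplicit false
open Set Filter Topology
open scoped ContDiff

noncomputable section

namespace Crest.Agent.N207.Dist

namespace GS

variable {M : Type*} [TopologicalSpace M] {G : GS M} {f h u : M → ℝ}

/-- smooth maximum with pointwise gradient bounds -/
theorem smax (hf : G.S f) (hh : G.S h) {ε : ℝ} (hε : 0 < ε) :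
    ∃ k, G.S k ∧ (∀ z, G.gam h h z ≤ 1 → (h z < f z → G.gam f f z ≤ 1) → G.gam k k z ≤ 1) ∧
      ∀ z, max (f z) (h z) ≤ k z ∧ k z ≤ max (f z) (h z) + ε := by
  obtain ⟨ψ, hψ, h01, hz, -, hb⟩ := exists_psi hε
  have s1 : G.S fun x => 1 * f x + 0 + (-1 * h x + 0) :=
    G.add (G.comp (GS.aff 1 0) hf) (G.comp (GS.aff (-1) 0) hh)
  refine ⟨fun x => ψ (1 * f x + 0 + (-1 * h x + 0)) + (1 * h x + ε),
    G.add (G.comp hψ s1) (G.comp (GS.aff 1 ε) hh), fun z b1 b2 => ?_, fun z => ?_⟩
  · rw [gam_two hψ (GS.aff 1 ε) s1 hh, gam_two (GS.aff 1 0) (GS.aff (-1) 0) hf hh,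
      G.gadd (G.comp (GS.aff 1 0) hf) (G.comp (GS.aff (-1) 0) hh) hh,
      G.gcomp (GS.aff 1 0) hf hh, G.gcomp (GS.aff (-1) 0) hh hh]
    simp only [deriv_aff]
    rcases le_or_gt (f z) (h z) with c | c
    · rw [hz _ (by linarith)]; linarith
    obtain ⟨a0, a1⟩ := h01 (1 * f z + 0 + (-1 * h z + 0))
    set l := deriv ψ (1 * f z + 0 + (-1 * h z + 0))
    have := two_gam_le hf hh z
    have := b2 c
    have e : l ^ 2 * (1 ^ 2 * G.gam f f z + 2 * (1 * -1) * G.gam f h z + (-1) ^ 2 * G.gam h h z) +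
        2 * (l * 1) * (1 * G.gam f h z + -1 * G.gam h h z) + 1 ^ 2 * G.gam h h z =
        l ^ 2 * G.gam f f z + l * (1 - l) * (2 * G.gam f h z) + (1 - l) ^ 2 * G.gam h h z := by
      ring
    rw [e]
    nlinarith [mul_nonneg a0 (sub_nonneg.2 a1), sq_nonneg l, sq_nonneg (1 - l)]
  · have := hb (1 * f z + 0 + (-1 * h z + 0))
    rcases le_total (f z) (h z) with c | c
    · rw [max_eq_right (by linarith)] at this; rw [max_eq_right c]; constructor <;> linarith
    · rw [max_eq_left (by linarith)] at this; rw [max_eq_left c]; constructor <;> linarith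

variable [PreconnectedSpace M] [CompactSpace M]

/-- smooth approximation of the distance from a point -/
theorem approx (G : GS M) (x : M) {ε : ℝ} (hε : 0 < ε) :
    ∃ f, G.L1 f ∧ ∀ z, |f z - G.d x z| ≤ ε := by
  have h1 : ∀ y, ∃ g, G.L1 g ∧ (∀ z, g z ≤ G.d x z) ∧ G.d x y - ε < g y := fun y => by
    obtain ⟨g, hg, hl⟩ := exists_lt (G := G) (x := x) (y := y) (c := G.d x y - ε) (by linarith)
    exact ⟨_, hg.aff (a := 1) (by norm_num) (-g x), fun z => by have := hg.le_d x z; linarith,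
      by linarith⟩
  choose g g1 g2 g3 using h1
  obtain ⟨s, hs⟩ := isCompact_univ.elim_finite_subcover (fun y => {z | G.d x z - ε < g y z})
    (fun y => isOpen_lt ((d_cont' x).sub continuous_const) (G.cont (g1 y).1))
    fun y _ => mem_iUnion.2 ⟨y, g3 y⟩
  have key : ∀ s : Finset M, ∀ e > 0, ∃ f, G.L1 f ∧ (∀ y ∈ s, ∀ z, g y z ≤ f z) ∧
      ∀ z, f z ≤ G.d x z + e := fun s => by
    classical
    induction s using Finset.induction_on with
    | empty => exact fun e he => ⟨_, L1_const 0, by simp, fun z => by linarith [d_nonneg (G := G) x z]⟩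
    | insert y s _ ih =>
      intro e he
      obtain ⟨f, f1, f2, f3⟩ := ih (e / 2) (by positivity)
      obtain ⟨k, k1, k2⟩ := (g1 y).smax f1 (ε := e / 2) (by positivity)
      refine ⟨k, k1, fun w hw z => ?_, fun z => ?_⟩
      · rcases Finset.mem_insert.1 hw with rfl | hw
        · exact (le_max_left _ _).trans (k2 z).1
        · exact ((f2 w hw z).trans (le_max_right _ _)).trans (k2 z).1
      · have : max (g y z) (f z) ≤ G.d x z + e / 2 := max_le (by linarith [g2 y z]) (f3 z)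
        linarith [(k2 z).2]
  obtain ⟨f, f1, f2, f3⟩ := key s ε hε
  refine ⟨f, f1, fun z => abs_le.2 ⟨?_, by linarith [f3 z]⟩⟩
  obtain ⟨y, hy, hz⟩ := mem_iUnion₂.1 (hs (mem_univ z))
  have : G.d x z - ε < g y z := hz
  linarith [f2 y hy z]

/-- almost midpoints -/
theorem mid {x y : M} {a b : ℝ} (ha : 0 < a) (hb : 0 < b) (H : G.d x y < a + b) :
    ∃ z, G.d x z < a ∧ G.d y z < b := by
  by_contra! hn
  obtain ⟨ε, hε, he⟩ : ∃ ε > 0, G.d x y + 6 * ε < a + b := ⟨(a + b - G.d x y) / 7, by linarith,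
    by linarith⟩
  obtain ⟨f, f1, f2⟩ := G.approx x hε
  obtain ⟨h, h1, h2⟩ := G.approx y hε
  obtain ⟨ψ, hψ, h01, hz, h0, hb'⟩ := exists_psi hε
  have c1 : ContDiff ℝ ∞ fun s => -ψ (a - ε - s) := by fun_prop
  have c2 : ContDiff ℝ ∞ fun s => ψ (b - ε - s) := by fun_prop
  have d0 : ∀ c s, HasDerivAt (fun s => ψ (c - s)) (-deriv ψ (c - s)) s := fun c s => by
    have := ((hψ.differentiable (by simp)) (c - s)).hasDerivAt.comp s
      ((hasDerivAt_id s).const_sub c)
    rw [mul_neg, mul_one] at this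
    exact this
  have l : G.L1 fun z => -ψ (a - ε - f z) + ψ (b - ε - h z) := by
    refine ⟨G.add (G.comp (φ := fun s => -ψ (a - ε - s)) c1 f1.1)
      (G.comp (φ := fun s => ψ (b - ε - s)) c2 h1.1), fun z => ?_⟩
    rw [gam_two (φ := fun s => -ψ (a - ε - s)) (χ := fun s => ψ (b - ε - s)) c1 c2 f1.1 h1.1,
      (d0 _ _).fun_neg.deriv, (d0 _ _).deriv]
    have := f1.2 z
    have := h1.2 z
    have := G.nn f1.1 z
    have := G.nn h1.1 z
    rcases lt_or_ge (G.d x z) a with c | c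
    · rw [hz (b - ε - h z) (by linarith [hn z c, abs_le.1 (h2 z)])]
      have := h01 (a - ε - f z)
      have : deriv ψ (a - ε - f z) ^ 2 ≤ 1 := by nlinarith
      nlinarith
    · rw [hz (a - ε - f z) (by linarith [abs_le.1 (f2 z)])]
      have := h01 (b - ε - h z)
      have : deriv ψ (b - ε - h z) ^ 2 ≤ 1 := by nlinarith
      nlinarith
  have k := l.le_d x y
  have e1 : b ≤ G.d y x := hn x (by rw [d_self]; exact ha)
  have e2 : a ≤ G.d x y := not_lt.1 fun c => absurd (hn y c) (by rw [d_self]; exact not_le.2 hb)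
  rw [h0 (a - ε - f y) (by linarith [abs_le.1 (f2 y)]),
    h0 (b - ε - h x) (by linarith [abs_le.1 (h2 x)])] at k
  have i1 := abs_le.1 (f2 x)
  have i2 := abs_le.1 (h2 y)
  rw [d_self] at i1 i2
  linarith [(hb' (a - ε - f x)).1, (hb' (b - ε - h y)).1, le_max_left (a - ε - f x) 0,
    le_max_left (b - ε - h y) 0]

/-- chains with small steps -/
theorem chain {x : M} {δ : ℝ} (hδ : 0 < δ) {P : ℕ → M → Prop} {n : ℕ}
    (h0 : P 0 x)
    (hs : ∀ j < n, ∀ z y, G.d x z ≤ j * δ → G.d z y < δ → P j z → P (j + 1) y) :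
    ∀ j < n, ∀ y, G.d x y < (j + 1) * δ → P (j + 1) y := by
  intro j
  induction j with
  | zero => exact fun hj y hy => hs 0 hj x y (by simp [d_self]) (by simpa using hy) h0
  | succ j ih =>
    intro hj y hy
    obtain ⟨z, z1, z2⟩ := mid (G := G) (x := x) (y := y) (a := (j + 1) * δ) (b := δ)
      (by positivity) hδ (by push_cast at hy; linarith)
    exact hs (j + 1) hj z y (by push_cast; exact z1.le) (by rwa [d_comm])
      (ih (Nat.lt_of_succ_lt hj) z z1)

theorem steps {D r δ : ℝ} (h0 : 0 ≤ D) (h : D < r) (hδ : 0 < δ) :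
    ∃ (n : ℕ) (e : ℝ), 0 < e ∧ e ≤ δ ∧ D < (n + 1) * e ∧ (n + 1) * e < r := by
  obtain ⟨n, hn⟩ := exists_nat_ge ((D + r) / 2 / δ)
  refine ⟨n, (D + r) / 2 / (n + 1), by have : 0 < D + r := by linarith
                                       positivity, ?_, ?_, ?_⟩
  · rw [div_le_iff₀ hδ] at hn
    rw [div_le_iff₀ (by positivity)]; nlinarith
  · rw [mul_div_cancel₀ _ (by positivity)]; linarith
  · rw [mul_div_cancel₀ _ (by positivity)]; linarith

/-- open balls are connected -/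
theorem ball_conn (G : GS M) (x : M) (r : ℝ) : IsPreconnected {y | G.d x y < r} := by
  have key : ∀ u v : Set M, IsOpen u → IsOpen v → {y | G.d x y < r} ⊆ u ∪ v → x ∈ u →
      ¬({y | G.d x y < r} ∩ (u ∩ v)).Nonempty → {y | G.d x y < r} ⊆ u := by
    intro u v hu hv hc hx hn y hy
    let _ := G.pms
    obtain ⟨r', r1, r2⟩ := exists_between (show G.d x y < r from hy)
    obtain ⟨δ, hδ, hl⟩ := lebesgue_number_lemma_of_metric (s := {z | G.d x z ≤ r'})
      (c := fun b : Bool => if b then u else v)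
      (isClosed_le (d_cont' x) continuous_const).isCompact (fun b => by cases b <;> simpa)
      fun z hz => by
        rcases hc (show G.d x z < r from lt_of_le_of_lt hz r2) with c | c
        · exact mem_iUnion.2 ⟨true, c⟩
        · exact mem_iUnion.2 ⟨false, c⟩
    obtain ⟨n, e, e0, e1, e2, e3⟩ := steps (d_nonneg x y) r1 hδ
    refine chain (G := G) e0 (P := fun _ z => z ∈ u) (n := n + 1) hx (fun j hj z w z1 z2 z3 => ?_)
      n n.lt_succ_self y e2
    have hj' : (j : ℝ) * e ≤ (n + 1) * e :=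
      mul_le_mul_of_nonneg_right (by exact_mod_cast hj.le) e0.le
    obtain ⟨b, hb⟩ := hl z (show G.d x z ≤ r' by linarith)
    cases b
    · exact absurd ⟨z, show G.d x z < r by linarith, z3, hb (Metric.mem_ball_self hδ)⟩ hn
    · exact hb (show G.d w z < δ by rw [d_comm]; linarith)
  intro u v hu hv hc ⟨p, hp, hpu⟩ ⟨q, hq, hqv⟩
  by_contra hn
  have hx : G.d x x < r := by rw [d_self]; exact (d_nonneg x p).trans_lt hp
  rcases hc hx with c | c
  · exact hn ⟨q, hq, key u v hu hv hc c hn hq, hqv⟩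
  · exact hn ⟨p, hp, hpu, key v u hv hu (by rwa [union_comm]) c (by rwa [inter_comm v u]) hp⟩

theorem lip_half (hu : G.S u) {x y : M} {r : ℝ} (H : ∀ z, G.d x z < r → G.gam u u z ≤ 1)
    (hy : 2 * G.d x y < r) : u y - u x ≤ G.d x y := by
  by_contra! hn
  have D0 := d_nonneg (G := G) x y
  obtain ⟨ε, hε, e1, e2⟩ : ∃ ε > 0, G.d x y + 2 * ε < u y - u x ∧ 2 * G.d x y + 5 * ε < r :=
    ⟨min (u y - u x - G.d x y) (r - 2 * G.d x y) / 6, by
      have : 0 < min (u y - u x - G.d x y) (r - 2 * G.d x y) := lt_min (by linarith) (by linarith)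
      positivity, by linarith [min_le_left (u y - u x - G.d x y) (r - 2 * G.d x y)],
      by linarith [min_le_right (u y - u x - G.d x y) (r - 2 * G.d x y)]⟩
  obtain ⟨f, f1, f2⟩ := G.approx x hε
  have q := f1.aff (a := 1) (by norm_num) (-(r - 2 * ε))
  obtain ⟨k, k1, k2, k3⟩ := smax (G.comp (aff (-1) (u x)) hu) q.1 hε
  obtain ⟨l, l1, l2, l3⟩ := smax (G.comp (aff (-1) 0) k1) q.1 hε
  have L : G.L1 l := ⟨l1, fun z => l2 z (q.2 z) fun c => by
    have := (le_max_right _ _).trans (k3 z).1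
    rw [gam_aff k1]
    have := k2 z (q.2 z) fun _ => by
      rw [gam_aff hu]; linarith [H z (by linarith [abs_le.1 (f2 z)])]
    linarith⟩
  have a1 := L.le_d x y
  have a2 := abs_le.1 (f2 x)
  have a3 := abs_le.1 (f2 y)
  rw [d_self] at a2
  have b1 := (le_max_left _ _).trans (k3 x).1
  have b2 : l x ≤ 0 + ε := (l3 x).2.trans (by gcongr; exact max_le (by linarith) (by linarith))
  have b3 := (le_max_left _ _).trans (l3 y).1
  have b4 : max (-1 * u y + u x) (1 * f y + -(r - 2 * ε)) < -G.d x y - 2 * ε :=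
    max_lt (by linarith) (by linarith)
  linarith [(k3 y).2]

/-- a gradient bound on a ball gives the Lipschitz bound from the centre -/
theorem lip_ball (hu : G.S u) {x y : M} {r : ℝ} (H : ∀ z, G.d x z < r → G.gam u u z ≤ 1)
    (hy : G.d x y < r) : |u y - u x| ≤ G.d x y := by
  have key : ∀ u, G.S u → (∀ z, G.d x z < r → G.gam u u z ≤ 1) → u y - u x ≤ G.d x y := by
    intro u hu H
    refine le_of_forall_gt_imp_ge_of_dense fun c hc => ?_
    obtain ⟨r', r1, r2⟩ := exists_between (lt_min hy hc)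
    have r3 := r2.trans_le (min_le_left _ _)
    obtain ⟨n, e, e0, e1, e2, e3⟩ := steps (δ := (r - r') / 2) (d_nonneg x y) r1 (by linarith)
    have := chain (G := G) e0 (P := fun j z => u z - u x ≤ j * e) (n := n + 1) (by simp)
      (fun j hj z w z1 z2 z3 => by
        have hj' : (j : ℝ) * e ≤ (n + 1) * e :=
          mul_le_mul_of_nonneg_right (by exact_mod_cast hj.le) e0.le
        have := lip_half hu (x := z) (y := w) (r := 2 * e)
          (fun p hp => H p (by linarith [d_tri (G := G) x z p])) (by linarith)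
        push_cast; linarith) n n.lt_succ_self y e2
    push_cast at this
    linarith [r2.trans_le (min_le_right _ _)]
  refine abs_le.2 ⟨?_, key u hu H⟩
  have := key _ (G.comp (aff (-1) 0) hu) fun z hz => by rw [gam_aff hu]; linarith [H z hz]
  linarith

end GS

end Crest.Agent.N207.Dist

namespace Crest.Agent.N207.HC

open _root_.Crest.Agent.N207.Dist

variable {M : Type*} [TopologicalSpace M] [MeasurableSpace M] (H : HC M)

/-- the three chart facts behind `HC.Dist` -/
structure DistIn : Prop where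
  d_eq : ∀ t ∈ Ioo 0 H.T, ∀ x y, H.d t x y =
    sSup ((fun f : M → ℝ => f y - f x) '' {f | H.S0 f ∧ ∀ z, H.gam t f f z ≤ 1})
  eqc : ∀ t ∈ Ioo 0 H.T, ∀ x, ∀ ε > 0, ∀ᶠ y in 𝓝 x, ∀ f, H.S0 f → (∀ z, H.gam t f f z ≤ 1) →
    f y - f x ≤ ε
  bump : ∀ x, ∀ U ∈ 𝓝 x, ∃ f, H.S0 f ∧ f x = 0 ∧ ∀ y ∉ U, 1 ≤ f y

variable {H} [CompactSpace M]

omit [CompactSpace M] in
theorem Alg.s0_gam' (A : H.Alg) {t : ℝ} (ht : t ∈ Ioo 0 H.T) {u v : M → ℝ} (hu : H.S0 u)
    (hv : H.S0 v) : H.S0 (H.gam t u v) :=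
  A.sm_s0 (A.sm_gam (a := t) (b := (t + H.T) / 2) ⟨ht.1, by linarith [ht.2], by linarith [ht.2]⟩
    (A.sm_static hu) (A.sm_static hv)) t ⟨le_rfl, by linarith [ht.2]⟩

/-- the carré du champ of one time slice -/
def gs (A : H.Alg) (D : H.DistIn) {t : ℝ} (ht : t ∈ Ioo 0 H.T) : GS M where
  S := H.S0
  gam := H.gam t
  cont := A.s0_cont
  const := A.s0_const
  add := A.s0_add
  comp hφ hf := A.s0_comp isOpen_univ hφ.contDiffOn (fun _ => trivial) hf
  symm := A.gam_symm t ht
  gadd := A.gam_add t ht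
  gcomp hφ hf hk := A.gam_comp t ht isOpen_univ hφ.contDiffOn (fun _ => trivial) hf hk
  nn := A.gam_nonneg t ht
  eqc := D.eqc t ht
  bump x U hU := by
    obtain ⟨f, f1, f2, f3⟩ := D.bump x U hU
    obtain ⟨C, hC⟩ := (isCompact_range (A.s0_cont (A.s0_gam' ht f1 f1))).bddAbove
    exact ⟨f, C, f1, fun z => hC ⟨z, rfl⟩, f2, f3⟩

theorem d_gs (A : H.Alg) (D : H.DistIn) {t : ℝ} (ht : t ∈ Ioo 0 H.T) :
    H.d t = (gs A D ht).d := funext₂ (D.d_eq t ht)

/-- **the distance facts** -/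
theorem dist_of [PreconnectedSpace M] (A : H.Alg) (D : H.DistIn) : H.Dist where
  self t ht x := by rw [d_gs A D ht]; exact GS.d_self x
  symm t ht x y := by rw [d_gs A D ht]; exact GS.d_comm x y
  tri t ht x y z := by rw [d_gs A D ht]; exact GS.d_tri x y z
  cont t ht x := by rw [d_gs A D ht]; exact GS.d_cont' x
  lip t ht u x y r hu := by rw [d_gs A D ht]; exact GS.lip_ball (G := gs A D ht) hu
  approx t ht x ε hε := by
    rw [d_gs A D ht]
    obtain ⟨f, f1, f2⟩ := (gs A D ht).approx x hε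
    exact ⟨f, f1.1, f1.2, f2⟩
  conn t ht x y r h := by
    rw [d_gs A D ht] at h ⊢
    exact ⟨_, (gs A D ht).ball_conn x r, show _ < r by
      rw [GS.d_self]; exact (GS.d_nonneg x y).trans_lt h, h, fun _ hz => hz⟩

end Crest.Agent.N207.HC

end
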