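import Crest.Agent.N207.C.Max

/-!
# Row 207, block C: heat flow of 1-Lipschitz functions, lower distance distortion
-/

set_option autoImplicit false
set_option linter.dupNamespace false
set_option linter.unusedSectionVars false
open Set MeasureTheory Filter Topology
open scoped ContDiff

noncomputable section

namespace Crest.Agent.N207

/-- `|φ'| ≤ C / √(s - a)` gives `|φ t - φ s| ≤ 2 C √(t - s)` -/
theorem abs_sub_le_sqrt {φ φ' : ℝ → ℝ} {a b C : ℝ} (hC : 0 ≤ C)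
    (hd : ∀ t ∈ Icc a b, HasDerivWithinAt φ (φ' t) (Icc a b) t)
    (h : ∀ t ∈ Ioc a b, |φ' t| ≤ C / √(t - a)) {s t : ℝ} (hs : s ∈ Icc a b) (ht : t ∈ Icc a b)
    (hst : s ≤ t) : |φ t - φ s| ≤ 2 * C * √(t - s) := by
  have key : ∀ e : ℝ, |e| = 1 → e * φ t - e * φ s ≤ 2 * C * √(t - s) := by
    intro e he
    have hm : AntitoneOn (fun r => e * φ r - 2 * C * √(r - s)) (Icc s t) := by
      refine antitoneOn_of_hasDerivWithinAt_nonpos
        (f' := fun r => e * φ' r - 2 * C * (1 / (2 * √(r - s)))) (convex_Icc s t) ?_ ?_ ?_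
      · refine ContinuousOn.sub (fun r hr => ?_) (by fun_prop)
        exact ((hd r ⟨hs.1.trans hr.1, hr.2.trans ht.2⟩).continuousWithinAt.mono
          (Icc_subset_Icc hs.1 ht.2)).const_smul e
      · intro r hr
        rw [interior_Icc] at hr ⊢
        have h1 := ((hd r ⟨hs.1.trans hr.1.le, hr.2.le.trans ht.2⟩).mono
          (show Ioo s t ⊆ Icc a b from fun q hq => ⟨hs.1.trans hq.1.le, hq.2.le.trans ht.2⟩)
          ).const_mul e
        have h2 : HasDerivAt (fun r => √(r - s)) (1 / (2 * √(r - s))) r := by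
          simpa using ((hasDerivAt_id r).sub_const s).sqrt (by simpa using (sub_pos.2 hr.1).ne')
        exact h1.sub (h2.const_mul (2 * C)).hasDerivWithinAt
      · intro r hr
        rw [interior_Icc] at hr
        have h1 := h r ⟨lt_of_le_of_lt hs.1 hr.1, hr.2.le.trans ht.2⟩
        have h2 : 0 < √(r - s) := Real.sqrt_pos.2 (sub_pos.2 hr.1)
        have h3 : C / √(r - a) ≤ C / √(r - s) :=
          div_le_div_of_nonneg_left hC h2 (Real.sqrt_le_sqrt (by linarith [hs.1]))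
        have h4 : e * φ' r ≤ |φ' r| := by
          have := le_abs_self (e * φ' r); rwa [abs_mul, he, one_mul] at this
        have h5 : 2 * C * (1 / (2 * √(r - s))) = C / √(r - s) := by field_simp
        linarith
    have := hm ⟨le_rfl, hst⟩ ⟨hst, le_rfl⟩ hst
    simp only [sub_self, Real.sqrt_zero, mul_zero, sub_zero] at this
    linarith
  have h1 := key 1 (by simp)
  have h2 := key (-1) (by simp)
  rw [abs_le]; constructor <;> linarith

namespace HC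

variable {M : Type*} [TopologicalSpace M] [CompactSpace M] [MeasurableSpace M] {H : HC M}

namespace Alg

variable (A : H.Alg) {a b : ℝ}
include A

/-- `(∂ₜ - Δ) φ(u) = -φ''(u) |∇u|²` for a heat solution -/
theorem heat_comp {u : ℝ → M → ℝ} (hs : H.St a b) (hu : H.Heat a b u) {φ : ℝ → ℝ}
    (hφ : ContDiff ℝ ∞ φ) : HasDt a b (fun t x => φ (u t x)) fun t x =>
      H.lap t (fun y => φ (u t y)) x - deriv (deriv φ) (u t x) * H.gam t (u t) (u t) x :=
  (hu.2.comp isOpen_univ hφ.contDiffOn fun _ _ _ => mem_univ _).congr_d fun t ht x => by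
    rw [A.lap_compU (hs.mem ht) hφ (A.sm_s0 hu.1 t ht)]; ring

theorem heat_lap_aux (E : H.Evo) {u : ℝ → M → ℝ} (hs : H.St a b) (hu : H.Heat a b u) {K : ℝ}
    (hK : ∀ t ∈ Ioo 0 H.T, ∀ x, |H.R t x| ≤ K) (h0 : ∀ x, H.gam a (u a) (u a) x ≤ 1) (x : M) :
    H.lap b (u b) x ≤ (2 + 2 * K * (b - a)) / √(b - a) := by
  set σ := √(b - a) with hσ
  have hba : 0 < b - a := sub_pos.2 hs.2.1
  have hσ0 : 0 < σ := Real.sqrt_pos.2 hba
  have hσ2 : σ ^ 2 = b - a := Real.sq_sqrt hba.le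
  have hK0 : 0 ≤ K := (abs_nonneg _).trans (hK a (hs.mem ⟨le_rfl, hs.2.1.le⟩) x)
  have t1 : H.Sm a b fun t (_ : M) => t - a := A.sm_timeU (by fun_prop)
  have t2 : H.Sm a b fun t (_ : M) => -(t - a) ^ 2 / (2 * σ) := A.sm_timeU (by fun_prop)
  have d1 : HasDt a b (fun t (_ : M) => t - a) fun _ _ => 1 :=
    HasDt.time (c' := fun _ => 1) fun t _ => (hasDerivAt_id t).sub_const a
  have d2 : HasDt a b (fun t (_ : M) => -(t - a) ^ 2 / (2 * σ)) fun t _ => -(t - a) / σ :=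
    HasDt.time fun t _ => by
      have := ((((hasDerivAt_id t).sub_const a).pow 2).neg).div_const (2 * σ)
      refine HasDerivAt.congr_deriv (f := fun t => -(t - a) ^ 2 / (2 * σ)) this ?_
      simp only [id]; field_simp; ring
  have sl := A.sm_lap hs hu.1
  have sg := A.sm_gam hs hu.1 hu.1
  have hQ := A.sub_le hs (A.sm_add (A.sm_add (A.sm_mul t1 sl) (A.sm_cmul σ sg))
      (A.sm_mul t2 (A.sm_R hs)))
    (((d1.mul (E.dt_lap hs hu.1 hu.2)).add ((E.dt_gam hs hu.1 hu.2).cmul σ)).add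
      (d2.mul (E.dt_R hs))) (m := σ) (c := 1 / σ + σ * K)
    (fun y => by
      have := mul_le_mul_of_nonneg_left (h0 y) hσ0.le
      simpa using this) (fun t ht y => by
      have hm : t ∈ Icc a b := Ioc_subset_Icc_self ht
      have hm' := hs.mem hm
      have su := A.sm_s0 hu.1 t hm
      have s1 := A.s0_lap hm' su
      have s2 := A.s0_gam hm' su su
      have s3 := A.s0_R hm'
      rw [A.lap_add t hm' (A.s0_add (A.s0_cmul _ s1) (A.s0_cmul _ s2)) (A.s0_cmul _ s3),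
        A.lap_add t hm' (A.s0_cmul _ s1) (A.s0_cmul _ s2), A.lap_cmul hm' _ s1,
        A.lap_cmul hm' _ s2, A.lap_cmul hm' _ s3]
      simp only [sub_self]
      rw [A.gam_const' hm' 0 su]
      have e1 := E.lap_sq t hm' su y
      have e2 := E.rh_sq t hm' su y
      have e3 := E.hh_nonneg t hm' su y
      have e4 := E.Q_nonneg 0 t hm' y
      have e5 := abs_le.1 (hK t hm' y)
      set L := H.lap t (u t) y
      set h := H.hh t (u t) y
      set r := H.rh t (u t) y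
      set q := H.Q 0 t y
      set s := t - a with hs'
      have hs0 : 0 < s := sub_pos.2 ht.1
      have hs1 : s ≤ σ ^ 2 := by rw [hσ2]; linarith [ht.2]
      have f1 : L ≤ σ * h + 1 / σ := by
        have : σ * L ≤ σ ^ 2 * h + 1 := by nlinarith [sq_nonneg (σ * L - 2), sq_nonneg σ]
        have h2 : σ * h + 1 / σ = (σ ^ 2 * h + 1) / σ := by field_simp
        rw [h2, le_div_iff₀ hσ0]; linarith
      have f2 : 2 * s * r ≤ σ * h + s ^ 2 * q / σ := by
        have h2 : σ * h + s ^ 2 * q / σ = (σ ^ 2 * h + s ^ 2 * q) / σ := by field_simp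
        rw [h2, le_div_iff₀ hσ0]
        have h3 : 0 ≤ σ ^ 2 * h + s ^ 2 * q := by positivity
        refine le_of_sq_le_sq ?_ h3 |>.trans' (le_abs_self _) |> fun h => h
        have h4 : (2 * s * r * σ) ^ 2 ≤ 4 * (σ ^ 2 * h) * (s ^ 2 * q) := by
          have : 0 ≤ s ^ 2 * σ ^ 2 := by positivity
          nlinarith
        rw [sq_abs]
        nlinarith [sq_nonneg (σ ^ 2 * h - s ^ 2 * q)]
      have f3 : -s / σ * H.R t y ≤ σ * K := by
        have h2 : -s / σ * H.R t y = s / σ * (-H.R t y) := by ring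
        have h3 : s / σ ≤ σ := by rw [div_le_iff₀ hσ0]; nlinarith
        have h4 : 0 ≤ s / σ := by positivity
        rw [h2]; nlinarith
      have f4 : -s ^ 2 / (2 * σ) * (H.lap t (H.R t) y + 2 * q) =
          -s ^ 2 / (2 * σ) * H.lap t (H.R t) y - s ^ 2 * q / σ := by field_simp; ring
      rw [f4]
      linarith) b ⟨hs.2.1.le, le_rfl⟩ x
  have hb' := hs.mem ⟨hs.2.1.le, le_rfl⟩
  have g0 := A.gam_nonneg b hb' (A.sm_s0 hu.1 b ⟨hs.2.1.le, le_rfl⟩) x
  have e5 := abs_le.1 (hK b hb' x)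
  rw [← hσ2] at hQ ⊢
  rw [le_div_iff₀ hσ0]
  have h1 : -(σ ^ 2) ^ 2 / (2 * σ) = -σ ^ 3 / 2 := by field_simp
  have h2 : (1 / σ + σ * K) * σ ^ 2 = σ + σ ^ 3 * K := by field_simp
  rw [h1, h2] at hQ
  have h3 : 0 < σ ^ 3 := by positivity
  have h4 : σ * (H.lap b (u b) x * σ) ≤ σ * (2 + 2 * K * σ ^ 2) := by nlinarith
  exact le_of_mul_le_mul_left h4 hσ0

/-- `|uₜ| ≤ C / √(t - a)` for the heat flow of a 1-Lipschitz function -/
theorem heat_lap (E : H.Evo) : ∃ C, 0 < C ∧ ∀ {a b : ℝ} {u : ℝ → M → ℝ}, H.St a b → H.Heat a b u →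
    (∀ x, H.gam a (u a) (u a) x ≤ 1) → ∀ t ∈ Ioc a b, ∀ x, |H.lap t (u t) x| ≤ C / √(t - a) := by
  obtain ⟨K, hK⟩ := E.R_bd
  have hK' : ∀ t ∈ Ioo 0 H.T, ∀ x, |H.R t x| ≤ max K 0 :=
    fun t ht x => (hK t ht x).trans (le_max_left _ _)
  have hT := A.T_pos
  have hm := le_max_right K 0
  refine ⟨2 + 2 * max K 0 * H.T, by positivity, fun {a b u} hs hu h0 t ht x => ?_⟩
  have hs' : H.St a t := hs.mono le_rfl ht.1 ht.2
  have hu' := A.heat_mono hu le_rfl ht.2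
  have ha := hs.mem ⟨le_rfl, hs.2.1.le⟩
  have sa := A.sm_s0 hu.1 a ⟨le_rfl, hs.2.1.le⟩
  have h1 := A.heat_lap_aux E hs' hu' hK' h0 x
  have h2 := A.heat_lap_aux E hs' (A.heat_neg hs' hu') hK' (fun y => by
    rw [A.gam_neg ha sa (A.s0_neg sa), A.gam_neg' ha sa sa, neg_neg]; exact h0 y) x
  rw [A.lap_neg (hs.mem (Ioc_subset_Icc_self ht)) (A.sm_s0 hu.1 t (Ioc_subset_Icc_self ht))] at h2
  have h3 : (2 + 2 * max K 0 * (t - a)) / √(t - a) ≤ (2 + 2 * max K 0 * H.T) / √(t - a) := by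
    have : t - a ≤ H.T := by linarith [hs.1, ht.2, hs.2.2]
    gcongr
  rw [abs_le]; constructor <;> linarith

/-- the heat flow of a 1-Lipschitz function moves by at most `C √(t - s)` -/
theorem heat_move (E : H.Evo) : ∃ C, 0 < C ∧ ∀ {a b : ℝ} {u : ℝ → M → ℝ}, H.St a b →
    H.Heat a b u → (∀ x, H.gam a (u a) (u a) x ≤ 1) → ∀ s ∈ Icc a b, ∀ t ∈ Icc a b, s ≤ t →
    ∀ x, |u t x - u s x| ≤ C * √(t - s) := by
  obtain ⟨C, hC, h⟩ := A.heat_lap E
  exact ⟨2 * C, by positivity, fun hs hu h0 s hs' t ht hst x =>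
    abs_sub_le_sqrt hC.le (fun r hr => hu.2 r hr x) (fun r hr => h hs hu h0 r hr x) hs' ht hst⟩

theorem lip_glob (D : H.Dist) {t : ℝ} (ht : t ∈ Ioo 0 H.T) {u : M → ℝ} (hu : H.S0 u)
    (h : ∀ z, H.gam t u u z ≤ 1) (x y : M) : |u y - u x| ≤ H.d t x y :=
  D.lip t ht (r := H.d t x y + 1) hu (fun z _ => h z) (by linarith)

omit A in
theorem d_nonneg (D : H.Dist) {t : ℝ} (ht : t ∈ Ioo 0 H.T) (x y : M) : 0 ≤ H.d t x y := by
  have h1 := D.tri t ht x y x
  rw [D.self t ht, D.symm t ht y x] at h1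
  linarith

/-- the heat flow of a smoothed distance function: the source of all cutoffs -/
theorem exists_lipheat (E : H.Evo) (S : H.Solv) (D : H.Dist) : ∃ C, 0 < C ∧ ∀ {a b : ℝ},
    H.St a b → ∀ x : M, ∀ ε > 0, ∃ u, H.Heat a b u ∧ (∀ t ∈ Icc a b, ∀ y, H.gam t (u t) (u t) y ≤ 1) ∧
      (∀ t ∈ Ioc a b, ∀ y, |H.lap t (u t) y| ≤ C / √(t - a)) ∧
      (∀ s ∈ Icc a b, ∀ t ∈ Icc a b, s ≤ t → ∀ y, |u t y - u s y| ≤ C * √(t - s)) ∧
      (∀ t ∈ Icc a b, ∀ y, |u t y - H.d a x y| ≤ ε + C * √(t - a)) ∧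
      (∀ t ∈ Icc a b, ∀ y z, |u t z - u t y| ≤ H.d t y z) := by
  obtain ⟨C1, hC1, h1⟩ := A.heat_lap E
  obtain ⟨C2, hC2, h2⟩ := A.heat_move E
  refine ⟨C1 + C2, by positivity, fun {a b} hs x ε hε => ?_⟩
  have ha : a ∈ Icc a b := ⟨le_rfl, hs.2.1.le⟩
  obtain ⟨u0, s0, g0, a0⟩ := D.approx a (hs.mem ha) x ε hε
  obtain ⟨u, hu, e⟩ := S.heat hs s0
  have g1 : ∀ y, H.gam a (u a) (u a) y ≤ 1 := by rw [e]; exact g0
  have g2 := A.heat_gam E hs hu g1
  have m : ∀ s ∈ Icc a b, ∀ t ∈ Icc a b, s ≤ t → ∀ y, |u t y - u s y| ≤ (C1 + C2) * √(t - s) :=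
    fun s hs' t ht hst y => (h2 hs hu g1 s hs' t ht hst y).trans (by gcongr; linarith)
  refine ⟨u, hu, g2, fun t ht y => (h1 hs hu g1 t ht y).trans (by gcongr; linarith), m,
    fun t ht y => ?_, fun t ht y z => A.lip_glob D (hs.mem ht) (A.sm_s0 hu.1 t ht) (g2 t ht) y z⟩
  have h3 := abs_le.1 (m a ha t ht ht.1 y)
  have h4 := abs_le.1 (a0 y)
  rw [e] at h3
  rw [abs_le]; constructor <;> linarith

/-- distances cannot shrink fast: `d_s ≤ d_t + C √(t - s)` for `s ≤ t` -/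
theorem dist_lower (E : H.Evo) (S : H.Solv) (D : H.Dist) : ∃ C, 0 < C ∧ ∀ s ∈ Ioo 0 H.T,
    ∀ t ∈ Ioo 0 H.T, s ≤ t → ∀ x y, H.d s x y ≤ H.d t x y + C * √(t - s) := by
  obtain ⟨C, hC, h⟩ := A.exists_lipheat E S D
  refine ⟨2 * C, by positivity, fun s hs t ht hst x y => ?_⟩
  rcases hst.eq_or_lt with rfl | hlt
  · simp
  refine le_of_forall_pos_le_add fun ε hε => ?_
  obtain ⟨u, -, -, -, -, h1, h2⟩ := h ⟨hs.1, hlt, ht.2⟩ x (ε / 2) (by positivity)
  have h3 := abs_le.1 (h1 t ⟨hst, le_rfl⟩ x)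
  have h4 := abs_le.1 (h1 t ⟨hst, le_rfl⟩ y)
  have h5 := abs_le.1 (h2 t ⟨hst, le_rfl⟩ x y)
  rw [D.self s hs] at h3
  linarith

end Alg

end HC

end Crest.Agent.N207

end
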