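import Crest.Agent.N207.C.VolUp
import Crest.Agent.N207.C.Lip

/-! Row 207, block C (helper99): distances do not grow fast (packing argument). -/

set_option autoImplicit false
set_option linter.dupNamespace false
set_option linter.unusedSectionVars false
open Set MeasureTheory Filter Topology Real
open scoped ContDiff

noncomputable section

namespace Crest.Agent.N207

namespace HC

variable {M : Type*} [TopologicalSpace M] [CompactSpace M] [MeasurableSpace M]
  [OpensMeasurableSpace M] {H : HC M}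

/-- packing of disjoint balls along a connected set -/
theorem Dist.pack (D : H.Dist) {t : ℝ} (ht : t ∈ Ioo 0 H.T) {μ : Measure M} [IsFiniteMeasure μ]
    {K S : Set M} (hK : IsPreconnected K) {x y : M} (hx : x ∈ K) (hy : y ∈ K) {r κ : ℝ}
    (hr : 0 < r) (hκ : 0 ≤ κ) (hv : ∀ z ∈ K, κ ≤ μ.real (H.B t z r))
    (hS : ∀ z ∈ K, H.B t z r ⊆ S) : H.d t x y * κ ≤ 2 * r * μ.real S := by
  rcases le_or_gt (H.d t x y) 0 with h0 | h0
  · exact (mul_nonpos_of_nonpos_of_nonneg h0 hκ).trans (by positivity)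
  set N := ⌊H.d t x y / (2 * r)⌋₊
  have iv := hK.intermediate_value hx hy (D.cont t ht x).continuousOn
  have ex : ∀ i : ℕ, ∃ z ∈ K, i ≤ N → H.d t x z = 2 * r * i := fun i => by
    by_cases hi : i ≤ N
    · obtain ⟨z, z1, z2⟩ := iv (show 2 * r * i ∈ Icc (H.d t x x) (H.d t x y) from
        ⟨by rw [D.self t ht]; positivity, by
          have : (i : ℝ) ≤ H.d t x y / (2 * r) :=
            (Nat.cast_le.2 hi).trans (Nat.floor_le (by positivity))
          rwa [le_div_iff₀' (by positivity)] at this⟩)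
      exact ⟨z, z1, fun _ => z2⟩
    · exact ⟨x, hx, fun h => absurd h hi⟩
  choose z zK hz using ex
  have dj : ∀ i j, i < j → j ≤ N → Disjoint (H.B t (z i) r) (H.B t (z j) r) := fun i j hij hj =>
    disjoint_left.2 fun w (h1 : _ < r) (h2 : _ < r) => by
      have a1 := D.tri t ht x (z i) (z j)
      have a2 := D.tri t ht (z i) w (z j)
      rw [D.symm t ht w] at a2
      rw [hz i (by omega), hz j hj] at a1
      have : (i : ℝ) + 1 ≤ j := by exact_mod_cast hij
      nlinarith
  have e := measureReal_biUnion_finset (μ := μ) (s := Finset.range (N + 1))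
    (f := fun i => H.B t (z i) r) (fun i hi j hj hij => by
      have hi' := Finset.mem_range.1 hi
      have hj' := Finset.mem_range.1 hj
      rcases lt_or_gt_of_ne hij with c | c
      · exact dj i j c (by omega)
      · exact (dj j i c (by omega)).symm) fun i _ => D.meas_B ht _ _
  have l1 : μ.real (⋃ i ∈ Finset.range (N + 1), H.B t (z i) r) ≤ μ.real S :=
    measureReal_mono (iUnion₂_subset fun i _ => hS _ (zK i))
  have l2 := Finset.card_nsmul_le_sum (Finset.range (N + 1)) (fun i => μ.real (H.B t (z i) r)) κ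
    fun i _ => hv _ (zK i)
  rw [Finset.card_range, nsmul_eq_mul, ← e] at l2
  have l3 : H.d t x y / (2 * r) < (N + 1 : ℕ) := by push_cast; exact Nat.lt_floor_add_one _
  rw [div_lt_iff₀ (by positivity)] at l3
  nlinarith [mul_le_mul_of_nonneg_right l3.le hκ]

/-- comparison of the volumes at two times -/
theorem vol_cmp (I : H.Intg) (E : H.Evo) : ∃ W, 0 < W ∧ ∀ s ∈ Ioo 0 H.T, ∀ t ∈ Ioo 0 H.T,
    ∀ S : Set M, (H.vol t).real S ≤ W * (H.vol s).real S := by
  obtain ⟨K, hK⟩ := E.R_bd
  have hK' : ∀ t ∈ Ioo 0 H.T, ∀ x, |H.R t x| ≤ |K| := fun t ht x =>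
    (hK t ht x).trans (le_abs_self _)
  refine ⟨exp (|K| * H.T), exp_pos _, fun s hs t ht S => ?_⟩
  have := I.fin s hs
  have h := ENNReal.toReal_mono (ENNReal.mul_ne_top ENNReal.ofReal_ne_top (measure_ne_top _ S))
    (I.vol_le hK' s hs t ht S)
  rw [ENNReal.toReal_mul, ENNReal.toReal_ofReal (exp_pos _).le] at h
  refine h.trans (mul_le_mul_of_nonneg_right (exp_le_exp.2 ?_) ENNReal.toReal_nonneg)
  exact mul_le_mul_of_nonneg_left (abs_le.2 ⟨by linarith [hs.2, ht.1], by linarith [hs.1, ht.2]⟩)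
    (abs_nonneg _)

theorem distUp' (A : H.Alg) (I : H.Intg) (E : H.Evo) (D : H.Dist) (lo : H.VolLo) (up : H.VolUp)
    (dl : H.DistLo) : H.DistUp := fun t0 h0 => by
  obtain ⟨κ, hκ, h1⟩ := lo t0 h0
  obtain ⟨C, hC, h2⟩ := up t0 h0
  obtain ⟨L, hL, h3⟩ := dl
  obtain ⟨V, hV, h4⟩ := vol_tot A I E h0
  obtain ⟨W, hW, h5⟩ := vol_cmp I E
  refine ⟨2 * (W * C * (2 + L) ^ 4 + V) / κ, by positivity, fun s t hs hst hT x y => ?_⟩
  have ms : s ∈ Ioo 0 H.T := ⟨by linarith, by linarith⟩
  have mt : t ∈ Ioo 0 H.T := ⟨by linarith, hT⟩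
  have := I.fin t mt
  have d0 := Alg.d_nonneg D ms x y
  have q0 := sqrt_nonneg (t - s)
  have key : ∀ ρ, H.d s x y + √(t - s) < ρ →
      H.d t x y ≤ 2 * (W * C * (2 + L) ^ 4 + V) / κ * ρ := fun ρ hρ => by
    have r0 : 0 < ρ := by linarith
    obtain ⟨K, k1, k2, k3, k4⟩ := D.conn s ms (show H.d s x y < ρ by linarith)
    rw [div_mul_eq_mul_div, le_div_iff₀ hκ]
    have p0 : 0 ≤ W * C * (2 + L) ^ 4 := by positivity
    rcases le_total ρ 1 with c | c
    · have a := D.pack mt (μ := H.vol t) (S := H.B s x ((2 + L) * ρ)) k1 k2 k3 r0 (by positivity)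
        (fun z _ => h1 t ⟨by linarith, hT⟩ z ρ ⟨r0, c⟩) fun z hz w (hw : _ < ρ) => by
          have := D.tri s ms x z w
          have := h3 s t ms.1 hst hT z w
          have := k4 z hz
          show H.d s x w < (2 + L) * ρ
          nlinarith
      have b := (h5 s ms t mt _).trans (mul_le_mul_of_nonneg_left
        (h2 s ⟨hs, ms.2⟩ x ((2 + L) * ρ) (by positivity)) hW.le)
      have : H.d t x y * κ * ρ ^ 4 ≤ 2 * (W * C * (2 + L) ^ 4) * ρ * ρ ^ 4 := by
        rw [mul_pow] at b
        nlinarith [mul_le_mul_of_nonneg_left b (show 0 ≤ 2 * ρ by positivity)]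
      nlinarith [le_of_mul_le_mul_right this (by positivity)]
    · have a := D.pack mt (μ := H.vol t) (S := univ) k1 k2 k3 one_pos hκ.le
        (fun z _ => by simpa using h1 t ⟨by linarith, hT⟩ z 1 ⟨one_pos, le_rfl⟩)
        fun _ _ => subset_univ _
      nlinarith [h4 t ⟨by linarith, hT⟩]
  refine le_of_forall_pos_le_add fun ε hε => ?_
  have a0 : 0 < 2 * (W * C * (2 + L) ^ 4 + V) / κ := by positivity
  refine (key (H.d s x y + √(t - s) + ε / (2 * (W * C * (2 + L) ^ 4 + V) / κ))
    (lt_add_of_pos_right _ (by positivity))).trans_eq ?_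
  rw [mul_add _ (_ + _), mul_div_cancel₀ _ a0.ne']

/-- **distances do not grow fast** -/
theorem distUp (h : H.Ok) : H.DistUp :=
  distUp' h.alg h.int h.evo h.dist (volLo h) (volUp h) (distLo h)

end HC

end Crest.Agent.N207

end
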