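import Crest.Agent.N207.C.HC

/-!
# Row 207, blocks C, D, E: the final statements (helper83)

Every uniform statement reads `∀ t0 > 0, ∃ constants, ∀ t ∈ Ico t0 T`.
-/

set_option autoImplicit false
set_option linter.dupNamespace false
open Set MeasureTheory
open scoped ContDiff

noncomputable section

namespace Crest.Agent.N207

namespace HC

variable {M : Type*} [TopologicalSpace M] [MeasurableSpace M] (H : HC M)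

/-- the metric ball -/
def B (t : ℝ) (x : M) (r : ℝ) : Set M := {y | H.d t x y < r}

/-- the energy in a ball -/
def en (t : ℝ) (x : M) (r : ℝ) : ℝ := ∫ y in H.B t x r, H.N 0 t y ∂H.vol t

/-- the solver with a source term (block B) -/
def Solv2 : Prop :=
  ∀ {a b : ℝ} {F : ℝ → M → ℝ} {u0 : M → ℝ}, H.St a b → H.Sm a b F → H.S0 u0 →
    ∃ u, H.Sm a b u ∧ HasDt a b u (fun t x => H.lap t (u t) x + F t x) ∧ u a = u0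

/-! ### block C -/

/-- uniform Sobolev inequality -/
def SobU : Prop :=
  ∀ t0 > 0, ∃ A, 0 < A ∧ ∀ t ∈ Ico t0 H.T, ∀ w : M → ℝ, H.S0 w →
    √(∫ x, w x ^ 4 ∂H.vol t) ≤ A * (∫ x, H.gam t w w x ∂H.vol t + ∫ x, w x ^ 2 ∂H.vol t)

/-- no collapsing -/
def VolLo : Prop :=
  ∀ t0 > 0, ∃ κ, 0 < κ ∧ ∀ t ∈ Ico t0 H.T, ∀ x, ∀ r ∈ Ioc (0 : ℝ) 1,
    κ * r ^ 4 ≤ (H.vol t).real (H.B t x r)

/-- no inflation -/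
def VolUp : Prop :=
  ∀ t0 > 0, ∃ C, 0 < C ∧ ∀ t ∈ Ico t0 H.T, ∀ x, ∀ r > 0, (H.vol t).real (H.B t x r) ≤ C * r ^ 4

/-- `L¹ → L^∞` for the heat equation -/
def KerH : Prop :=
  ∀ t0 > 0, ∃ C, 0 < C ∧ ∀ {a b : ℝ} {u : ℝ → M → ℝ}, t0 ≤ a → H.St a b → H.Heat a b u →
    (∀ x, 0 ≤ u a x) → ∀ t ∈ Ioc a b, ∀ y, u t y ≤ C / (t - a) ^ 2 * ∫ x, u a x ∂H.vol a

/-- `L¹ → L^∞` for the conjugate heat equation -/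
def KerC : Prop :=
  ∀ t0 > 0, ∃ C, 0 < C ∧ ∀ {a b : ℝ} {v : ℝ → M → ℝ}, t0 ≤ a → H.St a b → H.Conj a b v →
    (∀ x, 0 ≤ v b x) → ∀ s ∈ Ico a b, ∀ y, v s y ≤ C / (b - s) ^ 2 * ∫ x, v b x ∂H.vol b

/-- the heat flow of a 1-Lipschitz function -/
def LipH : Prop :=
  ∃ C, 0 < C ∧ ∀ {a b : ℝ} {u : ℝ → M → ℝ}, H.St a b → H.Heat a b u →
    (∀ x, H.gam a (u a) (u a) x ≤ 1) → ∀ t ∈ Icc a b, ∀ x,
      √(t - a) * |H.lap t (u t) x| ≤ C ∧ |u t x - u a x| ≤ C * √(t - a)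

/-- distances do not shrink fast -/
def DistLo : Prop :=
  ∃ C, 0 < C ∧ ∀ s t : ℝ, 0 < s → s ≤ t → t < H.T → ∀ x y,
    H.d s x y ≤ H.d t x y + C * √(t - s)

/-- distances do not grow fast -/
def DistUp : Prop :=
  ∀ t0 > 0, ∃ A, 0 < A ∧ ∀ s t : ℝ, t0 ≤ s → s ≤ t → t < H.T → ∀ x y,
    H.d t x y ≤ A * (H.d s x y + √(t - s))

/-- the outputs of block C (the entropy facts are in `C/Ent*`) -/
structure COut : Prop where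
  sob : H.SobU
  lo : H.VolLo
  up : H.VolUp
  kerH : H.KerH
  kerC : H.KerC
  lip : H.LipH
  dlo : H.DistLo
  dup : H.DistUp

/-! ### block D -/

/-- global bounds -/
def DGlob : Prop :=
  ∀ t0 > 0, ∃ E, 0 < E ∧ (∀ t ∈ Ico t0 H.T, ∫ x, H.N 0 t x ∂H.vol t ≤ E) ∧
    ∀ {a b : ℝ}, t0 ≤ a → H.St a b →
      ∫ t in a..b, ∫ x, (H.Q 0 t x ^ 2 + H.Q 1 t x) ∂H.vol t ≤ E

/-- a space-time cutoff at scale `r` -/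
structure Cutf (a b r L : ℝ) (ψ ψ' : ℝ → M → ℝ) : Prop where
  sm : H.Sm a b ψ
  dt : HasDt a b ψ ψ'
  nn : ∀ t ∈ Icc a b, ∀ x, 0 ≤ ψ t x
  le : ∀ t ∈ Icc a b, ∀ x, ψ t x ≤ 1
  bt : ∀ t ∈ Icc a b, ∀ x, |ψ' t x| ≤ L / r ^ 2 * √(ψ t x)
  bl : ∀ t ∈ Icc a b, ∀ x, |H.lap t (ψ t) x| ≤ L / r ^ 2 * √(ψ t x)
  bg : ∀ t ∈ Icc a b, ∀ x, H.gam t (ψ t) (ψ t) x ≤ L / r ^ 2 * ψ t x
  vol : ∀ t ∈ Icc a b, (H.vol t).real {x | ψ t x ≠ 0} ≤ L * r ^ 4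

/-- local Simon estimates, on time intervals of any length -/
def DLoc : Prop :=
  ∀ t0 > 0, ∀ L ≥ 1, ∃ C, 0 < C ∧ ∀ {a b r : ℝ} {ψ ψ' : ℝ → M → ℝ}, t0 ≤ a → H.St a b →
    0 < r → r ≤ 1 → H.Cutf a b r L ψ ψ' → ∀ s t : ℝ, a + r ^ 2 / L ≤ s → s ≤ t → t ≤ b →
      ∫ x, ψ t x * H.Q 0 t x ∂H.vol t ≤ C * r ^ 2 ∧
      ∫ σ in s..t, ∫ x, ψ σ x * (H.Q 0 σ x ^ 2 + H.Q 1 σ x) ∂H.vol σ ≤ C * (t - s + r ^ 2)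

/-- the flux of the Gauss-Bonnet integrand -/
def Flux : Prop :=
  ∃ C, 0 < C ∧ ∀ {a b : ℝ} {χ χ' : ℝ → M → ℝ}, H.St a b → H.Sm a b χ → HasDt a b χ χ' →
    ∀ s t : ℝ, a ≤ s → s ≤ t → t ≤ b →
      |∫ x, χ t x * H.Pf t x ∂H.vol t - ∫ x, χ s x * H.Pf s x ∂H.vol s| ≤
        ∫ σ in s..t, ∫ x, (|χ' σ x| * |H.Pf σ x| +
          C * (√(H.gam σ (χ σ) (χ σ) x) * √(H.N 0 σ x) * √(H.Q 1 σ x))) ∂H.vol σ

/-- the outputs of block D -/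
structure DOut : Prop where
  glob : H.DGlob
  loc : H.DLoc
  flux : H.Flux

/-! ### block E -/

/-- (E1) the energy stays small on a parabolic window, seen by one heat function:
for every `ε` and `L` the window `[t - c r², t + c r²]` works -/
def EPers : Prop :=
  ∀ t0 > 0, ∀ ε > 0, ∃ c lam r0 : ℝ, 0 < c ∧ 0 < lam ∧ 0 < r0 ∧ ∀ t ∈ Ico t0 H.T, ∀ x, ∀ r,
    0 < r → r ≤ r0 → H.en t x r ≤ ε → ∀ s ∈ Ioo 0 H.T, |s - t| ≤ c * r ^ 2 →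
      H.en s x (lam * r) ≤ 2 * ε

/-- epsilon regularity on a two-sided parabolic window -/
def EReg : Prop :=
  ∀ t0 > 0, ∃ ε0 c r0 : ℝ, 0 < ε0 ∧ 0 < c ∧ 0 < r0 ∧ c * r0 ^ 2 < t0 ∧ ∀ k : ℕ, ∃ C, 0 < C ∧
    ∀ t ∈ Ico t0 H.T, ∀ x, ∀ r, 0 < r → r ≤ r0 → H.en t x r ≤ ε0 → ∀ y ∈ H.B t x (r / 2),
      (∀ s ∈ Ioo 0 H.T, |s - t| ≤ c * r ^ 2 →
        H.N k s y ≤ C * (H.en t x r + r) / r ^ (4 + 2 * k) ∧ H.Q k s y ≤ C / r ^ (2 + 2 * k)) ∧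
      H.Q k t y ≤ C / r ^ (6 + 2 * k) *
        ∫ s in (t - c * r ^ 2)..t, ∫ z in H.B t x r, H.Q 0 s z ∂H.vol s

/-- a regular scale `r` persists for a time `c r` (forward) -/
def EStat : Prop :=
  ∀ t0 > 0, ∃ ε0 c r0 : ℝ, 0 < ε0 ∧ 0 < c ∧ 0 < r0 ∧ ∀ k : ℕ, ∃ C, 0 < C ∧
    ∀ t ∈ Ico t0 H.T, ∀ x, ∀ r, 0 < r → r ≤ r0 → H.en t x r ≤ ε0 → ∀ y ∈ H.B t x (r / 2),
      ∀ s ∈ Ico t H.T, s - t ≤ c * r →
        H.N k s y ≤ C / r ^ (4 + 2 * k) ∧ H.Q k s y ≤ C / r ^ (2 + 2 * k)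

/-- a regular scale `r` persists for a time `c r` (backward) -/
def EStatB : Prop :=
  ∀ t0 > 0, ∃ ε0 c r0 : ℝ, 0 < ε0 ∧ 0 < c ∧ 0 < r0 ∧ c * r0 < t0 ∧ ∀ k : ℕ, ∃ C, 0 < C ∧
    ∀ t ∈ Ico t0 H.T, ∀ x, ∀ r, 0 < r → r ≤ r0 → H.en t x r ≤ ε0 → ∀ y ∈ H.B t x (r / 2),
      ∀ s ≤ t, t - s ≤ c * r →
        H.N k s y ≤ C / r ^ (4 + 2 * k) ∧ H.Q k s y ≤ C / r ^ (2 + 2 * k)

/-- the outputs of block E -/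
structure EOut : Prop where
  reg : H.EReg
  stat : H.EStat
  statB : H.EStatB

end HC

end Crest.Agent.N207

end
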