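import Crest.Agent.N207.C.W0
import Crest.Agent.N207.C.Ent
import Crest.Agent.N207.C.Lip
import Crest.Agent.N207.C.Stmt

/-!
# Row 207, block C: uniform lower bound for `W`, uniform log-Sobolev, `LipH`, `DistLo`
-/

set_option autoImplicit false
set_option linter.dupNamespace false
set_option linter.unusedSectionVars false
open Set MeasureTheory Filter Topology
open scoped ContDiff

noncomputable section

namespace Crest.Agent.N207

namespace HC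

variable {M : Type*} [TopologicalSpace M] [CompactSpace M] [MeasurableSpace M]
  [OpensMeasurableSpace M] {H : HC M}

/-- Perelman: `W` is bounded below on `[t0, T)`, at all scales `0 < τ ≤ τ1` -/
theorem W_unif (h : H.Ok) {t0 : ℝ} (h0 : 0 < t0) (τ1 : ℝ) : ∃ C, 0 < C ∧ ∀ t ∈ Ico t0 H.T,
    ∀ τ, 0 < τ → τ ≤ τ1 → ∀ u, H.S0 u → (∀ x, 0 < u x) → ∫ x, u x ∂H.vol t = 1 →
      -C ≤ H.W t τ u := by
  have A := h.alg
  by_cases hT : t0 < H.T
  swap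
  · exact ⟨1, one_pos, fun t ht => absurd (ht.1.trans_lt ht.2) hT⟩
  obtain ⟨C, hC⟩ := W_lower' A h.int h.evo h.sob0 (t := t0 / 2) ⟨by linarith, by linarith⟩
    (τ1 + H.T)
  refine ⟨|C| + 1, by positivity, fun t ht τ hτ h1 u hu hp hm => ?_⟩
  have hs : H.St (t0 / 2) t := ⟨by linarith, by linarith [ht.1], ht.2⟩
  have ha : t0 / 2 ∈ Icc (t0 / 2) t := ⟨le_rfl, hs.2.1.le⟩
  have hb : t ∈ Icc (t0 / 2) t := ⟨hs.2.1.le, le_rfl⟩
  obtain ⟨v, hv, e⟩ := h.solv.conj hs hu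
  have vp := A.conj_pos h.evo hs hv (by rw [e]; exact hp)
  have k1 := A.W_mono h.int h.evo hs hv vp hτ ha hb hs.2.1.le
  have k2 := hC (τ + t - t0 / 2) (by linarith [ht.1]) (by linarith [ht.2]) (v (t0 / 2))
    (A.sm_s0 hv.1 _ ha) (vp _ ha) (by rw [A.conj_mass h.int hs hv ha hb, e, hm])
  simp only [add_sub_cancel_right, e] at k1
  linarith [le_abs_self C]

/-- the uniform log-Sobolev inequality, at all scales up to `τ0` -/
theorem uls' (h : H.Ok) {t0 : ℝ} (h0 : 0 < t0) (τ0 : ℝ) : ∃ a, ∀ t ∈ Ico t0 H.T,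
    Sob.LS (H.vol t) H.S0 (fun w => H.gam t w w) τ0 a := by
  obtain ⟨C, -, hC⟩ := W_unif h h0 τ0
  obtain ⟨K, hK⟩ := h.evo.R_bd
  exact ⟨_, fun t ht => h.alg.ls_of_W h.int ⟨h0.trans_le ht.1, ht.2⟩
    (hK t ⟨h0.trans_le ht.1, ht.2⟩) (hC t ht)⟩

theorem uls (h : H.Ok) {t0 : ℝ} (h0 : 0 < t0) : H.ULS t0 := by
  obtain ⟨a, ha⟩ := uls' h h0 1
  exact ⟨1, a, one_pos, ha⟩

/-- along a conjugate solution in `[t0, T)`: the total soliton defect is bounded by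
`W` at the top plus a constant -/
theorem sol_int_le (h : H.Ok) {t0 : ℝ} (h0 : 0 < t0) (τ1 : ℝ) : ∃ C, 0 < C ∧
    ∀ {a b τ0 : ℝ} {u : ℝ → M → ℝ}, t0 ≤ a → H.St a b → H.Conj a b u → (∀ x, 0 < u b x) →
      ∫ x, u b x ∂H.vol b = 1 → 0 < τ0 → τ0 ≤ τ1 → ∀ t ∈ Icc a b,
        -C ≤ H.W t (τ0 + b - t) (u t) ∧ H.W t (τ0 + b - t) (u t) ≤ H.W b τ0 (u b) := by
  obtain ⟨C, hC0, hC⟩ := W_unif h h0 (τ1 + H.T)
  refine ⟨C, hC0, fun {a b τ0 u} ha hs hu hp hm h1 h2 t ht => ?_⟩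
  have A := h.alg
  have hb : b ∈ Icc a b := ⟨hs.2.1.le, le_rfl⟩
  have up := A.conj_pos h.evo hs hu hp
  have k1 := A.W_mono h.int h.evo hs hu up h1 ht hb ht.2
  simp only [add_sub_cancel_right] at k1
  exact ⟨hC t ⟨ha.trans ht.1, ht.2.trans_lt hs.2.2⟩ _ (by linarith [ht.2])
    (by linarith [hs.2.2, hs.1, ht.1]) _ (A.sm_s0 hu.1 t ht) (up t ht)
    (by rw [A.conj_mass h.int hs hu ht hb, hm]), k1⟩

omit [OpensMeasurableSpace M] in
theorem lipH (h : H.Ok) : H.LipH := by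
  obtain ⟨C1, hC1, h1⟩ := h.alg.heat_lap h.evo
  obtain ⟨C2, hC2, h2⟩ := h.alg.heat_move h.evo
  refine ⟨C1 + C2, by positivity, fun {a b u} hs hu h0 t ht x => ⟨?_, ?_⟩⟩
  · rcases ht.1.eq_or_lt with rfl | hlt
    · simp only [sub_self, Real.sqrt_zero, zero_mul]; positivity
    have k := h1 hs hu h0 t ⟨hlt, ht.2⟩ x
    rw [le_div_iff₀ (Real.sqrt_pos.2 (sub_pos.2 hlt))] at k
    linarith
  · exact (h2 hs hu h0 a ⟨le_rfl, hs.2.1.le⟩ t ht ht.1 x).trans (by gcongr; linarith)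

omit [OpensMeasurableSpace M] in
theorem distLo (h : H.Ok) : H.DistLo := by
  obtain ⟨C, hC, h1⟩ := h.alg.dist_lower h.evo h.solv h.dist
  exact ⟨C, hC, fun s t hs hst ht =>
    h1 s ⟨hs, hst.trans_lt ht⟩ t ⟨hs.trans_le hst, ht⟩ hst⟩

end HC

end Crest.Agent.N207

end
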