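import Crest.Agent.N207.C.Ultra
import Crest.Agent.N207.C.ULS

/-! Row 207, block C: static cutoffs and the uniform lower volume bound (no collapsing). -/

set_option autoImplicit false
set_option linter.dupNamespace false
set_option linter.unusedSectionVars false
open Set MeasureTheory Filter Topology Real
open scoped ContDiff

noncomputable section

namespace Crest.Agent.N207

namespace HC

variable {M : Type*} [TopologicalSpace M] [CompactSpace M] [MeasurableSpace M]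
  [OpensMeasurableSpace M] {H : HC M}

theorem Dist.isOpen_B (D : H.Dist) {t : ℝ} (ht : t ∈ Ioo 0 H.T) (x : M) (r : ℝ) :
    IsOpen (H.B t x r) := isOpen_lt (D.cont t ht x) continuous_const

theorem Dist.meas_B (D : H.Dist) {t : ℝ} (ht : t ∈ Ioo 0 H.T) (x : M) (r : ℝ) :
    MeasurableSet (H.B t x r) := (D.isOpen_B ht x r).measurableSet

theorem Dist.mem_B (D : H.Dist) {t : ℝ} (ht : t ∈ Ioo 0 H.T) (x : M) {r : ℝ} (hr : 0 < r) :
    x ∈ H.B t x r := by
  show H.d t x x < r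
  rw [D.self t ht]; exact hr

omit [TopologicalSpace M] [CompactSpace M] [OpensMeasurableSpace M] in
theorem B_mono (t : ℝ) (x : M) {r s : ℝ} (h : r ≤ s) : H.B t x r ⊆ H.B t x s :=
  fun _ hy => lt_of_lt_of_le hy h

/-- a static cutoff: `1` on `B(x, ρ)`, `0` off `B(x, ρ + s)`, gradient `≤ C / s` -/
theorem exists_cut (A : H.Alg) (D : H.Dist) {t : ℝ} (ht : t ∈ Ioo 0 H.T) (x : M) (ρ : ℝ) {s : ℝ}
    (hs : 0 < s) : ∃ w, H.S0 w ∧ (∀ y, 0 ≤ w y) ∧ (∀ y, w y ≤ 1) ∧ (∀ y ∈ H.B t x ρ, w y = 1) ∧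
      (∀ y ∉ H.B t x (ρ + s), w y = 0 ∧ H.gam t w w y = 0) ∧
      ∀ y, H.gam t w w y ≤ 16 * Sob.Lσ / s ^ 2 := by
  obtain ⟨u, su, gu, au⟩ := D.approx t ht x (s / 4) (by positivity)
  obtain ⟨hS, hG⟩ := (A.sobSt ht).step su 1 (-(4 / s)) (4 * ρ / s + 2)
  refine ⟨_, hS, fun y => ?_, fun y => ?_, fun y hy => ?_, fun y hy => ?_, fun y => ?_⟩
  · simpa using Real.smoothTransition.nonneg _
  · simpa using Real.smoothTransition.le_one _
  · have h1 : H.d t x y < ρ := hy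
    have h2 := (abs_le.1 (au y)).2
    rw [one_mul]
    refine Real.smoothTransition.one_of_one_le ?_
    have : -(4 / s) * u y + (4 * ρ / s + 2) = 1 + 4 * (ρ + s / 4 - u y) / s := by
      field_simp; ring
    rw [this]
    have : 0 ≤ 4 * (ρ + s / 4 - u y) / s := div_nonneg (by linarith) hs.le
    linarith
  · have h1 : ρ + s ≤ H.d t x y := not_lt.1 hy
    have h2 := (abs_le.1 (au y)).1
    have h3 : -(4 / s) * u y + (4 * ρ / s + 2) < 0 := by
      have : -(4 / s) * u y + (4 * ρ / s + 2) = -1 - 4 * (u y - (ρ + 3 * s / 4)) / s := by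
        field_simp; ring
      rw [this]
      have : 0 ≤ 4 * (u y - (ρ + 3 * s / 4)) / s := div_nonneg (by linarith) hs.le
      linarith
    refine ⟨by rw [one_mul]; exact Real.smoothTransition.zero_of_nonpos h3.le, ?_⟩
    rw [hG, Sob.σ_deriv_zero (Or.inl h3)]; simp
  · rw [hG]
    have h1 := Sob.σ_deriv_le (-(4 / s) * u y + (4 * ρ / s + 2))
    have h2 := A.gam_nonneg t ht su y
    have e : (1 * -(4 / s) * deriv Sob.σ (-(4 / s) * u y + (4 * ρ / s + 2))) ^ 2 =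
        16 / s ^ 2 * deriv Sob.σ (-(4 / s) * u y + (4 * ρ / s + 2)) ^ 2 := by
      field_simp; ring
    rw [e]
    calc _ ≤ 16 / s ^ 2 * Sob.Lσ * 1 := by
          have := Sob.Lσ_pos
          exact mul_le_mul (mul_le_mul_of_nonneg_left h1 (by positivity)) (gu y) h2 (by positivity)
      _ = _ := by ring

/-- the integral of a cutoff is at most the volume of its support -/
theorem int_cut_le (A : H.Alg) (I : H.Intg) {t : ℝ} (ht : t ∈ Ioo 0 H.T) {w : M → ℝ}
    (hw : H.S0 w) {B : Set M} (hB : MeasurableSet B) {c : ℝ} (h1 : ∀ y, w y ≤ c)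
    (h0 : ∀ y ∉ B, w y = 0) : ∫ y, w y ∂H.vol t ≤ c * (H.vol t).real B := by
  have := I.fin t ht
  have e : c * (H.vol t).real B = ∫ y, B.indicator (fun _ => c) y ∂H.vol t := by
    rw [integral_indicator_const _ hB, smul_eq_mul, mul_comm]
  rw [e]
  refine integral_mono (A.integrable I ht hw) ((integrable_const c).indicator hB) fun y => ?_
  by_cases hy : y ∈ B
  · simpa [hy] using h1 y
  · simp [hy, h0 y hy]

/-- the heat flow of a cutoff stays large at the centre for a parabolic time -/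
theorem heat_cutK (A : H.Alg) (E : H.Evo) (S : H.Solv) (D : H.Dist) : ∃ η, 0 < η ∧
    ∀ {a b : ℝ}, H.St a b → ∀ x ρ s, 0 < s → ∃ u, H.Heat a b u ∧ (∀ y, 0 ≤ u a y) ∧
      (∀ y, u a y ≤ 1) ∧ (∀ y ∉ H.B a x (ρ + s), u a y = 0) ∧
      ∀ t ∈ Icc a b, t - a ≤ η * s ^ 2 → ∀ y ∈ H.B a x ρ, 1 / 2 ≤ u t y := by
  obtain ⟨C, hC, hm⟩ := A.heat_move E
  have hL := Sob.Lσ_pos
  set l := √(16 * Sob.Lσ) with hl
  have l0 : 0 < l := sqrt_pos.2 (by positivity)
  have l2 : l ^ 2 = 16 * Sob.Lσ := sq_sqrt (by positivity)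
  refine ⟨(1 / (2 * C * l)) ^ 2, by positivity, fun {a b} hs x ρ s s0 => ?_⟩
  have ha : a ∈ Icc a b := ⟨le_rfl, hs.2.1.le⟩
  obtain ⟨w, sw, w0, w1, win, wout, wg⟩ := exists_cut A D (hs.mem ha) x ρ s0
  obtain ⟨u, hu, rfl⟩ := S.heat hs sw
  refine ⟨u, hu, w0, w1, fun y hy => (wout y hy).1, fun t ht h y hy => ?_⟩
  have hv : H.Heat a b fun t y => s / l * u t y :=
    ⟨A.sm_cmul _ hu.1, (hu.2.cmul _).congr_d fun t ht y =>
      A.lap_cmul (hs.mem ht) _ (A.sm_s0 hu.1 t ht) y⟩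
  have k := hm hs hv (fun y => by
    rw [A.gam_cmul (hs.mem ha) _ sw (A.s0_cmul _ sw), A.gam_cmul' (hs.mem ha) _ sw sw]
    have := mul_le_mul_of_nonneg_left (wg y) (sq_nonneg (s / l))
    have e : (s / l) ^ 2 * (16 * Sob.Lσ / s ^ 2) = 1 := by rw [← l2]; field_simp
    nlinarith) a ha t ht ht.1 y
  have k2 : √(t - a) ≤ 1 / (2 * C * l) * s :=
    sqrt_le_iff.2 ⟨by positivity, by rw [mul_pow]; exact h⟩
  have k3 : C * √(t - a) ≤ s / l * (1 / 2) := by
    refine (mul_le_mul_of_nonneg_left k2 hC.le).trans_eq ?_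
    field_simp
  have k4 := (abs_le.1 (k.trans k3)).1
  simp only [win y hy] at k4
  have p : 0 < s / l := by positivity
  by_contra hn
  nlinarith [mul_lt_mul_of_pos_left (not_le.1 hn) p]

/-- lower volume bound when there is room forward in time -/
theorem vol_fwd (A : H.Alg) (I : H.Intg) (E : H.Evo) (S : H.Solv) (D : H.Dist) (K : H.KerH)
    {t : ℝ} (ht : t ∈ Ioo 0 H.T) (x : M) : ∃ c s0 : ℝ, 0 < c ∧ 0 < s0 ∧ ∀ s, 0 < s → s ≤ s0 →
      c * s ^ 4 ≤ (H.vol t).real (H.B t x s) := by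
  obtain ⟨η, hη, h⟩ := heat_cutK A E S D
  obtain ⟨C, hC, hk⟩ := K t ht.1
  have hT := sub_pos.2 ht.2
  refine ⟨η ^ 2 / (32 * C), √((H.T - t) / η), by positivity, sqrt_pos.2 (by positivity),
    fun s s0 s1 => ?_⟩
  have s2 : η * s ^ 2 ≤ H.T - t := by
    have := (le_sqrt s0.le (by positivity)).1 s1
    rwa [le_div_iff₀ hη, mul_comm] at this
  have p : 0 < η * (s / 2) ^ 2 := by positivity
  have hs : H.St t (t + η * (s / 2) ^ 2) := ⟨ht.1, by linarith, by nlinarith⟩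
  obtain ⟨u, hu, u0, u1, uo, ub⟩ := h hs x (s / 2) (s / 2) (by positivity)
  rw [add_halves] at uo
  have k1 := ub _ ⟨hs.2.1.le, le_rfl⟩ (by linarith) x (D.mem_B ht x (by positivity))
  have k2 := hk le_rfl hs hu u0 _ ⟨hs.2.1, le_rfl⟩ x
  have k3 := int_cut_le A I ht (A.sm_s0 hu.1 t ⟨le_rfl, hs.2.1.le⟩) (D.meas_B ht x s) u1 uo
  rw [add_sub_cancel_left] at k2
  have k4 := k1.trans (k2.trans (mul_le_mul_of_nonneg_left k3 (by positivity)))
  rw [one_mul, div_mul_eq_mul_div, le_div_iff₀ (by positivity)] at k4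
  rw [div_mul_eq_mul_div, div_le_iff₀ (by positivity)]
  nlinarith

/-- **no collapsing** -/
theorem volLo' (A : H.Alg) (I : H.Intg) (E : H.Evo) (S : H.Solv) (D : H.Dist)
    (U : ∀ t0 > 0, H.ULS t0) : H.VolLo := fun t0 h0 => by
  obtain ⟨τ0, α, hτ, hL⟩ := U t0 h0
  have hl := Sob.Lσ_pos
  set m := min 1 √τ0 with hm
  have m0 : 0 < m := lt_min one_pos (sqrt_pos.2 hτ)
  set κ := 1 / (32 * (exp ((α + 1) / 2) * (4 * (64 * Sob.Lσ) + 1))) ^ 2 with hκ
  refine ⟨κ * m ^ 4, by positivity, fun t ht x r hr => ?_⟩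
  have hm' : t ∈ Ioo 0 H.T := ⟨h0.trans_le ht.1, ht.2⟩
  have := I.fin t hm'
  have r0 := hr.1
  have k := ((hL t ht).fk (A.sobSt hm') hτ).vol_lower (A.sobSt hm') hτ (exp_pos _)
    (c1 := 64 * Sob.Lσ) (r := m * r) (by positivity) (B := H.B t x) (D.meas_B hm' x)
    (by positivity) (by
      have h1 : m * r ≤ √τ0 := (mul_le_of_le_one_right m0.le hr.2).trans (min_le_right _ _)
      exact (le_sqrt (by positivity) hτ.le).1 h1)
    (fun s s0 _ => by
      obtain ⟨w, sw, w0, w1, win, wout, wg⟩ := exists_cut A D hm' x (s / 2) (half_pos s0)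
      rw [add_halves] at wout
      exact ⟨w, sw, w0, w1, win, wout, fun y => (wg y).trans_eq (by field_simp; norm_num)⟩)
    (vol_fwd A I E S D (kerH A I E S U) hm' x)
  calc κ * m ^ 4 * r ^ 4 = (m * r) ^ 4 / (32 * (exp ((α + 1) / 2) * (4 * (64 * Sob.Lσ) + 1))) ^ 2 := by
        rw [hκ]; ring
    _ ≤ _ := k
    _ ≤ _ := measureReal_mono (B_mono t x (mul_le_of_le_one_left r0.le (min_le_left _ _)))

theorem volLo (h : H.Ok) : H.VolLo :=
  volLo' h.alg h.int h.evo h.solv h.dist fun _ h0 => uls h h0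

theorem Ok.kerH (h : H.Ok) : H.KerH := HC.kerH h.alg h.int h.evo h.solv fun _ h0 => uls h h0

theorem Ok.kerC (h : H.Ok) : H.KerC := HC.kerC h.alg h.int h.evo h.solv fun _ h0 => uls h h0

theorem Ok.sobU (h : H.Ok) : H.SobU := HC.sobU h.alg h.int fun _ h0 => uls h h0

end HC

end Crest.Agent.N207

end
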