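import Crest.Agent.N207.C.Max

/-!
# Row 207, block C: the logarithmic gradient estimate and a Harnack inequality (helper83)
-/

set_option autoImplicit false
set_option linter.dupNamespace false
set_option linter.unusedSectionVars false
open Set MeasureTheory Filter Topology
open scoped ContDiff

noncomputable section

namespace Crest.Agent.N207

namespace HC

variable {M : Type*} [TopologicalSpace M] [CompactSpace M] [MeasurableSpace M] {H : HC M}

theorem lb_log_cd : ContDiffOn ℝ ∞ Real.log (Ioi 0) :=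
  Real.contDiffOn_log.mono fun _ h => ne_of_gt h

theorem lb_log_d2 {y : ℝ} (hy : 0 < y) : deriv (deriv Real.log) y = -(y ^ 2)⁻¹ := by
  have : deriv Real.log = fun y => y⁻¹ := funext Real.deriv_log
  rw [this, deriv_inv]

namespace Alg

variable (A : H.Alg) {a b : ℝ} {u : ℝ → M → ℝ}
include A

theorem gam_log {t : ℝ} (ht : t ∈ Ioo 0 H.T) {w : M → ℝ} (hw : H.S0 w) (hp : ∀ x, 0 < w x)
    (x : M) : H.gam t (fun y => Real.log (w y)) (fun y => Real.log (w y)) x =
      H.gam t w w x / w x ^ 2 := by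
  rw [A.gam_comp2 ht isOpen_Ioi lb_log_cd hp hw, Real.deriv_log]
  field_simp

theorem lap_log {t : ℝ} (ht : t ∈ Ioo 0 H.T) {w : M → ℝ} (hw : H.S0 w) (hp : ∀ x, 0 < w x)
    (x : M) : H.lap t (fun y => Real.log (w y)) x =
      (w x)⁻¹ * H.lap t w x - H.gam t w w x / w x ^ 2 := by
  rw [A.lap_comp t ht isOpen_Ioi lb_log_cd hp hw, lb_log_d2 (hp x), Real.deriv_log]
  field_simp
  ring

/-- `(t-a) |∇ log u|² ≤ log (m / u)` for a positive heat solution bounded by `m` -/
theorem logB (E : H.Evo) (hs : H.St a b) (hu : H.Heat a b u)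
    (hp : ∀ t ∈ Icc a b, ∀ x, 0 < u t x) {m : ℝ} (hm : ∀ x, u a x ≤ m) :
    ∀ t ∈ Icc a b, ∀ x, (t - a) * H.gam t (fun y => Real.log (u t y)) (fun y => Real.log (u t y)) x
      ≤ Real.log m - Real.log (u t x) := by
  set f : ℝ → M → ℝ := fun t y => Real.log (u t y) with hf
  have sf : H.Sm a b f := A.sm_log hu.1 hp
  have df : HasDt a b f fun t x => H.lap t (f t) x + H.gam t (f t) (f t) x := by
    refine (HasDt.comp isOpen_Ioi lb_log_cd hp hu.2).congr_d fun t ht x => ?_
    have h0 := A.sm_s0 hu.1 t ht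
    simp only [hf]
    rw [A.lap_log (hs.mem ht) h0 (hp t ht), A.gam_log (hs.mem ht) h0 (hp t ht), Real.deriv_log]
    ring
  have sG := A.sm_gam hs sf sf
  have dG := E.dt_gam hs sf df
  have st : H.Sm a b fun t (_ : M) => t - a := A.sm_timeU (by fun_prop)
  have dt : HasDt a b (fun t (_ : M) => t - a) fun _ _ => 1 :=
    HasDt.time (c' := fun _ => 1) fun t _ => (hasDerivAt_id t).sub_const a
  have sP := A.sm_sub (A.sm_add (A.sm_mul st sG) sf) (A.sm_const (Real.log m))
  have dP := ((dt.mul dG).add df).sub (HasDt.static fun _ => Real.log m)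
  have key := A.maxp hs sP dP 0 (fun x => by
    have := Real.log_le_log (hp a ⟨le_rfl, hs.2.1.le⟩ x) (hm x)
    simp only [hf, sub_self, zero_mul, zero_add]; linarith) fun t ht x _ hl hg => by
    have hm' : t ∈ Icc a b := Ioc_subset_Icc_self ht
    have hT := hs.mem hm'
    have f0 := A.sm_s0 sf t hm'
    have G0 := A.sm_s0 sG t hm'
    have P0 := A.sm_s0 sP t hm'
    have h1 := A.gam_eq_zero hT P0 f0 hg
    have c0 := A.s0_cmul (t - a) G0
    rw [A.gam_sub hT (A.s0_add c0 f0) (A.s0_const _) f0, A.gam_add t hT c0 f0 f0,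
      A.gam_cmul hT _ G0 f0, A.gam_const hT _ f0] at h1
    rw [A.lap_sub hT (A.s0_add c0 f0) (A.s0_const _), A.lap_add t hT c0 f0,
      A.lap_cmul hT _ G0, A.lap_const hT] at hl
    have e : (fun y => H.lap t (f t) y + H.gam t (f t) (f t) y - H.lap t (f t) y) =
        H.gam t (f t) (f t) := by funext y; ring
    have h2 := E.hh_nonneg t hT f0 x
    have h3 : 0 ≤ t - a := by linarith [ht.1]
    rw [e, A.gam_symm t hT f0 G0]
    nlinarith [mul_nonneg h3 h2]
  intro t ht x
  have := key t ht x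
  simp only [hf] at this ⊢
  linarith

/-- Harnack inequality in space -/
theorem harnack (E : H.Evo) (D : H.Dist) (hs : H.St a b) (hu : H.Heat a b u)
    (hp : ∀ t ∈ Icc a b, ∀ x, 0 < u t x) {m : ℝ} (hm : ∀ x, u a x ≤ m) {t : ℝ}
    (ht : t ∈ Ioc a b) (x y : M) :
    √(1 + Real.log m - Real.log (u t y)) ≤
      √(1 + Real.log m - Real.log (u t x)) + H.d t x y / (2 * √(t - a)) := by
  have hm' : t ∈ Icc a b := Ioc_subset_Icc_self ht
  have hT := hs.mem hm'
  have hta : 0 < t - a := sub_pos.2 ht.1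
  have f0 := A.s0_log (A.sm_s0 hu.1 t hm') (hp t hm')
  have hle : ∀ z, Real.log (u t z) ≤ Real.log m := fun z =>
    Real.log_le_log (hp t hm' z) (A.heat_le hs hu hm t hm' z)
  set g : M → ℝ := fun z => 1 + Real.log m - Real.log (u t z) with hg
  have g0 : H.S0 g := A.s0_sub (A.s0_const _) f0
  have gp : ∀ z, 0 < g z := fun z => by have := hle z; simp only [hg]; linarith
  have w0 := A.s0_sqrt g0 gp
  have hq : 0 < 2 * √(t - a) := by positivity
  have key : ∀ z, H.gam t (fun y => 2 * √(t - a) * √(g y)) (fun y => 2 * √(t - a) * √(g y)) z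
      ≤ 1 := fun z => by
    rw [A.gam_cmul hT _ w0 (A.s0_cmul _ w0), A.gam_cmul' hT _ w0 w0,
      A.gam_comp2 hT (φ := fun y => √y) isOpen_Ioi
        (fun _ h => (Real.contDiffAt_sqrt (ne_of_gt h)).contDiffWithinAt) gp g0,
      (Real.hasDerivAt_sqrt (gp z).ne').deriv]
    have e : H.gam t g g z =
        H.gam t (fun y => Real.log (u t y)) (fun y => Real.log (u t y)) z := by
      simp only [hg]
      rw [A.gam_sub hT (A.s0_const _) f0 g0, A.gam_const hT _ g0,
        A.gam_sub' hT (A.s0_const _) f0 f0, A.gam_const' hT _ f0]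
      ring
    have h1 := A.logB E hs hu hp hm t hm' z
    rw [← e] at h1
    have h2 : √(t - a) * √(t - a) = t - a := Real.mul_self_sqrt hta.le
    have h3 : √(g z) ^ 2 = g z := Real.sq_sqrt (gp z).le
    have h4 := gp z
    have e2 : 2 * √(t - a) * (2 * √(t - a) * ((1 / (2 * √(g z))) ^ 2 * H.gam t g g z)) =
        (t - a) * H.gam t g g z / g z := by
      rw [div_pow, mul_pow, h3]
      field_simp
      rw [Real.sq_sqrt hta.le]
    rw [e2, div_le_one h4]
    simp only [hg] at h1 ⊢
    linarith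
  have h5 := D.lip t hT (x := x) (y := y) (r := H.d t x y + 1) (A.s0_cmul _ w0)
    (fun z _ => key z) (by linarith)
  have h6 := (abs_le.1 h5).2
  have : √(g y) - √(g x) ≤ H.d t x y / (2 * √(t - a)) := by
    rw [le_div_iff₀ hq]; linarith
  simp only [hg] at this
  linarith

end Alg

end HC

end Crest.Agent.N207

end
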