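import Crest.Agent.N207.C.Basic

/-!
# Row 207, block C: maximum principles, integration kit, duality
-/

set_option autoImplicit false
set_option linter.dupNamespace false
set_option linter.unusedSectionVars false
open Set MeasureTheory Filter Topology
open scoped ContDiff

noncomputable section

namespace Crest.Agent.N207

theorem deriv_nonneg_of_max {φ : ℝ → ℝ} {a b t d : ℝ} (ht : t ∈ Ioc a b)
    (hd : HasDerivWithinAt φ d (Icc a b) t) (hm : ∀ s ∈ Icc a t, φ s ≤ φ t) : 0 ≤ d := by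
  have h1 : HasDerivWithinAt φ d (Ico a t) t :=
    hd.mono fun s hs => ⟨hs.1, hs.2.le.trans ht.2⟩
  rw [hasDerivWithinAt_iff_tendsto_slope' (by simp)] at h1
  have hne : (𝓝[Ico a t] t).NeBot := by
    rw [← mem_closure_iff_nhdsWithin_neBot, closure_Ico ht.1.ne]; exact ⟨ht.1.le, le_rfl⟩
  refine ge_of_tendsto h1 ?_
  filter_upwards [self_mem_nhdsWithin] with s hs
  rw [slope_def_field]
  exact div_nonneg_of_nonpos (by linarith [hm s ⟨hs.1, hs.2.le⟩]) (by linarith [hs.2])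

/-- topological core of the maximum principle -/
theorem maxp_core {M : Type*} [TopologicalSpace M] [CompactSpace M] {a b K : ℝ}
    {f f' : ℝ → M → ℝ} (hc : ContinuousOn (fun p : ℝ × M => f p.1 p.2) (Icc a b ×ˢ univ))
    (hd : HasDt a b f f') (h0 : ∀ x, f a x ≤ 0)
    (h : ∀ t ∈ Ioc a b, ∀ x, 0 < f t x → (∀ y, f t y ≤ f t x) → f' t x ≤ K * f t x) :
    ∀ t ∈ Icc a b, ∀ x, f t x ≤ 0 := by
  intro t0 ht0 x0
  set g : ℝ × M → ℝ := fun p => Real.exp (-(K + 1) * p.1) * f p.1 p.2 with hg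
  have hgc : ContinuousOn g (Icc a b ×ˢ univ) := ContinuousOn.mul (by fun_prop) hc
  obtain ⟨p, hp, hmax⟩ := (isCompact_Icc.prod isCompact_univ).exists_isMaxOn
    ⟨(t0, x0), ht0, mem_univ _⟩ hgc
  by_contra hneg
  have hpos : 0 < g p := lt_of_lt_of_le (mul_pos (Real.exp_pos _) (not_le.1 hneg))
    (hmax (show (t0, x0) ∈ Icc a b ×ˢ univ from ⟨ht0, mem_univ _⟩))
  have hfp : 0 < f p.1 p.2 := pos_of_mul_pos_of_pos_left' hpos
  have hpa : a < p.1 := lt_of_le_of_ne hp.1.1 fun e => by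
    have := h0 p.2; rw [e] at this; linarith
  have hsp : ∀ y, f p.1 y ≤ f p.1 p.2 := fun y => by
    have := hmax (show (p.1, y) ∈ Icc a b ×ˢ univ from ⟨hp.1, mem_univ _⟩)
    exact le_of_mul_le_mul_left this (Real.exp_pos _)
  have h1 := h p.1 ⟨hpa, hp.1.2⟩ p.2 hfp hsp
  have he : HasDerivAt (fun s => Real.exp (-(K + 1) * s))
      (Real.exp (-(K + 1) * p.1) * (-(K + 1))) p.1 := by
    simpa using ((hasDerivAt_id p.1).const_mul (-(K + 1))).exp
  have h2 := deriv_nonneg_of_max ⟨hpa, hp.1.2⟩ (he.hasDerivWithinAt.mul (hd p.1 hp.1 p.2))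
    fun s hs => hmax (show (s, p.2) ∈ Icc a b ×ˢ univ from ⟨⟨hs.1, hs.2.trans hp.1.2⟩, mem_univ _⟩)
  have h3 := Real.exp_pos (-(K + 1) * p.1)
  nlinarith
where
  pos_of_mul_pos_of_pos_left' {x y : ℝ} (h : 0 < Real.exp x * y) : 0 < y :=
    (pos_iff_pos_of_mul_pos h).1 (Real.exp_pos x)

theorem HasDt.rev {M : Type*} {a b : ℝ} {f f' : ℝ → M → ℝ} (hd : HasDt a b f f') :
    HasDt (-b) (-a) (fun t => f (-t)) fun t x => -f' (-t) x := fun t ht x => by
  have h1 : HasDerivWithinAt (fun s : ℝ => -s) (-1) (Icc (-b) (-a)) t :=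
    (hasDerivAt_neg t).hasDerivWithinAt
  have h2 := (hd (-t) ⟨by linarith [ht.2], by linarith [ht.1]⟩ x).comp t h1
    fun s hs => ⟨by linarith [hs.2], by linarith [hs.1]⟩
  simpa [Function.comp_def] using h2

/-- backward version -/
theorem maxp_core_rev {M : Type*} [TopologicalSpace M] [CompactSpace M] {a b K : ℝ}
    {f f' : ℝ → M → ℝ} (hc : ContinuousOn (fun p : ℝ × M => f p.1 p.2) (Icc a b ×ˢ univ))
    (hd : HasDt a b f f') (h0 : ∀ x, f b x ≤ 0)
    (h : ∀ t ∈ Ico a b, ∀ x, 0 < f t x → (∀ y, f t y ≤ f t x) → -f' t x ≤ K * f t x) :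
    ∀ t ∈ Icc a b, ∀ x, f t x ≤ 0 := by
  intro t ht x
  have := maxp_core (K := K) (f := fun t => f (-t)) (a := -b) (b := -a)
    (hc.comp (f := fun p : ℝ × M => (-p.1, p.2)) (by fun_prop)
      fun p hp => ⟨⟨by linarith [hp.1.2], by linarith [hp.1.1]⟩, mem_univ _⟩)
    hd.rev (by simpa using h0)
    (fun s hs y h1 h2 => h (-s) ⟨by linarith [hs.2], by linarith [hs.1]⟩ y h1 h2)
    (-t) ⟨by linarith [ht.2], by linarith [ht.1]⟩ x
  simpa using this

/-- a function with nonpositive derivative on `[a,b]` is antitone -/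
theorem anti_of_deriv {φ φ' : ℝ → ℝ} {a b : ℝ}
    (hd : ∀ t ∈ Icc a b, HasDerivWithinAt φ (φ' t) (Icc a b) t)
    (h : ∀ t ∈ Ioo a b, φ' t ≤ 0) : AntitoneOn φ (Icc a b) := by
  refine antitoneOn_of_hasDerivWithinAt_nonpos (f' := φ') (convex_Icc a b)
    (fun t ht => (hd t ht).continuousWithinAt) (fun t ht => ?_) (fun t ht => ?_)
  · exact (hd t (interior_subset ht)).mono interior_subset
  · rw [interior_Icc] at ht; exact h t ht

theorem mono_of_deriv {φ φ' : ℝ → ℝ} {a b : ℝ}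
    (hd : ∀ t ∈ Icc a b, HasDerivWithinAt φ (φ' t) (Icc a b) t)
    (h : ∀ t ∈ Ioo a b, 0 ≤ φ' t) : MonotoneOn φ (Icc a b) := by
  refine monotoneOn_of_hasDerivWithinAt_nonneg (f' := φ') (convex_Icc a b)
    (fun t ht => (hd t ht).continuousWithinAt) (fun t ht => ?_) (fun t ht => ?_)
  · exact (hd t (interior_subset ht)).mono interior_subset
  · rw [interior_Icc] at ht; exact h t ht

/-- comparison: `φ' ≤ ψ'` on `[a,b]` gives `φ t - φ s ≤ ψ t - ψ s` -/
theorem sub_le_of_deriv {φ φ' ψ ψ' : ℝ → ℝ} {a b : ℝ}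
    (hd : ∀ t ∈ Icc a b, HasDerivWithinAt φ (φ' t) (Icc a b) t)
    (he : ∀ t ∈ Icc a b, HasDerivWithinAt ψ (ψ' t) (Icc a b) t)
    (h : ∀ t ∈ Ioo a b, φ' t ≤ ψ' t) {s t : ℝ} (hs : s ∈ Icc a b) (ht : t ∈ Icc a b)
    (hst : s ≤ t) : φ t - φ s ≤ ψ t - ψ s := by
  have := anti_of_deriv (φ := fun t => φ t - ψ t) (φ' := fun t => φ' t - ψ' t)
    (fun t ht => (hd t ht).sub (he t ht)) (fun t ht => sub_nonpos.2 (h t ht)) hs ht hst
  simp only at this
  linarith

namespace HC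

variable {M : Type*} [TopologicalSpace M] [CompactSpace M] [MeasurableSpace M] {H : HC M}

namespace Alg

variable (A : H.Alg) {a b : ℝ} {f f' : ℝ → M → ℝ}
include A

/-- maximum principle, forward in time -/
theorem maxp (hs : H.St a b) (hf : H.Sm a b f) (hd : HasDt a b f f') (K : ℝ)
    (h0 : ∀ x, f a x ≤ 0)
    (h : ∀ t ∈ Ioc a b, ∀ x, 0 < f t x → H.lap t (f t) x ≤ 0 → H.gam t (f t) (f t) x = 0 →
      f' t x ≤ K * f t x) : ∀ t ∈ Icc a b, ∀ x, f t x ≤ 0 :=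
  maxp_core (A.sm_cont hf) hd h0 fun t ht x h1 h2 => by
    have hm : t ∈ Icc a b := Ioc_subset_Icc_self ht
    have := A.at_max t (hs.mem hm) (A.sm_s0 hf t hm) (x := x)
      (Filter.Eventually.of_forall h2)
    exact h t ht x h1 this.1 this.2

/-- maximum principle, backward in time -/
theorem maxp_rev (hs : H.St a b) (hf : H.Sm a b f) (hd : HasDt a b f f') (K : ℝ)
    (h0 : ∀ x, f b x ≤ 0)
    (h : ∀ t ∈ Ico a b, ∀ x, 0 < f t x → H.lap t (f t) x ≤ 0 → H.gam t (f t) (f t) x = 0 →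
      -f' t x ≤ K * f t x) : ∀ t ∈ Icc a b, ∀ x, f t x ≤ 0 :=
  maxp_core_rev (A.sm_cont hf) hd h0 fun t ht x h1 h2 => by
    have hm : t ∈ Icc a b := Ico_subset_Icc_self ht
    have := A.at_max t (hs.mem hm) (A.sm_s0 hf t hm) (x := x)
      (Filter.Eventually.of_forall h2)
    exact h t ht x h1 this.1 this.2

/-- subsolutions `f' ≤ Δ f + c`: `f t ≤ m + c (t - a)` -/
theorem sub_le (hs : H.St a b) (hf : H.Sm a b f) (hd : HasDt a b f f') {m c : ℝ}
    (h0 : ∀ x, f a x ≤ m) (h : ∀ t ∈ Ioc a b, ∀ x, f' t x ≤ H.lap t (f t) x + c) :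
    ∀ t ∈ Icc a b, ∀ x, f t x ≤ m + c * (t - a) := by
  have h1 : H.Sm a b fun t (_ : M) => m + c * (t - a) := A.sm_timeU (by fun_prop)
  have h2 : HasDt a b (fun t (_ : M) => m + c * (t - a)) fun _ _ => c :=
    HasDt.time (c' := fun _ => c) fun t _ => by
      simpa using (((hasDerivAt_id t).sub_const a).const_mul c).const_add m
  have := A.maxp hs (A.sm_sub hf h1) (hd.sub h2) 0 (fun x => by simpa using h0 x)
    fun t ht x _ hl _ => by
      have hm : t ∈ Icc a b := Ioc_subset_Icc_self ht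
      rw [A.lap_sub (hs.mem hm) (A.sm_s0 hf t hm) (A.s0_const _), A.lap_const (hs.mem hm)] at hl
      linarith [h t ht x]
  intro t ht x
  linarith [this t ht x]

theorem heat_neg {u : ℝ → M → ℝ} (hs : H.St a b) (hu : H.Heat a b u) :
    H.Heat a b fun t x => -u t x :=
  ⟨A.sm_neg hu.1, hu.2.neg.congr_d fun t ht x => A.lap_neg (hs.mem ht) (A.sm_s0 hu.1 t ht) x⟩

theorem heat_le {u : ℝ → M → ℝ} (hs : H.St a b) (hu : H.Heat a b u) {m : ℝ}
    (h0 : ∀ x, u a x ≤ m) : ∀ t ∈ Icc a b, ∀ x, u t x ≤ m := by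
  simpa using A.sub_le hs hu.1 hu.2 (c := 0) h0 fun t _ x => by simp

theorem heat_ge {u : ℝ → M → ℝ} (hs : H.St a b) (hu : H.Heat a b u) {m : ℝ}
    (h0 : ∀ x, m ≤ u a x) : ∀ t ∈ Icc a b, ∀ x, m ≤ u t x := fun t ht x => by
  have := A.heat_le hs (A.heat_neg hs hu) (m := -m) (fun x => neg_le_neg (h0 x)) t ht x
  linarith

theorem heat_mono {u : ℝ → M → ℝ} (hu : H.Heat a b u) {a' b' : ℝ} (ha : a ≤ a') (hb : b' ≤ b) :
    H.Heat a' b' u := ⟨A.sm_mono hu.1 ha hb, hu.2.mono ha hb⟩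

theorem conj_mono {u : ℝ → M → ℝ} (hu : H.Conj a b u) {a' b' : ℝ} (ha : a ≤ a') (hb : b' ≤ b) :
    H.Conj a' b' u := ⟨A.sm_mono hu.1 ha hb, hu.2.mono ha hb⟩

/-- lower bound for conjugate solutions -/
theorem conj_ge {u : ℝ → M → ℝ} (hs : H.St a b) (hu : H.Conj a b u) {K m : ℝ}
    (hK : ∀ t ∈ Ioo 0 H.T, ∀ x, |H.R t x| ≤ K) (hm : 0 ≤ m) (h0 : ∀ x, m ≤ u b x) :
    ∀ t ∈ Icc a b, ∀ x, m * Real.exp (-K * (b - t)) ≤ u t x := by
  have h1 : H.Sm a b fun t (_ : M) => m * Real.exp (-K * (b - t)) := A.sm_timeU (by fun_prop)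
  have h2 : HasDt a b (fun t (_ : M) => m * Real.exp (-K * (b - t)))
      fun t _ => m * (Real.exp (-K * (b - t)) * K) :=
    HasDt.time fun t _ => by
      simpa using ((((hasDerivAt_id t).const_sub b).const_mul (-K)).exp).const_mul m
  have := A.maxp_rev hs (A.sm_sub h1 hu.1) (h2.sub hu.2) K (fun x => by simpa using h0 x)
    fun t ht x hp hl _ => by
      have hm' : t ∈ Icc a b := Ico_subset_Icc_self ht
      rw [A.lap_sub (hs.mem hm') (A.s0_const _) (A.sm_s0 hu.1 t hm'),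
        A.lap_const (hs.mem hm')] at hl
      have h3 := abs_le.1 (hK t (hs.mem hm') x)
      have h4 : 0 ≤ m * Real.exp (-K * (b - t)) := by positivity
      nlinarith
  intro t ht x
  linarith [this t ht x]

theorem conj_nonneg {u : ℝ → M → ℝ} (E : H.Evo) (hs : H.St a b) (hu : H.Conj a b u)
    (h0 : ∀ x, 0 ≤ u b x) : ∀ t ∈ Icc a b, ∀ x, 0 ≤ u t x := by
  obtain ⟨K, hK⟩ := E.R_bd
  simpa using A.conj_ge hs hu hK le_rfl h0

theorem conj_pos {u : ℝ → M → ℝ} (E : H.Evo) (hs : H.St a b) (hu : H.Conj a b u)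
    (h0 : ∀ x, 0 < u b x) : ∀ t ∈ Icc a b, ∀ x, 0 < u t x := by
  obtain ⟨K, hK⟩ := E.R_bd
  intro t ht x
  obtain ⟨y, -, hy⟩ := isCompact_univ.exists_isMinOn ⟨x, mem_univ _⟩
    (A.s0_cont (A.sm_s0 hu.1 b ⟨hs.2.1.le, le_rfl⟩)).continuousOn
  exact lt_of_lt_of_le (mul_pos (h0 y) (Real.exp_pos _))
    (A.conj_ge hs hu hK (h0 y).le (fun z => hy (mem_univ z)) t ht x)

/-- the gradient bound is preserved by the heat flow -/
theorem heat_gam {u : ℝ → M → ℝ} (E : H.Evo) (hs : H.St a b) (hu : H.Heat a b u) {m : ℝ}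
    (h0 : ∀ x, H.gam a (u a) (u a) x ≤ m) : ∀ t ∈ Icc a b, ∀ x, H.gam t (u t) (u t) x ≤ m := by
  simpa using A.sub_le hs (A.sm_gam hs hu.1 hu.1) (E.dt_gam hs hu.1 hu.2) (c := 0) h0
    fun t ht x => by
      have hm : t ∈ Icc a b := Ioc_subset_Icc_self ht
      have h1 := E.hh_nonneg t (hs.mem hm) (A.sm_s0 hu.1 t hm) x
      simp only [sub_self]
      rw [A.gam_const' (hs.mem hm) 0 (A.sm_s0 hu.1 t hm)]
      linarith

variable [OpensMeasurableSpace M]

theorem integrable_cont (I : H.Intg) {t : ℝ} (ht : t ∈ Ioo 0 H.T) {u : M → ℝ}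
    (hu : Continuous u) : Integrable u (H.vol t) := by
  have := I.fin t ht
  exact hu.integrable_of_hasCompactSupport (HasCompactSupport.of_compactSpace u)

theorem integrable (I : H.Intg) {t : ℝ} (ht : t ∈ Ioo 0 H.T) {u : M → ℝ} (hu : H.S0 u) :
    Integrable u (H.vol t) := A.integrable_cont I ht (A.s0_cont hu)

theorem ibp2 (I : H.Intg) {t : ℝ} (ht : t ∈ Ioo 0 H.T) {u v : M → ℝ} (hu : H.S0 u) (hv : H.S0 v) :
    ∫ x, u x * H.lap t v x ∂H.vol t = ∫ x, H.lap t u x * v x ∂H.vol t := by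
  have h1 := I.ibp t ht hv hu
  rw [I.ibp t ht hu hv]
  simp only [mul_comm (H.lap t u _), h1, A.gam_symm t ht hu hv]

/-- Duhamel: pairing with a conjugate solution -/
theorem pair_dt (I : H.Intg) (hs : H.St a b) (hf : H.Sm a b f) (hd : HasDt a b f f')
    {v : ℝ → M → ℝ} (hv : H.Conj a b v) : ∀ t ∈ Icc a b,
    HasDerivWithinAt (fun s => ∫ x, f s x * v s x ∂H.vol s)
      (∫ x, (f' t x - H.lap t (f t) x) * v t x ∂H.vol t) (Icc a b) t := by
  intro t ht
  have hm := hs.mem ht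
  have h1 := I.int_dt hs (A.sm_mul hf hv.1) (hd.mul hv.2) t ht
  have hf0 := A.sm_s0 hf t ht
  have hv0 := A.sm_s0 hv.1 t ht
  have hf1 := A.sm_s0 (A.sm_of_dt hs.2.1 hf hd) t ht
  convert h1 using 1
  have h2 := A.ibp2 I hm hf0 hv0
  have i1 := A.integrable I hm (A.s0_mul hf1 hv0)
  have i2 := A.integrable I hm (A.s0_mul hf0 (A.s0_lap hm hv0))
  have i3 := A.integrable I hm (A.s0_mul (A.s0_lap hm hf0) hv0)
  calc _ = ∫ x, (f' t x * v t x - H.lap t (f t) x * v t x) ∂H.vol t := by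
        congr 1; funext x; ring
    _ = ∫ x, (f' t x * v t x - f t x * H.lap t (v t) x) ∂H.vol t := by
        rw [integral_sub i1 i3, integral_sub i1 i2, h2]
    _ = _ := by congr 1; funext x; ring

/-- duality of heat and conjugate heat solutions -/
theorem dual (I : H.Intg) (hs : H.St a b) {u v : ℝ → M → ℝ} (hu : H.Heat a b u)
    (hv : H.Conj a b v) {s t : ℝ} (hs' : s ∈ Icc a b) (ht : t ∈ Icc a b) :
    ∫ x, u s x * v s x ∂H.vol s = ∫ x, u t x * v t x ∂H.vol t := by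
  have h := A.pair_dt I hs hu.1 hu.2 hv
  simp only [sub_self, zero_mul, integral_zero] at h
  have h1 := anti_of_deriv h fun _ _ => le_rfl
  have h2 := mono_of_deriv h fun _ _ => le_rfl
  rcases le_total s t with hst | hst
  · exact le_antisymm (h2 hs' ht hst) (h1 hs' ht hst)
  · exact le_antisymm (h1 ht hs' hst) (h2 ht hs' hst)

theorem heat_const (hs : H.St a b) (c : ℝ) : H.Heat a b fun _ _ => c :=
  ⟨A.sm_const c, (HasDt.static _).congr_d fun _ ht x => A.lap_const (hs.mem ht) c x⟩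

/-- conservation of mass -/
theorem conj_mass (I : H.Intg) (hs : H.St a b) {v : ℝ → M → ℝ} (hv : H.Conj a b v) {s t : ℝ}
    (hs' : s ∈ Icc a b) (ht : t ∈ Icc a b) : ∫ x, v s x ∂H.vol s = ∫ x, v t x ∂H.vol t := by
  simpa using A.dual I hs (A.heat_const hs 1) hv hs' ht

/-- subsolutions paired with a nonnegative conjugate solution -/
theorem pair_le (I : H.Intg) (hs : H.St a b) (hf : H.Sm a b f) (hd : HasDt a b f f')
    {v : ℝ → M → ℝ} (hv : H.Conj a b v) (hp : ∀ t ∈ Icc a b, ∀ x, 0 ≤ v t x)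
    (h : ∀ t ∈ Icc a b, ∀ x, f' t x ≤ H.lap t (f t) x) :
    AntitoneOn (fun s => ∫ x, f s x * v s x ∂H.vol s) (Icc a b) :=
  anti_of_deriv (A.pair_dt I hs hf hd hv) fun t ht => integral_nonpos fun x =>
    mul_nonpos_of_nonpos_of_nonneg (sub_nonpos.2 (h t (Ioo_subset_Icc_self ht) x))
      (hp t (Ioo_subset_Icc_self ht) x)

/-- continuity in time of integrals of smooth functions -/
theorem int_cont (I : H.Intg) (hs : H.St a b) (hf : H.Sm a b f) :
    ContinuousOn (fun s => ∫ x, f s x ∂H.vol s) (Icc a b) := by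
  obtain ⟨g, -, hg⟩ := A.sm_dt hs.2.1 hf
  exact fun t ht => (I.int_dt hs hf hg t ht).continuousWithinAt

end Alg

end HC

end Crest.Agent.N207

end
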