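import Mathlib

/-! Static chain, part 1: log-Sobolev at all small scales ⇒ Faber–Krahn (framework-free). -/

set_option autoImplicit false
set_option linter.unusedSectionVars false
open MeasureTheory Real Set Filter Topology
open scoped ContDiff

namespace Crest.Agent.N207.Sob

variable {X : Type*} [TopologicalSpace X]

/-- a class `S` of functions with a squared gradient norm `G`, closed under smooth composition -/
structure St (S : (X → ℝ) → Prop) (G : (X → ℝ) → X → ℝ) : Prop where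
  cont : ∀ w, S w → Continuous w
  contG : ∀ w, S w → Continuous (G w)
  nn : ∀ w, S w → ∀ x, 0 ≤ G w x
  comp : ∀ w (φ : ℝ → ℝ), S w → ContDiff ℝ ∞ φ → S (fun x => φ (w x))
  gcomp : ∀ w (φ : ℝ → ℝ), S w → ContDiff ℝ ∞ φ →
    ∀ x, G (fun x => φ (w x)) x = deriv φ (w x) ^ 2 * G w x

variable [MeasurableSpace X]

/-- log-Sobolev inequality (dimension 4) at all scales `τ ≤ τ0` -/
def LS (μ : Measure X) (S : (X → ℝ) → Prop) (G : (X → ℝ) → X → ℝ) (τ0 A : ℝ) : Prop :=
  ∀ τ, 0 < τ → τ ≤ τ0 → ∀ w, S w → (∀ x, 0 < w x) → ∫ x, w x ^ 2 ∂μ = 1 →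
    ∫ x, w x ^ 2 * log (w x ^ 2) ∂μ ≤ 4 * τ * ∫ x, G w x ∂μ + A - 2 * log τ

/-- Faber–Krahn inequality -/
def FK (μ : Measure X) (S : (X → ℝ) → Prop) (G : (X → ℝ) → X → ℝ) (τ0 K : ℝ) : Prop :=
  ∀ w, S w → (∀ x, 0 ≤ w x) → ∫ x, w x ^ 2 ∂μ ≤
    K * √(μ.real {x | w x ≠ 0}) * (4 * ∫ x, G w x ∂μ + (∫ x, w x ^ 2 ∂μ) / τ0)

variable [CompactSpace X] [OpensMeasurableSpace X] {μ : Measure X} [IsFiniteMeasure μ]
  {S : (X → ℝ) → Prop} {G : (X → ℝ) → X → ℝ}

theorem intg {f : X → ℝ} (hf : Continuous f) : Integrable f μ := by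
  obtain ⟨C, hC⟩ := (isCompact_range hf.norm).bddAbove
  exact Integrable.of_bound hf.aestronglyMeasurable C
    (Eventually.of_forall fun x => hC ⟨x, rfl⟩)

omit [CompactSpace X] [MeasurableSpace X] [OpensMeasurableSpace X] in
theorem St.affine (h : St S G) {w : X → ℝ} (hw : S w) (a b : ℝ) :
    S (fun x => a * w x + b) ∧ ∀ x, G (fun x => a * w x + b) x = a ^ 2 * G w x := by
  have hφ : ContDiff ℝ ∞ (fun y : ℝ => a * y + b) := by fun_prop
  refine ⟨h.comp w _ hw hφ, fun x => ?_⟩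
  rw [h.gcomp w _ hw hφ x]
  have : deriv (fun y : ℝ => a * y + b) (w x) = a := by
    simp
  rw [this]

/-- homogeneous form of the log-Sobolev inequality -/
theorem LS.hom (h : St S G) {τ0 A : ℝ} (hL : LS μ S G τ0 A) {τ : ℝ} (h0 : 0 < τ) (h1 : τ ≤ τ0)
    {w : X → ℝ} (hw : S w) (hp : ∀ x, 0 < w x) (hN : 0 < ∫ x, w x ^ 2 ∂μ) :
    ∫ x, w x ^ 2 * log (w x ^ 2) ∂μ ≤ (∫ x, w x ^ 2 ∂μ) * log (∫ x, w x ^ 2 ∂μ) +
      4 * τ * ∫ x, G w x ∂μ + (∫ x, w x ^ 2 ∂μ) * (A - 2 * log τ) := by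
  set N := ∫ x, w x ^ 2 ∂μ with hNd
  set c := (√N)⁻¹ with hc
  have hc2 : c ^ 2 = N⁻¹ := by rw [hc, inv_pow, sq_sqrt hN.le]
  have hc0 : 0 < c := inv_pos.2 (sqrt_pos.2 hN)
  obtain ⟨hS, hG⟩ := h.affine hw c 0
  have hwc := h.cont w hw
  have e1 : ∀ x, (c * w x + 0) ^ 2 = N⁻¹ * w x ^ 2 := fun x => by rw [add_zero, mul_pow, hc2]
  have key := hL τ h0 h1 _ hS (fun x => by have := hp x; positivity) (by
    simp_rw [e1]; rw [integral_const_mul, ← hNd]; exact inv_mul_cancel₀ hN.ne')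
  simp_rw [e1, hG, hc2] at key
  have e2 : ∀ x, N⁻¹ * w x ^ 2 * log (N⁻¹ * w x ^ 2) =
      N⁻¹ * (w x ^ 2 * log (w x ^ 2)) - N⁻¹ * log N * w x ^ 2 := fun x => by
    rw [log_mul (inv_pos.2 hN).ne' (pow_pos (hp x) 2).ne', log_inv]; ring
  simp_rw [e2] at key
  have i1 : Integrable (fun x => w x ^ 2 * log (w x ^ 2)) μ :=
    intg (continuous_mul_log.comp (hwc.pow 2))
  have i2 : Integrable (fun x => w x ^ 2) μ := intg (hwc.pow 2)
  rw [integral_sub (i1.const_mul _) (i2.const_mul _), integral_const_mul, integral_const_mul,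
    integral_const_mul, ← hNd] at key
  have := mul_le_mul_of_nonneg_left key hN.le
  have hN' := hN.ne'
  field_simp at this
  nlinarith [this]

theorem mul_log_ge {a b : ℝ} (ha : 0 ≤ a) (hb : 0 < b) : a * log b + a - b ≤ a * log a := by
  rcases ha.eq_or_lt with rfl | ha
  · simp [hb.le]
  · have := Real.log_le_sub_one_of_pos (div_pos hb ha)
    rw [log_div hb.ne' ha.ne'] at this
    have h2 := mul_le_mul_of_nonneg_left this ha.le
    have : a * (b / a - 1) = b - a := by field_simp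
    nlinarith

/-- Jensen on the support -/
theorem LS.supp (h : St S G) {τ0 A : ℝ} (hL : LS μ S G τ0 A) {τ : ℝ} (h0 : 0 < τ) (h1 : τ ≤ τ0)
    {w : X → ℝ} (hw : S w) (hp : ∀ x, 0 ≤ w x) (hN : 0 < ∫ x, w x ^ 2 ∂μ) {b : ℝ} (hb : 0 < b) :
    (∫ x, w x ^ 2 ∂μ) * log b + (∫ x, w x ^ 2 ∂μ) - b * μ.real {x | w x ≠ 0} ≤
      (∫ x, w x ^ 2 ∂μ) * log (∫ x, w x ^ 2 ∂μ) +
      4 * τ * ∫ x, G w x ∂μ + (∫ x, w x ^ 2 ∂μ) * (A - 2 * log τ) := by
  have hwc := h.cont w hw
  have hU : MeasurableSet {x | w x ≠ 0} := (isOpen_ne_fun hwc continuous_const).measurableSet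
  set n : ℝ → ℝ := fun δ => ∫ x, w x ^ 2 ∂μ + 2 * δ * ∫ x, w x ∂μ + δ ^ 2 * μ.real univ with hn
  set η : ℝ → ℝ := fun δ => |δ ^ 2 * log b + δ ^ 2 - δ ^ 2 * log (δ ^ 2)| with hη
  have hnc : Continuous n := by rw [hn]; fun_prop
  have hηc : Continuous η := by
    have : Continuous fun δ : ℝ => δ ^ 2 * log (δ ^ 2) :=
      continuous_mul_log.comp (continuous_pow 2)
    rw [hη]; fun_prop
  have i2 : Integrable (fun x => w x ^ 2) μ := intg (hwc.pow 2)
  have i1 : Integrable w μ := intg hwc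
  have hw1 : 0 ≤ ∫ x, w x ∂μ := integral_nonneg hp
  have step : ∀ δ, 0 < δ → n δ * log b + n δ - b * μ.real {x | w x ≠ 0} - η δ * μ.real univ ≤
      n δ * log (n δ) + 4 * τ * ∫ x, G w x ∂μ + n δ * (A - 2 * log τ) := by
    intro δ hδ
    obtain ⟨hS, hG⟩ := h.affine hw 1 δ
    have hv := h.cont _ hS
    have en : ∫ x, (1 * w x + δ) ^ 2 ∂μ = n δ := by
      have : ∀ x, (1 * w x + δ) ^ 2 = w x ^ 2 + 2 * δ * w x + δ ^ 2 := fun x => by ring
      simp_rw [this]
      have i3 : Integrable (fun x => w x ^ 2 + 2 * δ * w x) μ := i2.add (i1.const_mul _)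
      rw [integral_add i3 (integrable_const _),
        integral_add i2 (i1.const_mul _), integral_const_mul, integral_const, smul_eq_mul, hn]
      ring
    have hpos : 0 < n δ := by
      have : 0 ≤ δ ^ 2 * μ.real univ := by positivity
      have : 0 ≤ 2 * δ * ∫ x, w x ∂μ := by positivity
      simp only [hn]; linarith
    have key := hL.hom h h0 h1 hS (fun x => by have := hp x; positivity) (by rw [en]; exact hpos)
    rw [en] at key
    simp_rw [hG, one_pow, one_mul (G w _)] at key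
    refine le_trans ?_ key
    have iv : Integrable (fun x => (1 * w x + δ) ^ 2) μ := intg (hv.pow 2)
    have ii : Integrable ({x | w x ≠ 0}.indicator fun _ => b) μ :=
      (integrable_const b).indicator hU
    have j1 : Integrable (fun x => (1 * w x + δ) ^ 2 * log b + (1 * w x + δ) ^ 2) μ :=
      (iv.mul_const _).add iv
    have j2 : Integrable (fun x => (1 * w x + δ) ^ 2 * log b + (1 * w x + δ) ^ 2 -
        {x | w x ≠ 0}.indicator (fun _ => b) x) μ := j1.sub ii
    have e : n δ * log b + n δ - b * μ.real {x | w x ≠ 0} - η δ * μ.real univ =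
        ∫ x, ((1 * w x + δ) ^ 2 * log b + (1 * w x + δ) ^ 2 -
          {x | w x ≠ 0}.indicator (fun _ => b) x - η δ) ∂μ := by
      rw [integral_sub j2 (integrable_const _), integral_sub j1 ii, integral_add (iv.mul_const _) iv,
        integral_mul_const, en, integral_indicator hU, setIntegral_const, integral_const]
      simp only [smul_eq_mul]; ring
    rw [e]
    refine integral_mono (j2.sub (integrable_const _))
      (intg (continuous_mul_log.comp (hv.pow 2))) fun x => ?_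
    have hη0 : 0 ≤ η δ := abs_nonneg _
    by_cases hx : w x = 0
    · have : x ∉ {x | w x ≠ 0} := by simp [hx]
      simp only [indicator_of_notMem this, hx, mul_zero, zero_add, sub_zero]
      have := le_abs_self (δ ^ 2 * log b + δ ^ 2 - δ ^ 2 * log (δ ^ 2))
      simp only [hη]; linarith
    · have : x ∈ {x | w x ≠ 0} := hx
      simp only [indicator_of_mem this]
      have := mul_log_ge (sq_nonneg (1 * w x + δ)) hb
      linarith
  have c1 : Continuous fun δ => n δ * log b + n δ - b * μ.real {x | w x ≠ 0} -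
      η δ * μ.real univ := by fun_prop
  have c2 : Continuous fun δ => n δ * log (n δ) + 4 * τ * ∫ x, G w x ∂μ +
      n δ * (A - 2 * log τ) := by
    have : Continuous fun δ => n δ * log (n δ) := continuous_mul_log.comp hnc
    fun_prop
  have := le_of_tendsto_of_tendsto (b := 𝓝[>] (0 : ℝ))
    (c1.continuousAt.tendsto.mono_left nhdsWithin_le_nhds)
    (c2.continuousAt.tendsto.mono_left nhdsWithin_le_nhds)
    (eventually_nhdsWithin_of_forall fun δ hδ => step δ hδ)
  simpa [hn, hη] using this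

theorem real_pos_of_int {w : X → ℝ} (hN : 0 < ∫ x, w x ^ 2 ∂μ) :
    0 < μ.real {x | w x ≠ 0} := by
  by_contra hs
  have h0 : μ {x | w x ≠ 0} = 0 := by
    have := le_antisymm (not_lt.1 hs) measureReal_nonneg
    rwa [measureReal_eq_zero_iff] at this
  have : (fun x => w x ^ 2) =ᵐ[μ] 0 := by
    have : ∀ᵐ x ∂μ, w x = 0 := by rw [ae_iff]; exact h0
    filter_upwards [this] with x hx; simp [hx]
  rw [integral_congr_ae this] at hN
  simp at hN

/-- log-Sobolev at all scales ⇒ Faber–Krahn -/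
theorem LS.fk (h : St S G) {τ0 A : ℝ} (hτ : 0 < τ0) (hL : LS μ S G τ0 A) :
    FK μ S G τ0 (exp ((A + 1) / 2)) := by
  intro w hw hp
  set N := ∫ x, w x ^ 2 ∂μ with hNd
  set E := ∫ x, G w x ∂μ with hEd
  set s := μ.real {x | w x ≠ 0} with hsd
  have hE : 0 ≤ E := integral_nonneg (h.nn w hw)
  have hN0 : 0 ≤ N := integral_nonneg fun x => sq_nonneg _
  rcases hN0.eq_or_lt with hN | hN
  · rw [← hN]; positivity
  have hs : 0 < s := real_pos_of_int hN
  have main : ∀ τ, 0 < τ → τ ≤ τ0 → 4 * τ * E ≤ N → τ ≤ exp ((A + 1) / 2) * √s := by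
    intro τ h0 h1 h2
    have key := hL.supp h h0 h1 hw hp hN (div_pos hN hs)
    rw [← hNd, ← hEd, ← hsd, log_div hN.ne' hs.ne', div_mul_cancel₀ _ hs.ne'] at key
    have k2 : N * (2 * log τ) ≤ N * (A + 1 + log s) := by nlinarith
    have k3 := le_of_mul_le_mul_left k2 hN
    rw [← exp_log h0, ← exp_log (sqrt_pos.2 hs), ← exp_add, log_sqrt hs.le]
    exact exp_le_exp.2 (by linarith)
  have hK : 0 ≤ exp ((A + 1) / 2) * √s := by positivity
  by_cases hc : 4 * τ0 * E ≤ N
  · have := main τ0 hτ le_rfl hc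
    have h2 : N = τ0 * (N / τ0) := by field_simp
    have h3 : 0 ≤ N / τ0 := by positivity
    nlinarith [mul_le_mul_of_nonneg_right this h3, mul_nonneg hK hE]
  · have hE' : 0 < E := by
      by_contra h'; have : E = 0 := le_antisymm (not_lt.1 h') hE
      rw [this] at hc; exact hc (by linarith)
    have := main (N / (4 * E)) (by positivity)
      (by rw [div_le_iff₀ (by positivity)]; linarith) (by field_simp; exact le_rfl)
    rw [div_le_iff₀ (by positivity)] at this
    have h3 : 0 ≤ N / τ0 := by positivity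
    nlinarith [mul_nonneg hK h3]

end Crest.Agent.N207.Sob
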