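import Crest.Agent.N207.C.Sob1

/-! Static chain, part 2: Nash inequality, non-collapsing. -/

set_option autoImplicit false
set_option linter.unusedSectionVars false
open MeasureTheory Real Set Filter Topology
open scoped ContDiff

namespace Crest.Agent.N207.Sob

variable {X : Type*} [TopologicalSpace X] [MeasurableSpace X]
  [CompactSpace X] [OpensMeasurableSpace X] {μ : Measure X} [IsFiniteMeasure μ]
  {S : (X → ℝ) → Prop} {G : (X → ℝ) → X → ℝ}

/-- the optimisation in `τ` -/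
theorem opt_tau {τ0 A N E s : ℝ} (hτ : 0 < τ0) (hN : 0 < N) (hE : 0 ≤ E) (hs : 0 < s)
    (H : ∀ τ, 0 < τ → τ ≤ τ0 → -(N * log s) ≤ 4 * τ * E + N * (A - 2 * log τ)) :
    N ≤ exp ((A + 1) / 2) * √s * (4 * E + N / τ0) := by
  have main : ∀ τ, 0 < τ → τ ≤ τ0 → 4 * τ * E ≤ N → τ ≤ exp ((A + 1) / 2) * √s := by
    intro τ h0 h1 h2
    have key := H τ h0 h1
    have k2 : N * (2 * log τ) ≤ N * (A + 1 + log s) := by nlinarith
    have k3 := le_of_mul_le_mul_left k2 hN
    rw [← exp_log h0, ← exp_log (sqrt_pos.2 hs), ← exp_add, log_sqrt hs.le]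
    exact exp_le_exp.2 (by linarith)
  have hK : 0 ≤ exp ((A + 1) / 2) * √s := by positivity
  by_cases hc : 4 * τ0 * E ≤ N
  · have := main τ0 hτ le_rfl hc
    have h2 : N = τ0 * (N / τ0) := by field_simp
    have h3 : 0 ≤ N / τ0 := by positivity
    nlinarith [mul_le_mul_of_nonneg_right this h3, mul_nonneg hK hE]
  · have hE' : 0 < E := by
      by_contra h'; have : E = 0 := le_antisymm (not_lt.1 h') hE
      rw [this] at hc; exact hc (by linarith)
    have := main (N / (4 * E)) (by positivity)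
      (by rw [div_le_iff₀ (by positivity)]; linarith) (by field_simp; exact le_rfl)
    rw [div_le_iff₀ (by positivity)] at this
    have h3 : 0 ≤ N / τ0 := by positivity
    nlinarith [mul_nonneg hK h3]

/-- Nash inequality in dimension 4 for positive functions:
`N^(3/2) ≤ K ‖w‖₁ (4E + N/τ0)`, `N = ∫ w²`. -/
theorem LS.nash (h : St S G) {τ0 A : ℝ} (hτ : 0 < τ0) (hL : LS μ S G τ0 A)
    {w : X → ℝ} (hw : S w) (hp : ∀ x, 0 < w x) :
    (∫ x, w x ^ 2 ∂μ) * √(∫ x, w x ^ 2 ∂μ) ≤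
      exp ((A + 1) / 2) * (∫ x, w x ∂μ) * (4 * ∫ x, G w x ∂μ + (∫ x, w x ^ 2 ∂μ) / τ0) := by
  set N := ∫ x, w x ^ 2 ∂μ with hNd
  set E := ∫ x, G w x ∂μ with hEd
  set L := ∫ x, w x ∂μ with hLd
  have hwc := h.cont w hw
  have hE : 0 ≤ E := integral_nonneg (h.nn w hw)
  have hN0 : 0 ≤ N := integral_nonneg fun x => sq_nonneg _
  have hL0 : 0 ≤ L := integral_nonneg fun x => (hp x).le
  rcases hN0.eq_or_lt with hN | hN
  · rw [← hN]; simp only [zero_mul]; positivity
  have i2 : Integrable (fun x => w x ^ 2) μ := intg (hwc.pow 2)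
  have i1 : Integrable w μ := intg hwc
  have hLp : 0 < L := by
    rcases hL0.eq_or_lt with hL1 | hL1
    · exfalso
      have := (integral_eq_zero_iff_of_nonneg (fun x => (hp x).le) i1).1 hL1.symm
      have h2 : (fun x => w x ^ 2) =ᵐ[μ] 0 := by
        filter_upwards [this] with x hx
        simp only [Pi.zero_apply] at hx ⊢; rw [hx]; ring
      rw [hNd, integral_congr_ae h2] at hN; simp at hN
    · exact hL1
  have ent : 2 * (N * log (N / L)) ≤ ∫ x, w x ^ 2 * log (w x ^ 2) ∂μ := by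
    have j1 : Integrable (fun x => w x ^ 2 * log (N / L) + w x ^ 2) μ := (i2.mul_const _).add i2
    have e : 2 * (N * log (N / L)) =
        ∫ x, 2 * (w x ^ 2 * log (N / L) + w x ^ 2 - N / L * w x) ∂μ := by
      rw [integral_const_mul, integral_sub j1 (i1.const_mul _), integral_add (i2.mul_const _) i2,
        integral_mul_const, integral_const_mul, ← hNd, ← hLd, div_mul_cancel₀ _ hLp.ne']
      ring
    rw [e]
    refine integral_mono ((j1.sub (i1.const_mul _)).const_mul _)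
      (intg (continuous_mul_log.comp (hwc.pow 2))) fun x => ?_
    have hc : 0 < N / L := div_pos hN hLp
    have := mul_log_ge (sq_nonneg (w x)) (mul_pos hc (hp x))
    rw [log_mul hc.ne' (hp x).ne'] at this
    have e2 : log (w x ^ 2) = 2 * log (w x) := by rw [log_pow]; norm_num
    simp only [e2] at this ⊢
    linarith
  have hs : 0 < L ^ 2 / N := by positivity
  have key := opt_tau (A := A) hτ hN hE hs fun τ h0 h1 => by
    have k := hL.hom h h0 h1 hw hp hN
    rw [← hNd, ← hEd] at k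
    rw [log_div hN.ne' hLp.ne'] at ent
    rw [log_div (pow_pos hLp 2).ne' hN.ne', log_pow]
    push_cast
    linarith
  rw [sqrt_div (sq_nonneg L), sqrt_sq hL0] at key
  have hq : 0 < √N := sqrt_pos.2 hN
  have := mul_le_mul_of_nonneg_right key hq.le
  have e : exp ((A + 1) / 2) * (L / √N) * (4 * E + N / τ0) * √N =
      exp ((A + 1) / 2) * L * (4 * E + N / τ0) := by field_simp
  rwa [e] at this

/-- one step of the non-collapsing iteration -/
theorem FK.step (h : St S G) {τ0 K : ℝ} (hτ : 0 < τ0) (hK : 0 ≤ K) (hF : FK μ S G τ0 K)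
    {B B' : Set X} (hB' : MeasurableSet B') (hB : MeasurableSet B) {w : X → ℝ} (hw : S w)
    (h0 : ∀ x, 0 ≤ w x) (h1 : ∀ x, w x ≤ 1) (hin : ∀ x ∈ B', w x = 1)
    (hout : ∀ x ∉ B, w x = 0) {c : ℝ} (_hc : 0 ≤ c) (hG : ∀ x, G w x ≤ c)
    (hG0 : ∀ x ∉ B, G w x = 0) :
    μ.real B' ≤ K * √(μ.real B) * μ.real B * (4 * c + 1 / τ0) := by
  have hwc := h.cont w hw
  have i2 : Integrable (fun x => w x ^ 2) μ := intg (hwc.pow 2)
  have a1 : μ.real B' ≤ ∫ x, w x ^ 2 ∂μ := by
    rw [← integral_indicator_one hB']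
    refine integral_mono ((integrable_const _).indicator hB') i2 fun x => ?_
    by_cases hx : x ∈ B'
    · simp [indicator_of_mem hx, hin x hx]
    · simp [indicator_of_notMem hx, sq_nonneg]
  have a2 : ∫ x, w x ^ 2 ∂μ ≤ μ.real B := by
    rw [← integral_indicator_one hB]
    refine integral_mono i2 ((integrable_const _).indicator hB) fun x => ?_
    by_cases hx : x ∈ B
    · simp only [indicator_of_mem hx, Pi.one_apply]; nlinarith [h0 x, h1 x]
    · simp [indicator_of_notMem hx, hout x hx]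
  have a3 : ∫ x, G w x ∂μ ≤ c * μ.real B := by
    have : c * μ.real B = ∫ x, B.indicator (fun _ => c) x ∂μ := by
      rw [integral_indicator hB, setIntegral_const, smul_eq_mul, mul_comm]
    rw [this]
    refine integral_mono (intg (h.contG w hw)) ((integrable_const _).indicator hB) fun x => ?_
    by_cases hx : x ∈ B
    · simp [indicator_of_mem hx, hG x]
    · simp [indicator_of_notMem hx, hG0 x hx]
  have a4 : μ.real {x | w x ≠ 0} ≤ μ.real B :=
    measureReal_mono fun x hx => by by_contra hb; exact hx (hout x hb)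
  have a5 := sqrt_le_sqrt a4
  have a6 : 4 * ∫ x, G w x ∂μ + (∫ x, w x ^ 2 ∂μ) / τ0 ≤ μ.real B * (4 * c + 1 / τ0) := by
    have := div_le_div_of_nonneg_right a2 hτ.le
    have e : μ.real B / τ0 = μ.real B * (1 / τ0) := by ring
    nlinarith
  have a7 : 0 ≤ 4 * ∫ x, G w x ∂μ + (∫ x, w x ^ 2 ∂μ) / τ0 := by
    have : 0 ≤ ∫ x, G w x ∂μ := integral_nonneg (h.nn w hw)
    have : 0 ≤ ∫ x, w x ^ 2 ∂μ := integral_nonneg fun x => sq_nonneg _
    positivity
  calc μ.real B' ≤ _ := a1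
    _ ≤ _ := hF w hw h0
    _ ≤ K * √(μ.real B) * (μ.real B * (4 * c + 1 / τ0)) :=
      mul_le_mul (mul_le_mul_of_nonneg_left a5 hK) a6 a7 (by positivity)
    _ = _ := by ring

/-- the numerical iteration: `V(s/2) ≤ D V(s)^(3/2)/s²` and `V(s) ≥ c s⁴` near `0` give
`V(r) ≥ r⁴/(32 D)²`. -/
theorem noncollapse_num {V : ℝ → ℝ} {D r : ℝ} (hD : 0 < D) (hr : 0 < r)
    (hV : ∀ s, 0 ≤ V s)
    (hstep : ∀ s, 0 < s → s ≤ r → V (s / 2) ≤ D * √(V s) * V s / s ^ 2)
    (hloc : ∃ c s0 : ℝ, 0 < c ∧ 0 < s0 ∧ ∀ s, 0 < s → s ≤ s0 → c * s ^ 4 ≤ V s) :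
    r ^ 4 / (32 * D) ^ 2 ≤ V r := by
  by_contra hlt
  rw [not_le] at hlt
  have ind : ∀ j : ℕ, V (r / 2 ^ j) ≤ (r / 2 ^ j) ^ 4 / (32 * D) ^ 2 / 2 ^ j := by
    intro j
    induction j with
    | zero => simpa using hlt.le
    | succ j ih =>
      set s := r / 2 ^ j with hs
      have hs0 : 0 < s := by positivity
      have hsr : s ≤ r := div_le_self hr.le (one_le_pow₀ one_le_two)
      have e : r / 2 ^ (j + 1) = s / 2 := by rw [hs, pow_succ]; field_simp
      rw [e]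
      have h1 : (1 : ℝ) ≤ 2 ^ j := one_le_pow₀ one_le_two
      have hq : √(V s) ≤ s ^ 2 / (32 * D) := by
        rw [sqrt_le_left (by positivity)]
        refine ih.trans ?_
        have e2 : (s ^ 2 / (32 * D)) ^ 2 = s ^ 4 / (32 * D) ^ 2 := by ring
        rw [e2]
        exact div_le_self (by positivity) h1
      calc V (s / 2) ≤ D * √(V s) * V s / s ^ 2 := hstep s hs0 hsr
        _ ≤ D * (s ^ 2 / (32 * D)) * (s ^ 4 / (32 * D) ^ 2 / 2 ^ j) / s ^ 2 := by
          gcongr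
          exact hV s
        _ = (s / 2) ^ 4 / (32 * D) ^ 2 / 2 ^ (j + 1) := by
          rw [pow_succ 2 j]; field_simp; ring
  obtain ⟨c, s0, hc, hs0, hl⟩ := hloc
  obtain ⟨j, hj⟩ := pow_unbounded_of_one_lt (max (r / s0) (1 / (c * (32 * D) ^ 2)))
    (one_lt_two (α := ℝ))
  have h1 : r / 2 ^ j ≤ s0 := by
    have := (le_max_left _ _).trans hj.le
    rw [div_le_iff₀ hs0] at this
    rw [div_le_iff₀ (by positivity)]; linarith
  have h2 := (hl _ (by positivity) h1).trans (ind j)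
  have h3 := (le_max_right _ _).trans_lt hj
  rw [div_lt_iff₀ (by positivity)] at h3
  have h4 : 0 < (r / 2 ^ j) ^ 4 := by positivity
  rw [div_div, le_div_iff₀ (by positivity)] at h2
  nlinarith

/-- non-collapsing: cutoffs at all scales + Faber–Krahn + local Euclidean lower bound -/
theorem FK.vol_lower (h : St S G) {τ0 K c1 r : ℝ} (hτ : 0 < τ0) (hK : 0 < K) (hc1 : 0 ≤ c1)
    (hF : FK μ S G τ0 K) {B : ℝ → Set X} (hB : ∀ s, MeasurableSet (B s)) (hr : 0 < r)
    (hrτ : r ^ 2 ≤ τ0)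
    (hcut : ∀ s, 0 < s → s ≤ r → ∃ w, S w ∧ (∀ x, 0 ≤ w x) ∧ (∀ x, w x ≤ 1) ∧
      (∀ x ∈ B (s / 2), w x = 1) ∧ (∀ x ∉ B s, w x = 0 ∧ G w x = 0) ∧ ∀ x, G w x ≤ c1 / s ^ 2)
    (hloc : ∃ c s0 : ℝ, 0 < c ∧ 0 < s0 ∧ ∀ s, 0 < s → s ≤ s0 → c * s ^ 4 ≤ μ.real (B s)) :
    r ^ 4 / (32 * (K * (4 * c1 + 1))) ^ 2 ≤ μ.real (B r) := by
  refine noncollapse_num (V := fun s => μ.real (B s)) (by positivity) hr
    (fun s => measureReal_nonneg) (fun s hs hsr => ?_) hloc
  obtain ⟨w, hw, h0, h1, hin, hout, hG⟩ := hcut s hs hsr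
  refine (hF.step h hτ hK.le (hB _) (hB _) hw h0 h1 hin (fun x hx => (hout x hx).1)
    (by positivity) hG (fun x hx => (hout x hx).2)).trans ?_
  have h2 : 1 / τ0 ≤ 1 / s ^ 2 :=
    one_div_le_one_div_of_le (by positivity) ((pow_le_pow_left₀ hs.le hsr 2).trans hrτ)
  calc K * √(μ.real (B s)) * μ.real (B s) * (4 * (c1 / s ^ 2) + 1 / τ0)
      ≤ K * √(μ.real (B s)) * μ.real (B s) * (4 * (c1 / s ^ 2) + 1 / s ^ 2) := by gcongr
    _ = _ := by field_simp

end Crest.Agent.N207.Sob
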