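import Crest.Agent.N207.C.Sob2

/-! Static chain, part 3: Faber–Krahn ⇒ Sobolev (dyadic truncation); Sobolev ⇒ log-Sobolev. -/

set_option autoImplicit false
set_option linter.unusedSectionVars false
open MeasureTheory Real Set Filter Topology
open scoped ContDiff

namespace Crest.Agent.N207.Sob

/-- the smooth step: `0` on `(-∞,0]`, `1` on `[1,∞)` -/
noncomputable abbrev σ : ℝ → ℝ := Real.smoothTransition

theorem σ_smooth : ContDiff ℝ ∞ σ := Real.smoothTransition.contDiff

theorem σ_deriv_zero {y : ℝ} (h : y < 0 ∨ 1 < y) : deriv σ y = 0 := by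
  rcases h with h | h
  · have : σ =ᶠ[𝓝 y] fun _ => 0 := by
      filter_upwards [Iio_mem_nhds h] with z hz using Real.smoothTransition.zero_of_nonpos (le_of_lt hz)
    rw [this.deriv_eq]; simp
  · have : σ =ᶠ[𝓝 y] fun _ => 1 := by
      filter_upwards [Ioi_mem_nhds h] with z hz using Real.smoothTransition.one_of_one_le (le_of_lt hz)
    rw [this.deriv_eq]; simp

theorem σ_deriv_bd : ∃ L : ℝ, 0 < L ∧ ∀ y, deriv σ y ^ 2 ≤ L := by
  have hc : Continuous fun y => deriv σ y ^ 2 :=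
    (σ_smooth.continuous_deriv (by simp)).pow 2
  obtain ⟨C, hC⟩ := (isCompact_Icc (a := (0 : ℝ)) (b := 1)).bddAbove_image hc.continuousOn
  refine ⟨max C 1, by positivity, fun y => ?_⟩
  by_cases h : y ∈ Icc (0 : ℝ) 1
  · exact (hC ⟨y, h, rfl⟩).trans (le_max_left _ _)
  · have : y < 0 ∨ 1 < y := by
      by_contra h'; rw [not_or, not_lt, not_lt] at h'; exact h h'
    rw [σ_deriv_zero this]; simp

/-- a bound for the squared derivative of the smooth step -/
noncomputable def Lσ : ℝ := σ_deriv_bd.choose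
theorem Lσ_pos : 0 < Lσ := σ_deriv_bd.choose_spec.1
theorem σ_deriv_le (y : ℝ) : deriv σ y ^ 2 ≤ Lσ := σ_deriv_bd.choose_spec.2 y

theorem deriv_σ_aff (c a b y : ℝ) :
    deriv (fun z => c * σ (a * z + b)) y = c * a * deriv σ (a * y + b) := by
  have h1 : HasDerivAt σ (deriv σ (a * y + b)) (a * y + b) :=
    (σ_smooth.differentiable (by simp) _).hasDerivAt
  have h2 : HasDerivAt (fun z : ℝ => a * z + b) a y := by
    simpa using ((hasDerivAt_id y).const_mul a).add_const b
  have := ((h1.comp y h2).const_mul c).deriv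
  simp only [Function.comp_def] at this
  rw [this]; ring

variable {X : Type*} [TopologicalSpace X] [MeasurableSpace X]
  [CompactSpace X] [OpensMeasurableSpace X] {μ : Measure X} [IsFiniteMeasure μ]
  {S : (X → ℝ) → Prop} {G : (X → ℝ) → X → ℝ}

omit [MeasurableSpace X] [CompactSpace X] [OpensMeasurableSpace X] in
theorem St.step (h : St S G) {w : X → ℝ} (hw : S w) (c a b : ℝ) :
    S (fun x => c * σ (a * w x + b)) ∧
      ∀ x, G (fun x => c * σ (a * w x + b)) x = (c * a * deriv σ (a * w x + b)) ^ 2 * G w x := by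
  have hφ : ContDiff ℝ ∞ (fun z : ℝ => c * σ (a * z + b)) :=
    contDiff_const.mul (σ_smooth.comp (by fun_prop))
  exact ⟨h.comp w _ hw hφ, fun x => by rw [h.gcomp w _ hw hφ x, deriv_σ_aff]⟩

/-- one level of the truncation -/
theorem FK.level (h : St S G) {τ0 K : ℝ} (hτ : 0 < τ0) (hK : 0 ≤ K) (hF : FK μ S G τ0 K)
    {w : X → ℝ} (hw : S w) {l : ℝ} (hl : 0 < l) :
    l ^ 2 * μ.real {x | 2 * l < w x} ≤ K * √(μ.real {x | l < w x}) *
      (4 * Lσ * ∫ x, {x | l ≤ w x ∧ w x ≤ 2 * l}.indicator (G w) x ∂μ +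
        l ^ 2 * μ.real {x | l < w x} / τ0) := by
  have hwc := h.cont w hw
  obtain ⟨hS, hG⟩ := h.step hw l l⁻¹ (-1)
  have hvc := h.cont _ hS
  have m1 : ∀ a : ℝ, MeasurableSet {x | a < w x} := fun a =>
    (isOpen_lt continuous_const hwc).measurableSet
  have m2 : MeasurableSet {x | l ≤ w x ∧ w x ≤ 2 * l} :=
    ((isClosed_le continuous_const hwc).inter (isClosed_le hwc continuous_const)).measurableSet
  have i2 : Integrable (fun x => (l * σ (l⁻¹ * w x + -1)) ^ 2) μ := intg (hvc.pow 2)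
  have z : ∀ x, ¬ l < w x → σ (l⁻¹ * w x + -1) = 0 := fun x hx =>
    Real.smoothTransition.zero_of_nonpos (by
      have : l⁻¹ * w x ≤ 1 := by rw [inv_mul_le_iff₀ hl]; linarith [not_lt.1 hx]
      linarith)
  have a1 : l ^ 2 * μ.real {x | 2 * l < w x} ≤ ∫ x, (l * σ (l⁻¹ * w x + -1)) ^ 2 ∂μ := by
    have : l ^ 2 * μ.real {x | 2 * l < w x} =
        ∫ x, {x | 2 * l < w x}.indicator (fun _ => l ^ 2) x ∂μ := by
      rw [integral_indicator (m1 _), setIntegral_const, smul_eq_mul, mul_comm]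
    rw [this]
    refine integral_mono ((integrable_const _).indicator (m1 _)) i2 fun x => ?_
    by_cases hx : x ∈ {x | 2 * l < w x}
    · have : σ (l⁻¹ * w x + -1) = 1 := Real.smoothTransition.one_of_one_le (by
        have : 2 ≤ l⁻¹ * w x := by rw [le_inv_mul_iff₀ hl]; have : 2 * l < w x := hx; linarith
        linarith)
      simp [indicator_of_mem hx, this]
    · simp only [indicator_of_notMem hx]; positivity
  have a2 : ∫ x, (l * σ (l⁻¹ * w x + -1)) ^ 2 ∂μ ≤ l ^ 2 * μ.real {x | l < w x} := by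
    have : l ^ 2 * μ.real {x | l < w x} =
        ∫ x, {x | l < w x}.indicator (fun _ => l ^ 2) x ∂μ := by
      rw [integral_indicator (m1 _), setIntegral_const, smul_eq_mul, mul_comm]
    rw [this]
    refine integral_mono i2 ((integrable_const _).indicator (m1 _)) fun x => ?_
    by_cases hx : x ∈ {x | l < w x}
    · simp only [indicator_of_mem hx]
      have h0 := Real.smoothTransition.nonneg (l⁻¹ * w x + -1)
      have h1 := Real.smoothTransition.le_one (l⁻¹ * w x + -1)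
      rw [mul_pow]
      exact mul_le_of_le_one_right (sq_nonneg _) (pow_le_one₀ h0 h1)
    · simp [indicator_of_notMem hx, z x hx]
  have a3 : ∫ x, G (fun x => l * σ (l⁻¹ * w x + -1)) x ∂μ ≤
      Lσ * ∫ x, {x | l ≤ w x ∧ w x ≤ 2 * l}.indicator (G w) x ∂μ := by
    rw [← integral_const_mul]
    refine integral_mono (intg (h.contG _ hS))
      (((intg (h.contG w hw)).indicator m2).const_mul _) fun x => ?_
    rw [hG x, mul_inv_cancel₀ hl.ne', one_mul]
    by_cases hx : x ∈ {x | l ≤ w x ∧ w x ≤ 2 * l}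
    · simp only [indicator_of_mem hx]
      exact mul_le_mul_of_nonneg_right (σ_deriv_le _) (h.nn w hw x)
    · have : l⁻¹ * w x + -1 < 0 ∨ 1 < l⁻¹ * w x + -1 := by
        by_contra h'
        rw [not_or, not_lt, not_lt] at h'
        have e1 : 1 ≤ l⁻¹ * w x := by linarith [h'.1]
        have e2 : l⁻¹ * w x ≤ 2 := by linarith [h'.2]
        rw [le_inv_mul_iff₀ hl] at e1; rw [inv_mul_le_iff₀ hl] at e2
        exact hx ⟨by linarith, by linarith⟩
      simp [indicator_of_notMem hx, σ_deriv_zero this]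
  have a4 : μ.real {x | l * σ (l⁻¹ * w x + -1) ≠ 0} ≤ μ.real {x | l < w x} :=
    measureReal_mono fun x hx => by
      by_contra hb; exact hx (by rw [z x hb, mul_zero])
  have a7 : 0 ≤ 4 * ∫ x, G (fun x => l * σ (l⁻¹ * w x + -1)) x ∂μ +
      (∫ x, (l * σ (l⁻¹ * w x + -1)) ^ 2 ∂μ) / τ0 := by
    have : 0 ≤ ∫ x, G (fun x => l * σ (l⁻¹ * w x + -1)) x ∂μ := integral_nonneg (h.nn _ hS)
    have : 0 ≤ ∫ x, (l * σ (l⁻¹ * w x + -1)) ^ 2 ∂μ := integral_nonneg fun x => sq_nonneg _
    positivity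
  refine a1.trans ((hF _ hS fun x => mul_nonneg hl.le (Real.smoothTransition.nonneg _)).trans ?_)
  refine mul_le_mul (mul_le_mul_of_nonneg_left (sqrt_le_sqrt a4) hK) ?_ a7 (by positivity)
  have := div_le_div_of_nonneg_right a2 hτ.le
  linarith

theorem pw1 {l y : ℝ} (hl : 0 < l) (hy : 0 ≤ y) (n : ℕ) (h : y ≤ l * 2 ^ (n + 1)) :
    y ^ 4 ≤ (2 * l) ^ 4 + ∑ j ∈ Finset.range n,
      if 2 * (l * 2 ^ j) < y then 256 * (l * 2 ^ j) ^ 4 else 0 := by
  induction n with
  | zero => simpa using pow_le_pow_left₀ hy (by simpa [mul_comm] using h) 4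
  | succ n ih =>
    rw [Finset.sum_range_succ]
    have hs : 0 ≤ ∑ j ∈ Finset.range n, if 2 * (l * 2 ^ j) < y then 256 * (l * 2 ^ j) ^ 4 else 0 :=
      Finset.sum_nonneg fun j _ => by split_ifs <;> positivity
    by_cases hc : 2 * (l * 2 ^ n) < y
    · rw [if_pos hc]
      have : y ^ 4 ≤ (l * 2 ^ (n + 1 + 1)) ^ 4 := pow_le_pow_left₀ hy h 4
      have e : (l * 2 ^ (n + 1 + 1)) ^ 4 = 256 * (l * 2 ^ n) ^ 4 := by ring
      have : 0 ≤ (2 * l) ^ 4 := by positivity
      linarith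
    · rw [if_neg hc, add_zero]
      exact ih (by rw [pow_succ]; linarith [not_lt.1 hc])

theorem pw2 {l y : ℝ} (hl : 0 < l) (n : ℕ) :
    (∑ j ∈ Finset.range n, if l * 2 ^ j < y then (l * 2 ^ j) ^ 2 else 0) ≤
      min (2 * y ^ 2) ((l * 2 ^ n) ^ 2 / 2) := by
  induction n with
  | zero => simp; constructor <;> positivity
  | succ n ih =>
    rw [Finset.sum_range_succ, le_min_iff]
    rw [le_min_iff] at ih
    have e : (l * 2 ^ (n + 1)) ^ 2 / 2 = 2 * (l * 2 ^ n) ^ 2 := by ring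
    have h0 : 0 < l * 2 ^ n := by positivity
    rw [e]
    split_ifs with hc
    · have := pow_le_pow_left₀ h0.le hc.le 2
      constructor <;> nlinarith [ih.2]
    · constructor <;> nlinarith [ih.1, ih.2]

theorem pw3 {l y : ℝ} (hl : 0 < l) (n : ℕ) :
    (∑ j ∈ Finset.range n, if l * 2 ^ j ≤ y ∧ y ≤ 2 * (l * 2 ^ j) then (1 : ℝ) else 0) ≤ 2 ∧
    (l * 2 ^ n ≤ y →
      (∑ j ∈ Finset.range n, if l * 2 ^ j ≤ y ∧ y ≤ 2 * (l * 2 ^ j) then (1 : ℝ) else 0) ≤ 1) ∧
    (l * 2 ^ n < y →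
      (∑ j ∈ Finset.range n, if l * 2 ^ j ≤ y ∧ y ≤ 2 * (l * 2 ^ j) then (1 : ℝ) else 0) ≤ 0) := by
  induction n with
  | zero => simp
  | succ n ih =>
    rw [Finset.sum_range_succ]
    have h0 : 0 < l * 2 ^ n := by positivity
    have e : l * 2 ^ (n + 1) = 2 * (l * 2 ^ n) := by ring
    rw [e]
    obtain ⟨i1, i2, i3⟩ := ih
    refine ⟨?_, fun h => ?_, fun h => ?_⟩
    · split_ifs with hc
      · linarith [i2 hc.1]
      · linarith
    · have := i3 (by linarith)
      split_ifs <;> linarith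
    · have := i3 (by linarith)
      rw [if_neg (fun hc => by linarith [hc.2])]; linarith

/-- Faber–Krahn ⇒ Sobolev for nonnegative functions -/
theorem FK.sob_nonneg (h : St S G) {τ0 K : ℝ} (hτ : 0 < τ0) (hK : 0 ≤ K) (hF : FK μ S G τ0 K)
    {w : X → ℝ} (hw : S w) (hp : ∀ x, 0 ≤ w x) :
    ∫ x, w x ^ 4 ∂μ ≤
      (512 * K * (4 * Lσ * ∫ x, G w x ∂μ + (∫ x, w x ^ 2 ∂μ) / τ0)) ^ 2 := by
  have hwc := h.cont w hw
  set E := ∫ x, G w x ∂μ with hEd
  set N := ∫ x, w x ^ 2 ∂μ with hNd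
  have hE : 0 ≤ E := integral_nonneg (h.nn w hw)
  have hN : 0 ≤ N := integral_nonneg fun x => sq_nonneg _
  have hL := Lσ_pos
  set B := 4 * Lσ * E + N / τ0 with hB
  have hB0 : 0 ≤ B := by positivity
  have m1 : ∀ a : ℝ, MeasurableSet {x | a < w x} := fun a =>
    (isOpen_lt continuous_const hwc).measurableSet
  have m2 : ∀ l : ℝ, MeasurableSet {x | l ≤ w x ∧ w x ≤ 2 * l} := fun l =>
    ((isClosed_le continuous_const hwc).inter (isClosed_le hwc continuous_const)).measurableSet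
  have iG : Integrable (G w) μ := intg (h.contG w hw)
  have i2 : Integrable (fun x => w x ^ 2) μ := intg (hwc.pow 2)
  set m : ℝ → ℝ := fun l => μ.real {x | l < w x} with hm
  set e : ℝ → ℝ := fun l => ∫ x, {x | l ≤ w x ∧ w x ≤ 2 * l}.indicator (G w) x ∂μ with he
  set b : ℝ → ℝ := fun l => 4 * Lσ * e l + l ^ 2 * m l / τ0 with hb
  have m0 : ∀ l, 0 ≤ m l := fun l => measureReal_nonneg
  have e0 : ∀ l, 0 ≤ e l := fun l =>
    integral_nonneg fun x => indicator_nonneg (fun y _ => h.nn w hw y) x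
  have b0 : ∀ l, 0 ≤ b l := fun l => by have := e0 l; have := m0 l; simp only [hb]; positivity
  have mi : ∀ l c : ℝ, c * m l = ∫ x, (if l < w x then c else 0) ∂μ := fun l c => by
    have : (fun x => if l < w x then c else 0) = {x | l < w x}.indicator fun _ => c := by
      funext x; simp [indicator_apply]
    rw [this, integral_indicator (m1 _), setIntegral_const, smul_eq_mul, mul_comm]
  have ii : ∀ l c : ℝ, Integrable (fun x => if l < w x then c else 0) μ := fun l c => by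
    have : (fun x => if l < w x then c else 0) = {x | l < w x}.indicator fun _ => c := by
      funext x; simp [indicator_apply]
    rw [this]; exact (integrable_const _).indicator (m1 _)
  -- sums over dyadic levels
  have sb : ∀ l, 0 < l → ∀ n, ∑ j ∈ Finset.range n, b (l * 2 ^ j) ≤ 2 * B := by
    intro l hl n
    have s1 : ∑ j ∈ Finset.range n, e (l * 2 ^ j) ≤ 2 * E := by
      simp only [he]
      rw [← integral_finsetSum _ fun j _ => iG.indicator (m2 _), hEd, ← integral_const_mul]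
      refine integral_mono (integrable_finsetSum _ fun j _ => iG.indicator (m2 _))
        (iG.const_mul _) fun x => ?_
      have := mul_le_mul_of_nonneg_right (pw3 (y := w x) hl n).1 (h.nn w hw x)
      rw [Finset.sum_mul] at this
      refine le_trans (le_of_eq (Finset.sum_congr rfl fun j _ => ?_)) this
      simp [indicator_apply]
    have s2 : ∑ j ∈ Finset.range n, (l * 2 ^ j) ^ 2 * m (l * 2 ^ j) ≤ 2 * N := by
      simp only [mi]
      rw [← integral_finsetSum _ fun j _ => ii _ _, hNd, ← integral_const_mul]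
      exact integral_mono (integrable_finsetSum _ fun j _ => ii _ _) (i2.const_mul _) fun x =>
        (pw2 hl n).trans (min_le_left _ _)
    simp only [hb]
    rw [Finset.sum_add_distrib, ← Finset.mul_sum, ← Finset.sum_div]
    have := div_le_div_of_nonneg_right s2 hτ.le
    have e2 : 2 * N / τ0 = 2 * (N / τ0) := by ring
    nlinarith
  have bB : ∀ l, 0 < l → b l ≤ 2 * B := fun l hl => by simpa using sb l hl 1
  obtain ⟨W, hW⟩ := (isCompact_range hwc).bddAbove
  have hW' : ∀ x, w x ≤ W := fun x => hW ⟨x, rfl⟩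
  -- the weak bound
  have lev : ∀ l, 0 < l → (2 * l) ^ 4 * m (2 * l) ≤ 16 * K * √(l ^ 4 * m l) * b l := by
    intro l hl
    have := hF.level h hτ hK hw hl
    have e1 : √(l ^ 4 * m l) = l ^ 2 * √(m l) := by
      rw [sqrt_mul (by positivity), show l ^ 4 = (l ^ 2) ^ 2 by ring, sqrt_sq (by positivity)]
    rw [e1]
    have := mul_le_mul_of_nonneg_left this (show 0 ≤ 16 * l ^ 2 by positivity)
    calc (2 * l) ^ 4 * m (2 * l) = 16 * l ^ 2 * (l ^ 2 * m (2 * l)) := by ring
      _ ≤ _ := this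
      _ = _ := by simp only [hb, he, hm]; ring
  have bdd : BddAbove (range fun l : Ioi (0 : ℝ) => l.1 ^ 4 * m l.1) := by
    refine ⟨W ^ 4 * μ.real univ, ?_⟩
    rintro _ ⟨⟨l, hl⟩, rfl⟩
    by_cases hc : l ≤ W
    · exact mul_le_mul (pow_le_pow_left₀ (le_of_lt hl) hc 4) (measureReal_mono (subset_univ _))
        (m0 _) (by positivity)
    · have : {x | l < w x} = ∅ := by
        ext x; simp only [mem_ofPred_eq, mem_empty_iff_false, iff_false, not_lt]
        linarith [hW' x, not_le.1 hc]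
      simp only [hm, this, measureReal_empty, mul_zero]; positivity
  set a := ⨆ l : Ioi (0 : ℝ), l.1 ^ 4 * m l.1 with ha
  have al : ∀ l, 0 < l → l ^ 4 * m l ≤ a := fun l hl => le_ciSup bdd ⟨l, hl⟩
  have a0 : 0 ≤ a := le_trans (by have := m0 1; positivity) (al 1 one_pos)
  have lev2 : ∀ l, 0 < l → (2 * l) ^ 4 * m (2 * l) ≤ 16 * K * √a * b l := fun l hl =>
    (lev l hl).trans (mul_le_mul_of_nonneg_right
      (mul_le_mul_of_nonneg_left (sqrt_le_sqrt (al l hl)) (by positivity)) (b0 l))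
  have aa : a ≤ 16 * K * √a * (2 * B) := by
    have : Nonempty (Ioi (0 : ℝ)) := ⟨⟨1, mem_Ioi.2 one_pos⟩⟩
    refine ciSup_le fun ⟨l, hl⟩ => ?_
    have hl' : 0 < l / 2 := half_pos hl
    have := lev2 (l / 2) hl'
    rw [show 2 * (l / 2) = l by ring] at this
    exact this.trans (mul_le_mul_of_nonneg_left (bB _ hl') (by positivity))
  have sa : √a ≤ 32 * K * B := by
    rcases (sqrt_nonneg a).eq_or_lt with h0 | h0
    · rw [← h0]; positivity
    · have : √a * √a ≤ √a * (32 * K * B) := by rw [mul_self_sqrt a0]; linarith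
      exact le_of_mul_le_mul_left this h0
  have fin : ∀ l, 0 < l → ∫ x, w x ^ 4 ∂μ ≤ (2 * l) ^ 4 * μ.real univ + (512 * K * B) ^ 2 := by
    intro l hl
    obtain ⟨n, hn⟩ := pow_unbounded_of_one_lt (W / l) (one_lt_two (α := ℝ))
    have hn' : ∀ x, w x ≤ l * 2 ^ (n + 1) := fun x => by
      rw [div_lt_iff₀ hl] at hn
      have : 0 < l * 2 ^ n := by positivity
      rw [pow_succ]; nlinarith [hW' x]
    have s := integrable_finsetSum (μ := μ) (Finset.range n) fun j _ =>
      ii (2 * (l * 2 ^ j)) (256 * (l * 2 ^ j) ^ 4)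
    have c1 := integral_mono (intg (f := fun x => w x ^ 4) (hwc.pow 4)) ((integrable_const ((2 * l) ^ 4)).add s)
      fun x => pw1 hl (hp x) n (hn' x)
    simp only [Pi.add_apply] at c1
    rw [integral_add (integrable_const _) s, integral_const,
      integral_finsetSum _ fun j _ => ii _ _, smul_eq_mul] at c1
    simp only [← mi] at c1
    have c2 : ∑ j ∈ Finset.range n, 256 * (l * 2 ^ j) ^ 4 * m (2 * (l * 2 ^ j)) ≤
        ∑ j ∈ Finset.range n, 256 * K * √a * b (l * 2 ^ j) := Finset.sum_le_sum fun j _ => by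
      have := lev2 (l * 2 ^ j) (by positivity)
      nlinarith
    rw [← Finset.mul_sum] at c2
    have c3 : 256 * K * √a * ∑ j ∈ Finset.range n, b (l * 2 ^ j) ≤
        256 * K * (32 * K * B) * (2 * B) :=
      mul_le_mul (mul_le_mul_of_nonneg_left sa (by positivity)) (sb l hl n)
        (Finset.sum_nonneg fun j _ => b0 _) (by positivity)
    have c4 : 0 ≤ (K * B) ^ 2 := sq_nonneg _
    have c5 : 256 * K * (32 * K * B) * (2 * B) = 16384 * (K * B) ^ 2 := by ring
    have c6 : (512 * K * B) ^ 2 = 262144 * (K * B) ^ 2 := by ring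
    rw [mul_comm (μ.real univ)] at c1
    linarith
  have c1 : Continuous fun l : ℝ => (2 * l) ^ 4 * μ.real univ + (512 * K * B) ^ 2 := by fun_prop
  have := ge_of_tendsto (x := 𝓝[>] (0 : ℝ))
    (c1.continuousAt.tendsto.mono_left nhdsWithin_le_nhds)
    (eventually_nhdsWithin_of_forall fun δ hδ => fin δ hδ)
  simpa using this

/-- Sobolev inequality in dimension 4 -/
def SobI (μ : Measure X) (S : (X → ℝ) → Prop) (G : (X → ℝ) → X → ℝ) (A B : ℝ) : Prop :=
  ∀ w, S w → √(∫ x, w x ^ 4 ∂μ) ≤ A * ∫ x, G w x ∂μ + B * ∫ x, w x ^ 2 ∂μ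

/-- Faber–Krahn ⇒ Sobolev -/
theorem FK.sob (h : St S G) {τ0 K : ℝ} (hτ : 0 < τ0) (hK : 0 ≤ K) (hF : FK μ S G τ0 K) :
    SobI μ S G (2048 * K * Lσ) (512 * K / τ0) := by
  intro w hw
  have hwc := h.cont w hw
  have hL := Lσ_pos
  have i2 : Integrable (fun x => w x ^ 2) μ := intg (hwc.pow 2)
  have step : ∀ δ : ℝ, 0 < δ → √(∫ x, w x ^ 4 ∂μ) ≤ 2048 * K * Lσ * ∫ x, G w x ∂μ +
      512 * K / τ0 * (∫ x, w x ^ 2 ∂μ + δ * μ.real univ) := by
    intro δ hδ
    have hp : ∀ y : ℝ, 0 < y ^ 2 + δ := fun y => by positivity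
    have hφ : ContDiff ℝ ∞ fun y : ℝ => √(y ^ 2 + δ) :=
      ContDiff.sqrt (by fun_prop) fun y => (hp y).ne'
    have hS := h.comp w _ hw hφ
    have hG : ∀ x, G (fun x => √(w x ^ 2 + δ)) x ≤ G w x := fun x => by
      rw [h.gcomp w _ hw hφ x]
      have d1 : HasDerivAt (fun y : ℝ => y ^ 2 + δ) (2 * w x) (w x) := by
        simpa using (hasDerivAt_pow 2 (w x)).add_const δ
      rw [(d1.sqrt (hp _).ne').deriv]
      refine mul_le_of_le_one_left (h.nn w hw x) ?_
      rw [div_pow, mul_pow, mul_pow, sq_sqrt (hp _).le, div_le_one (by have := hp (w x); positivity)]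
      nlinarith
    have key := hF.sob_nonneg h hτ hK hS fun x => sqrt_nonneg _
    have e2 : ∫ x, √(w x ^ 2 + δ) ^ 2 ∂μ = ∫ x, w x ^ 2 ∂μ + δ * μ.real univ := by
      simp_rw [fun x => sq_sqrt (hp (w x)).le]
      rw [integral_add i2 (integrable_const _), integral_const, smul_eq_mul, mul_comm]
    have e3 : ∫ x, G (fun x => √(w x ^ 2 + δ)) x ∂μ ≤ ∫ x, G w x ∂μ :=
      integral_mono (intg (h.contG _ hS)) (intg (h.contG w hw)) hG
    have e4 : ∫ x, w x ^ 4 ∂μ ≤ ∫ x, √(w x ^ 2 + δ) ^ 4 ∂μ :=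
      integral_mono (intg (f := fun x => w x ^ 4) (hwc.pow 4))
        (intg (f := fun x => √(w x ^ 2 + δ) ^ 4) ((h.cont _ hS).pow 4)) fun x => by
        have : √(w x ^ 2 + δ) ^ 4 = (w x ^ 2 + δ) ^ 2 := by
          rw [show (4 : ℕ) = 2 * 2 from rfl, pow_mul, sq_sqrt (hp _).le]
        simp only [this]; nlinarith [sq_nonneg (w x)]
    have g0 : 0 ≤ ∫ x, G (fun x => √(w x ^ 2 + δ)) x ∂μ := integral_nonneg (h.nn _ hS)
    have n0 : 0 ≤ ∫ x, √(w x ^ 2 + δ) ^ 2 ∂μ := integral_nonneg fun x => sq_nonneg _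
    refine (sqrt_le_sqrt (e4.trans key)).trans ?_
    rw [sqrt_sq (by positivity), e2]
    have := mul_le_mul_of_nonneg_left e3 (show 0 ≤ 2048 * K * Lσ by positivity)
    have e5 : 512 * K * (4 * Lσ * ∫ x, G (fun x => √(w x ^ 2 + δ)) x ∂μ +
        (∫ x, w x ^ 2 ∂μ + δ * μ.real univ) / τ0) =
        2048 * K * Lσ * ∫ x, G (fun x => √(w x ^ 2 + δ)) x ∂μ +
        512 * K / τ0 * (∫ x, w x ^ 2 ∂μ + δ * μ.real univ) := by ring
    linarith
  have c1 : Continuous fun δ : ℝ => 2048 * K * Lσ * ∫ x, G w x ∂μ +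
      512 * K / τ0 * (∫ x, w x ^ 2 ∂μ + δ * μ.real univ) := by fun_prop
  have := ge_of_tendsto (x := 𝓝[>] (0 : ℝ))
    (c1.continuousAt.tendsto.mono_left nhdsWithin_le_nhds)
    (eventually_nhdsWithin_of_forall fun δ hδ => step δ hδ)
  simpa using this

/-- Sobolev ⇒ log-Sobolev at all scales `τ ≤ τ0` -/
theorem SobI.ls (h : St S G) {A B : ℝ} (hA : 0 < A) (hB : 0 ≤ B) (hS : SobI μ S G A B) (τ0 : ℝ) :
    LS μ S G τ0 (2 * log (A / 2) + 4 * τ0 * B / A) := by
  intro τ h0 h1 w hw hp hN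
  have hwc := h.cont w hw
  have i2 : Integrable (fun x => w x ^ 2) μ := intg (hwc.pow 2)
  have i4 : Integrable (fun x => w x ^ 4) μ := intg (hwc.pow 4)
  have key := hS w hw
  rw [hN, mul_one] at key
  set c := ∫ x, w x ^ 4 ∂μ with hc
  have hc1 : 0 < c := by
    rcases (integral_nonneg (μ := μ) (f := fun x => w x ^ 4) fun x => by positivity).eq_or_lt
      with h4 | h4
    · exfalso
      have := (integral_eq_zero_iff_of_nonneg (fun x => by positivity) i4).1 h4.symm
      have h2 : (fun x => w x ^ 2) =ᵐ[μ] 0 := by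
        filter_upwards [this] with x hx
        simp only [Pi.zero_apply] at hx ⊢
        exact absurd hx (pow_pos (hp x) 4).ne'
      rw [integral_congr_ae h2] at hN; simp at hN
    · exact h4
  have a1 : ∫ x, w x ^ 2 * log (w x ^ 2) ∂μ ≤ log c := by
    have j1 : Integrable (fun x => w x ^ 2 * log c + c⁻¹ * w x ^ 4) μ :=
      (i2.mul_const _).add (i4.const_mul _)
    have e : log c = ∫ x, (w x ^ 2 * log c + c⁻¹ * w x ^ 4 - w x ^ 2) ∂μ := by
      rw [integral_sub j1 i2, integral_add (i2.mul_const _) (i4.const_mul _), integral_mul_const,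
        integral_const_mul, hN, ← hc, inv_mul_cancel₀ hc1.ne']
      ring
    rw [e]
    refine integral_mono (intg (continuous_mul_log.comp (hwc.pow 2))) (j1.sub i2) fun x => ?_
    have hw2 : 0 < w x ^ 2 := pow_pos (hp x) 2
    have := Real.log_le_sub_one_of_pos (div_pos hw2 hc1)
    rw [log_div hw2.ne' hc1.ne'] at this
    have h2 := mul_le_mul_of_nonneg_left this hw2.le
    have e2 : w x ^ 2 * (w x ^ 2 / c - 1) = c⁻¹ * w x ^ 4 - w x ^ 2 := by ring
    simp only
    nlinarith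
  have hs : 0 < A / (2 * τ) := by positivity
  have hq : 0 < √c := sqrt_pos.2 hc1
  have a2 := Real.log_le_sub_one_of_pos (div_pos hq hs)
  rw [log_div hq.ne' hs.ne', log_sqrt hc1.le, show A / (2 * τ) = A / 2 / τ by ring,
    log_div (by positivity) h0.ne'] at a2
  have a3 : √c / (A / 2 / τ) ≤ 2 * τ * ∫ x, G w x ∂μ + 2 * τ0 * B / A := by
    have e : √c / (A / 2 / τ) = 2 * τ / A * √c := by field_simp
    have e2 : 2 * τ / A * (A * ∫ x, G w x ∂μ + B) = 2 * τ * ∫ x, G w x ∂μ + 2 * τ * B / A := by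
      field_simp
    have : 2 * τ * B / A ≤ 2 * τ0 * B / A := by gcongr
    have := mul_le_mul_of_nonneg_left key (show 0 ≤ 2 * τ / A by positivity)
    linarith
  have e : 4 * τ0 * B / A = 2 * (2 * τ0 * B / A) := by ring
  linarith

end Crest.Agent.N207.Sob
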