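import Crest.Agent.N207.C.W0
import Crest.Agent.N207.C.Stmt
import Crest.Agent.N207.E.DH

/-! Row 207, block C: Nash ⇒ `L¹ → L²` ⇒ (duality) `L¹ → L^∞` for the heat and conjugate heat
equations. -/

set_option autoImplicit false
set_option linter.dupNamespace false
set_option linter.unusedSectionVars false
open Set MeasureTheory Filter Topology Real
open scoped ContDiff

noncomputable section

namespace Crest.Agent.N207

namespace Sob

variable {X : Type*} [TopologicalSpace X] [MeasurableSpace X]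
  [CompactSpace X] [OpensMeasurableSpace X] {μ : Measure X} [IsFiniteMeasure μ]
  {S : (X → ℝ) → Prop} {G : (X → ℝ) → X → ℝ}

/-- Nash inequality for nonnegative functions -/
theorem LS.nash0 (h : St S G) {τ0 A : ℝ} (hτ : 0 < τ0) (hL : LS μ S G τ0 A)
    {w : X → ℝ} (hw : S w) (hp : ∀ x, 0 ≤ w x) :
    (∫ x, w x ^ 2 ∂μ) * √(∫ x, w x ^ 2 ∂μ) ≤
      exp ((A + 1) / 2) * (∫ x, w x ∂μ) * (4 * ∫ x, G w x ∂μ + (∫ x, w x ^ 2 ∂μ) / τ0) := by
  have hwc := h.cont w hw
  have i1 : Integrable w μ := intg hwc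
  have i2 : Integrable (fun x => w x ^ 2) μ := intg (hwc.pow 2)
  set n : ℝ → ℝ := fun δ => ∫ x, w x ^ 2 ∂μ + 2 * δ * ∫ x, w x ∂μ + δ ^ 2 * μ.real univ with hn
  have hnc : Continuous n := by rw [hn]; fun_prop
  have key : ∀ δ : ℝ, 0 < δ → n δ * √(n δ) ≤
      exp ((A + 1) / 2) * (∫ x, w x ∂μ + δ * μ.real univ) * (4 * ∫ x, G w x ∂μ + n δ / τ0) := by
    intro δ hδ
    obtain ⟨hS, hG⟩ := h.affine hw 1 δ
    have := hL.nash h hτ hS fun x => by have := hp x; linarith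
    have e1 : ∫ x, (1 * w x + δ) ^ 2 ∂μ = n δ := by
      have : ∀ x, (1 * w x + δ) ^ 2 = w x ^ 2 + 2 * δ * w x + δ ^ 2 := fun x => by ring
      have j : Integrable (fun x => w x ^ 2 + 2 * δ * w x) μ := i2.add (i1.const_mul _)
      simp only [this]
      rw [integral_add j (integrable_const _), integral_add i2 (i1.const_mul _),
        integral_const_mul, integral_const, smul_eq_mul, hn]
      ring
    have e2 : ∫ x, (1 * w x + δ) ∂μ = ∫ x, w x ∂μ + δ * μ.real univ := by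
      simp only [one_mul]
      rw [integral_add i1 (integrable_const _), integral_const, smul_eq_mul]; ring
    simp only [hG, one_pow, one_mul (G w _)] at this
    rwa [e1, e2] at this
  have c1 : Continuous fun δ => n δ * √(n δ) := by fun_prop
  have c2 : Continuous fun δ : ℝ => exp ((A + 1) / 2) * (∫ x, w x ∂μ + δ * μ.real univ) *
      (4 * ∫ x, G w x ∂μ + n δ / τ0) := by fun_prop
  have := le_of_tendsto_of_tendsto ((c1.tendsto 0).mono_left (nhdsWithin_le_nhds (s := Ioi 0)))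
    ((c2.tendsto 0).mono_left nhdsWithin_le_nhds) (eventually_mem_nhdsWithin.mono key)
  simpa [hn] using this

end Sob

/-- the Nash ODE, forward in time -/
theorem nash_ode {N N' : ℝ → ℝ} {a b D c : ℝ} (hD : 0 < D) (hc : 0 ≤ c)
    (hd : ∀ t ∈ Icc a b, HasDerivWithinAt N (N' t) (Icc a b) t) (h0 : ∀ t ∈ Icc a b, 0 ≤ N t)
    (h : ∀ t ∈ Icc a b, N t * √(N t) ≤ D * (c * N t - N' t)) :
    ∀ t ∈ Icc a b, (t - a) ^ 2 * N t ≤ 4 * D ^ 2 * exp (c * (t - a)) := by
  have hd' : HasDt a b (fun t (_ : Unit) => (t - a) ^ 2 * N t * exp (-c * (t - a)) - 4 * D ^ 2)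
      fun t _ => (2 * (t - a) * N t + (t - a) ^ 2 * N' t) * exp (-c * (t - a)) +
        (t - a) ^ 2 * N t * (exp (-c * (t - a)) * -c) := by
    intro t ht _
    have h1 : HasDerivAt (fun t => (t - a) ^ 2) (2 * (t - a)) t := by
      simpa using ((hasDerivAt_id t).sub_const a).fun_pow 2
    have h2 : HasDerivAt (fun t => exp (-c * (t - a))) (exp (-c * (t - a)) * -c) t := by
      simpa using (((hasDerivAt_id t).sub_const a).const_mul (-c)).exp
    exact ((h1.hasDerivWithinAt.mul (hd t ht)).mul h2.hasDerivWithinAt).sub_const _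
  have hc' : ContinuousOn (fun p : ℝ × Unit =>
      (p.1 - a) ^ 2 * N p.1 * exp (-c * (p.1 - a)) - 4 * D ^ 2) (Icc a b ×ˢ univ) := by
    have : ContinuousOn (fun t => (t - a) ^ 2 * N t * exp (-c * (t - a)) - 4 * D ^ 2) (Icc a b) :=
      fun t ht => (hd' t ht ()).continuousWithinAt
    exact this.comp continuousOn_fst fun p hp => hp.1
  have := maxp_core (K := 0) hc' hd' (fun _ => by simp; positivity) fun t ht _ h1 _ => by
    have ht' := Ioc_subset_Icc_self ht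
    have k := h t ht'
    have n0 := h0 t ht'
    have hs : 0 < t - a := sub_pos.2 ht.1
    have e1 : exp (-c * (t - a)) ≤ 1 := exp_le_one_iff.2 (by nlinarith)
    have e0 := exp_pos (-c * (t - a))
    have k1 : (2 * D) ^ 2 < ((t - a) * √(N t)) ^ 2 := by
      rw [mul_pow (t - a), sq_sqrt n0]
      have : (t - a) ^ 2 * N t * exp (-c * (t - a)) ≤ (t - a) ^ 2 * N t :=
        mul_le_of_le_one_right (by positivity) e1
      linarith
    have k2 : 2 * D < (t - a) * √(N t) := lt_of_pow_lt_pow_left₀ 2 (by positivity) k1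
    have k3 : D * (2 * N t + (t - a) * (N' t - c * N t)) ≤ 0 := by
      nlinarith [mul_le_mul_of_nonneg_left k hs.le, mul_le_mul_of_nonneg_left k2.le n0]
    have k4 : 2 * N t + (t - a) * (N' t - c * N t) ≤ 0 := by
      by_contra hn; exact absurd (mul_pos hD (not_le.1 hn)) (not_lt.2 k3)
    have := mul_nonpos_of_nonneg_of_nonpos (mul_pos hs e0).le k4
    nlinarith
  intro t ht
  have k := this t ht ()
  have e : exp (-c * (t - a)) * exp (c * (t - a)) = 1 := by rw [← exp_add]; simp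
  have := mul_le_mul_of_nonneg_right (sub_nonpos.1 k) (exp_pos (c * (t - a))).le
  rwa [mul_assoc, e, mul_one] at this

/-- the Nash ODE, backward in time -/
theorem nash_ode_rev {N N' : ℝ → ℝ} {a b D c : ℝ} (hD : 0 < D) (hc : 0 ≤ c)
    (hd : ∀ t ∈ Icc a b, HasDerivWithinAt N (N' t) (Icc a b) t) (h0 : ∀ t ∈ Icc a b, 0 ≤ N t)
    (h : ∀ t ∈ Icc a b, N t * √(N t) ≤ D * (c * N t + N' t)) :
    ∀ t ∈ Icc a b, (b - t) ^ 2 * N t ≤ 4 * D ^ 2 * exp (c * (b - t)) := by
  have hr : HasDt (-b) (-a) (fun t (_ : Unit) => N (-t)) fun t _ => -N' (-t) :=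
    HasDt.rev (f := fun t (_ : Unit) => N t) (f' := fun t _ => N' t) fun t ht _ => hd t ht
  have m : ∀ t ∈ Icc (-b) (-a), -t ∈ Icc a b := fun t ht => ⟨by linarith [ht.2], by linarith [ht.1]⟩
  intro t ht
  have := nash_ode (N := fun t => N (-t)) (N' := fun t => -N' (-t)) hD hc
    (fun t ht => hr t ht ()) (fun t ht => h0 _ (m t ht))
    (fun t ht => by simpa using h _ (m t ht)) (-t) ⟨by linarith [ht.2], by linarith [ht.1]⟩
  simp only [neg_neg] at this
  rwa [show -t - -b = b - t by ring] at this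

namespace HC

variable {M : Type*} [TopologicalSpace M] [CompactSpace M] [MeasurableSpace M]
  [OpensMeasurableSpace M] {H : HC M}

namespace Alg

variable (A : H.Alg) {a b : ℝ}
include A

/-- growth of the mass of a nonnegative heat solution -/
theorem heat_mass (I : H.Intg) {K : ℝ} (hK : ∀ t ∈ Ioo 0 H.T, ∀ x, |H.R t x| ≤ K) (hs : H.St a b)
    {u : ℝ → M → ℝ} (hu : H.Heat a b u) (h0 : ∀ x, 0 ≤ u a x) : ∀ t ∈ Icc a b,
      ∫ x, u t x ∂H.vol t ≤ exp (K * (t - a)) * ∫ x, u a x ∂H.vol a := by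
  have hp := A.heat_ge hs hu h0
  have hd := I.int_dt hs hu.1 hu.2
  have := anti_of_deriv (φ := fun t => exp (-K * (t - a)) * ∫ x, u t x ∂H.vol t)
    (fun t ht => ((((hasDerivAt_id t).sub_const a).const_mul (-K)).exp.hasDerivWithinAt).mul
      (hd t ht)) fun t ht => by
      have ht' := Ioo_subset_Icc_self ht
      have hm := hs.mem ht'
      have s := A.sm_s0 hu.1 t ht'
      rw [integral_sub (A.integrable I hm (A.s0_lap hm s)) (A.integrable I hm
        (A.s0_mul (A.s0_R hm) s)), I.int_lap t hm s]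
      have k := (abs_le.1 (A.int_R_sq I hm (hK t hm) s (hp t ht'))).1
      have e0 := exp_pos (-K * (t - a))
      simp only [id] at *
      nlinarith
  intro t ht
  have k := this ⟨le_rfl, hs.2.1.le⟩ ht ht.1
  simp only [sub_self, mul_zero, exp_zero, one_mul] at k
  have e : exp (K * (t - a)) * exp (-K * (t - a)) = 1 := by rw [← exp_add]; simp
  have := mul_le_mul_of_nonneg_left k (exp_pos (K * (t - a))).le
  rwa [← mul_assoc, e, one_mul] at this

/-- derivative of the square integral -/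
theorem sq_dt (I : H.Intg) (hs : H.St a b) {u : ℝ → M → ℝ} (hu : H.Sm a b u) (σ ρ : ℝ)
    (hd : HasDt a b u fun t x => σ * H.lap t (u t) x + ρ * (H.R t x * u t x)) : ∀ t ∈ Icc a b,
    HasDerivWithinAt (fun s => ∫ x, u s x ^ 2 ∂H.vol s)
      (-(2 * σ) * ∫ x, H.gam t (u t) (u t) x ∂H.vol t +
        (2 * ρ - 1) * ∫ x, H.R t x * u t x ^ 2 ∂H.vol t) (Icc a b) t := by
  intro t ht
  have hm := hs.mem ht
  have s := A.sm_s0 hu t ht
  have h1 := I.int_dt hs (A.sm_pow 2 hu) (hd.comp' (φ := fun y => y ^ 2) (φ' := fun y => 2 * y)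
    fun t _ x => by simpa using hasDerivAt_pow 2 (u t x)) t ht
  convert h1 using 1
  have e : ∀ x, 2 * u t x * (σ * H.lap t (u t) x + ρ * (H.R t x * u t x)) - H.R t x * u t x ^ 2 =
      2 * σ * (u t x * H.lap t (u t) x) + (2 * ρ - 1) * (H.R t x * u t x ^ 2) := fun x => by ring
  simp only [e]
  rw [integral_add ((A.integrable I hm (A.s0_mul s (A.s0_lap hm s))).const_mul _)
    ((A.integrable I hm (A.s0_mul (A.s0_R hm) (A.s0_pow 2 s))).const_mul _), integral_const_mul,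
    integral_const_mul, I.ibp t hm s s]
  ring

/-- the Nash inequality in ODE form -/
theorem nash_form (I : H.Intg) {t K τ0 α L : ℝ} (ht : t ∈ Ioo 0 H.T) (hK : ∀ x, |H.R t x| ≤ K)
    (hτ : 0 < τ0) (hL : Sob.LS (H.vol t) H.S0 (fun w => H.gam t w w) τ0 α) {u : M → ℝ}
    (hu : H.S0 u) (hp : ∀ x, 0 ≤ u x) (hm : ∫ x, u x ∂H.vol t ≤ L) {ρ : ℝ} (hρ : |ρ| ≤ 1) :
    (∫ x, u x ^ 2 ∂H.vol t) * √(∫ x, u x ^ 2 ∂H.vol t) ≤ 2 * exp ((α + 1) / 2) * L *
      ((K + 1 / (2 * τ0)) * ∫ x, u x ^ 2 ∂H.vol t +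
        (2 * ∫ x, H.gam t u u x ∂H.vol t + ρ * ∫ x, H.R t x * u x ^ 2 ∂H.vol t)) := by
  have := I.fin t ht
  have k1 := hL.nash0 (A.sobSt ht) hτ hu hp
  have k2 := A.int_R_sq I ht hK (A.s0_pow 2 hu) fun x => sq_nonneg _
  have hE : 0 ≤ ∫ x, H.gam t u u x ∂H.vol t := integral_nonneg (A.gam_nonneg t ht hu)
  have hN : 0 ≤ ∫ x, u x ^ 2 ∂H.vol t := integral_nonneg fun x => sq_nonneg _
  have hm0 : 0 ≤ ∫ x, u x ∂H.vol t := integral_nonneg hp
  set N := ∫ x, u x ^ 2 ∂H.vol t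
  set E := ∫ x, H.gam t u u x ∂H.vol t
  set r := ∫ x, H.R t x * u x ^ 2 ∂H.vol t
  have k3 : |ρ * r| ≤ K * N := by
    rw [abs_mul]; exact (mul_le_of_le_one_left (abs_nonneg _) hρ).trans k2
  have k4 : 4 * E + N / τ0 ≤ 2 * ((K + 1 / (2 * τ0)) * N + (2 * E + ρ * r)) := by
    have : 2 * (1 / (2 * τ0) * N) = N / τ0 := by field_simp
    nlinarith [(abs_le.1 k3).1]
  refine k1.trans ?_
  have := mul_le_mul hm k4 (by positivity) (hm0.trans hm)
  nlinarith [mul_le_mul_of_nonneg_left this (exp_pos ((α + 1) / 2)).le]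

end Alg

/-- pairing bound between a heat and a conjugate heat solution -/
theorem pair_bound (A : H.Alg) (I : H.Intg) (E : H.Evo) {t0 : ℝ} (U : H.ULS t0) :
    ∃ C, 0 < C ∧ ∀ {a b : ℝ} {u v : ℝ → M → ℝ}, t0 ≤ a → H.St a b → H.Heat a b u →
      H.Conj a b v → (∀ x, 0 ≤ u a x) → (∀ x, 0 ≤ v b x) → ∀ L L' : ℝ, 0 < L → 0 < L' →
      ∫ x, u a x ∂H.vol a ≤ L → ∫ x, v b x ∂H.vol b ≤ L' → ∀ t ∈ Icc a b,
      ∫ x, u t x * v t x ∂H.vol t ≤ C / (b - a) ^ 2 * L * L' := by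
  obtain ⟨τ0, α, hτ, hL⟩ := U
  obtain ⟨K0, hK0⟩ := E.R_bd
  have hK : ∀ t ∈ Ioo 0 H.T, ∀ x, |H.R t x| ≤ |K0| := fun t ht x =>
    (hK0 t ht x).trans (le_abs_self _)
  have K0' := abs_nonneg K0
  set K := |K0|
  set c := K + 1 / (2 * τ0) with hc
  have c0 : 0 ≤ c := by positivity
  set κ := 2 * exp ((α + 1) / 2) * exp (K * H.T) with hκ
  have κ0 : 0 < κ := by positivity
  refine ⟨16 * κ ^ 2 * exp (c * H.T), by positivity,
    fun {a b u v} h0 hs hu hv pu pv L L' l0 l0' l1 l1' t ht => ?_⟩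
  have LS : ∀ t ∈ Icc a b, Sob.LS (H.vol t) H.S0 (fun w => H.gam t w w) τ0 α :=
    fun t ht => hL t ⟨h0.trans ht.1, (hs.mem ht).2⟩
  have pu' := A.heat_ge hs hu pu
  have pv' := A.conj_nonneg E hs hv pv
  have eT : 1 ≤ exp (K * H.T) := one_le_exp (mul_nonneg K0' A.T_pos.le)
  have b1 := nash_ode (D := κ * L) (c := c) (by positivity) c0
    (A.sq_dt I hs hu.1 1 0 (hu.2.congr_d fun t _ x => by simp))
    (fun t _ => integral_nonneg fun x => sq_nonneg _) fun t ht => by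
      have m1 : ∫ x, u t x ∂H.vol t ≤ exp (K * H.T) * L := by
        refine (A.heat_mass I hK hs hu pu t ht).trans (mul_le_mul (exp_le_exp.2
          (mul_le_mul_of_nonneg_left ?_ K0')) l1 (integral_nonneg pu) (exp_pos _).le)
        linarith [(hs.mem ht).2, hs.1]
      have := A.nash_form I (hs.mem ht) (hK t (hs.mem ht)) hτ (LS t ht) (A.sm_s0 hu.1 t ht)
        (pu' t ht) m1 (ρ := 1) (by simp)
      convert this using 1
      rw [hκ]; ring
  have b2 := nash_ode_rev (D := κ * L') (c := c) (by positivity) c0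
    (A.sq_dt I hs hv.1 (-1) 1 (hv.2.congr_d fun t _ x => by simp))
    (fun t _ => integral_nonneg fun x => sq_nonneg _) fun t ht => by
      have m1 : ∫ x, v t x ∂H.vol t ≤ exp (K * H.T) * L' := by
        rw [A.conj_mass I hs hv ht ⟨hs.2.1.le, le_rfl⟩]
        exact l1'.trans (le_mul_of_one_le_left l0'.le eT)
      have := A.nash_form I (hs.mem ht) (hK t (hs.mem ht)) hτ (LS t ht) (A.sm_s0 hv.1 t ht)
        (pv' t ht) m1 (ρ := 1) (by simp)
      convert this using 1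
      rw [hκ]; ring
  have hab := sub_pos.2 hs.2.1
  set m := (a + b) / 2 with hm
  have mm : m ∈ Icc a b := ⟨by linarith, by linarith⟩
  have c1 := b1 m mm
  have c2 := b2 m mm
  rw [show m - a = (b - a) / 2 by rw [hm]; ring] at c1
  rw [show b - m = (b - a) / 2 by rw [hm]; ring] at c2
  have eb : exp (c * ((b - a) / 2)) ≤ exp (c * H.T) :=
    exp_le_exp.2 (mul_le_mul_of_nonneg_left (by linarith [hs.1, hs.2.2]) c0)
  have c1' := c1.trans (mul_le_mul_of_nonneg_left eb (by positivity))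
  have c2' := c2.trans (mul_le_mul_of_nonneg_left eb (by positivity))
  rw [A.dual I hs hu hv ht mm]
  have su := A.sm_s0 hu.1 m mm
  have sv := A.sm_s0 hv.1 m mm
  have iu := A.integrable I (hs.mem mm) (A.s0_pow 2 su)
  have iv := A.integrable I (hs.mem mm) (A.s0_pow 2 sv)
  have cs : 2 * (L * L') * ∫ x, u m x * v m x ∂H.vol m ≤
      L' ^ 2 * ∫ x, u m x ^ 2 ∂H.vol m + L ^ 2 * ∫ x, v m x ^ 2 ∂H.vol m := by
    rw [← integral_const_mul, ← integral_const_mul, ← integral_const_mul,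
      ← integral_add (iu.const_mul _) (iv.const_mul _)]
    exact integral_mono ((A.integrable I (hs.mem mm) (A.s0_mul su sv)).const_mul _)
      ((iu.const_mul _).add (iv.const_mul _)) fun x => by
        nlinarith [sq_nonneg (L' * u m x - L * v m x)]
  rw [mul_assoc, div_mul_eq_mul_div, le_div_iff₀ (by positivity)]
  have LL : 0 < L * L' := mul_pos l0 l0'
  refine le_of_mul_le_mul_left ?_ LL
  nlinarith [mul_le_mul_of_nonneg_left cs (sq_nonneg (b - a)),
    mul_le_mul_of_nonneg_left c1' (sq_nonneg L'), mul_le_mul_of_nonneg_left c2' (sq_nonneg L)]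

theorem le_of_two {x c m : ℝ} (hc : 0 ≤ c) (h : ∀ δ > 0, x - δ ≤ c * (m + δ)) : x ≤ c * m := by
  refine le_of_forall_pos_le_add fun ε hε => ?_
  have := h (ε / (c + 1)) (by positivity)
  have e : ε = (c + 1) * (ε / (c + 1)) := by field_simp
  nlinarith

/-- `L¹ → L^∞` for the heat equation -/
theorem kerH (A : H.Alg) (I : H.Intg) (E : H.Evo) (S : H.Solv) (U : ∀ t0 > 0, H.ULS t0) :
    H.KerH := fun t0 h0 => by
  obtain ⟨C, hC, h⟩ := pair_bound A I E (U t0 h0)
  refine ⟨C, hC, fun {a b u} ha hs hu pu t ht y => le_of_two (by positivity) fun δ hδ => ?_⟩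
  have hs' : H.St a t := hs.mono le_rfl ht.1 ht.2
  have hu' := A.heat_mono hu le_rfl ht.2
  have tm : t ∈ Icc a t := ⟨ht.1.le, le_rfl⟩
  obtain ⟨w, sw, w0, w1, hw⟩ := N207.E.exists_bump A I (hs'.mem tm) (A.sm_s0 hu'.1 t tm) y hδ
  obtain ⟨v, hv, rfl⟩ := S.conj hs' sw
  have m0 : 0 ≤ ∫ x, u a x ∂H.vol a := integral_nonneg pu
  have := h ha hs' hu' hv pu w0 (∫ x, u a x ∂H.vol a + δ) 1 (by positivity) one_pos
    (by linarith) w1.le t tm
  linarith

/-- `L¹ → L^∞` for the conjugate heat equation -/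
theorem kerC (A : H.Alg) (I : H.Intg) (E : H.Evo) (S : H.Solv) (U : ∀ t0 > 0, H.ULS t0) :
    H.KerC := fun t0 h0 => by
  obtain ⟨C, hC, h⟩ := pair_bound A I E (U t0 h0)
  refine ⟨C, hC, fun {a b v} ha hs hv pv s ht y => le_of_two (by positivity) fun δ hδ => ?_⟩
  have hs' : H.St s b := hs.mono ht.1 ht.2 le_rfl
  have hv' := A.conj_mono hv ht.1 le_rfl
  have tm : s ∈ Icc s b := ⟨le_rfl, ht.2.le⟩
  obtain ⟨w, sw, w0, w1, hw⟩ := N207.E.exists_bump A I (hs'.mem tm) (A.sm_s0 hv'.1 s tm) y hδ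
  obtain ⟨u, hu, rfl⟩ := S.heat hs' sw
  have m0 : 0 ≤ ∫ x, v b x ∂H.vol b := integral_nonneg pv
  have := h (ha.trans ht.1) hs' hu hv' w0 pv 1 (∫ x, v b x ∂H.vol b + δ) one_pos (by positivity)
    w1.le (by linarith) s tm
  simp only [mul_comm (u s _)] at this
  linarith

/-- helper10's form -/
theorem uc_of_kerC (A : H.Alg) (E : H.Evo) (h : H.KerC) {t0 : ℝ} (h0 : 0 < t0) :
    ∃ C, 0 < C ∧ H.UC t0 C := by
  obtain ⟨C, hC, h⟩ := h t0 h0
  exact ⟨C, hC, fun ha hs hv pv s ht y =>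
    ⟨A.conj_nonneg E hs hv pv s (Ico_subset_Icc_self ht) y, h ha hs hv pv s ht y⟩⟩

/-- uniform Sobolev inequality -/
theorem sobU (A : H.Alg) (I : H.Intg) (U : ∀ t0 > 0, H.ULS t0) : H.SobU := fun t0 h0 => by
  obtain ⟨τ0, α, hτ, hL⟩ := U t0 h0
  have := Sob.Lσ_pos
  refine ⟨2048 * exp ((α + 1) / 2) * Sob.Lσ + 512 * exp ((α + 1) / 2) / τ0, by positivity,
    fun t ht w hw => ?_⟩
  have hm : t ∈ Ioo 0 H.T := ⟨h0.trans_le ht.1, ht.2⟩
  have := I.fin t hm
  have k := ((hL t ht).fk (A.sobSt hm) hτ).sob (A.sobSt hm) hτ (exp_pos _).le w hw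
  have hE : 0 ≤ ∫ x, H.gam t w w x ∂H.vol t := integral_nonneg (A.gam_nonneg t hm hw)
  have hN : 0 ≤ ∫ x, w x ^ 2 ∂H.vol t := integral_nonneg fun x => sq_nonneg _
  have p1 : 0 ≤ 2048 * exp ((α + 1) / 2) * Sob.Lσ := by positivity
  have p2 : 0 ≤ 512 * exp ((α + 1) / 2) / τ0 := by positivity
  nlinarith [mul_nonneg p1 hN, mul_nonneg p2 hE]

end HC

end Crest.Agent.N207

end
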