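import Crest.Agent.N207.C.Kap
import Crest.Agent.N207.C.LogB

/-! Row 207, block C: the uniform upper volume bound (no inflation). -/

set_option autoImplicit false
set_option linter.dupNamespace false
set_option linter.unusedSectionVars false
open Set MeasureTheory Filter Topology Real
open scoped ContDiff

noncomputable section

namespace Crest.Agent.N207

namespace HC

variable {M : Type*} [TopologicalSpace M] [CompactSpace M] [MeasurableSpace M]
  [OpensMeasurableSpace M] {H : HC M}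

/-- total volume bound -/
theorem vol_tot (A : H.Alg) (I : H.Intg) (E : H.Evo) {t0 : ℝ} (h0 : 0 < t0) :
    ∃ V, 0 < V ∧ ∀ t ∈ Ico t0 H.T, (H.vol t).real univ ≤ V := by
  obtain ⟨K, hK⟩ := E.R_bd
  have hK' : ∀ t ∈ Ioo 0 H.T, ∀ x, |H.R t x| ≤ |K| := fun t ht x =>
    (hK t ht x).trans (le_abs_self _)
  refine ⟨exp (|K| * H.T) * (H.vol (t0 / 2)).real univ + 1, by positivity, fun t ht => ?_⟩
  have hs : H.St (t0 / 2) t := ⟨by linarith, by linarith [ht.1], ht.2⟩
  have := A.heat_mass I hK' hs (A.heat_const hs 1) (fun _ => zero_le_one) t ⟨hs.2.1.le, le_rfl⟩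
  simp only [integral_const, smul_eq_mul, mul_one] at this
  have e : exp (|K| * (t - t0 / 2)) ≤ exp (|K| * H.T) :=
    exp_le_exp.2 (mul_le_mul_of_nonneg_left (by linarith [ht.2]) (abs_nonneg _))
  nlinarith [mul_le_mul_of_nonneg_right e (measureReal_nonneg (μ := H.vol (t0 / 2)) (s := univ))]

/-- a density with small Nash entropy is large somewhere -/
theorem exists_large (A : H.Alg) (I : H.Intg) {t τ : ℝ} (ht : t ∈ Ioo 0 H.T) (hτ : 0 < τ)
    {v : M → ℝ} (hv : H.S0 v) (hp : ∀ y, 0 < v y) (hm : ∫ y, v y ∂H.vol t = 1)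
    (hN : H.Na t τ v < 1) : ∃ y, exp (-3) / (4 * π * τ) ^ 2 ≤ v y := by
  by_contra! hn
  have : ∫ y, 3 * v y ∂H.vol t ≤ ∫ y, pot τ v y * v y ∂H.vol t := by
    refine integral_mono (A.integrable I ht (A.s0_cmul 3 hv))
      (A.integrable I ht (A.s0_mul (A.s0_pot hv hp τ) hv)) fun y => ?_
    refine mul_le_mul_of_nonneg_right ?_ (hp y).le
    have h1 := log_lt_log (hp y) (hn y)
    have := pi_pos
    rw [log_div (exp_pos _).ne' (by positivity), log_exp, log_pow] at h1
    simp only [pot]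
    push_cast at h1
    linarith
  rw [integral_const_mul, hm] at this
  unfold Na at hN
  linarith

/-- pairing with a concentrated density -/
theorem exists_near (A : H.Alg) (I : H.Intg) (D : H.Dist) {t : ℝ} (ht : t ∈ Ioo 0 H.T) {x : M}
    {u w : M → ℝ} (hu : H.S0 u) (hw : H.S0 w) (hp : ∀ y, 0 ≤ w y) (hm : ∫ y, w y ∂H.vol t = 1)
    {ε m c : ℝ} (hc : 0 ≤ c) (m0 : 0 ≤ m) (hb : ∀ y, u y ≤ m)
    (ho : ∫ y in {y | ε ≤ H.d t x y}, w y ∂H.vol t ≤ ε)
    (h : c + m * ε < ∫ y, u y * w y ∂H.vol t) : ∃ z ∈ H.B t x ε, c ≤ u z := by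
  by_contra! hn
  have ms : MeasurableSet {y | ε ≤ H.d t x y} :=
    (isClosed_le continuous_const (D.cont t ht x)).measurableSet
  have iw := A.integrable I ht hw
  have : ∫ y, u y * w y ∂H.vol t ≤
      ∫ y, (c * w y + m * {y | ε ≤ H.d t x y}.indicator w y) ∂H.vol t := by
    refine integral_mono (A.integrable I ht (A.s0_mul hu hw))
      ((iw.const_mul c).add ((iw.indicator ms).const_mul m)) fun y => ?_
    by_cases hy : ε ≤ H.d t x y
    · have : {y | ε ≤ H.d t x y}.indicator w y = w y := indicator_of_mem (by exact hy) _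
      simp only [this]
      nlinarith [hp y, hb y, mul_nonneg hc (hp y)]
    · have : {y | ε ≤ H.d t x y}.indicator w y = 0 := indicator_of_notMem (by exact hy) _
      simp only [this]
      nlinarith [hp y, hn y (not_le.1 hy)]
  rw [integral_add (iw.const_mul c) ((iw.indicator ms).const_mul m), integral_const_mul,
    integral_const_mul, hm, integral_indicator ms] at this
  nlinarith [mul_le_mul_of_nonneg_left ho m0]

/-- a heat solution of mass at most two which is large on a whole ball -/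
theorem exists_heat_large (h : H.Ok) {t0 : ℝ} (h0 : 0 < t0) : ∃ c, 0 < c ∧ ∀ t r : ℝ, 0 < r →
    t0 ≤ t - r ^ 2 → t < H.T → ∀ x, ∃ u, H.Heat (t - r ^ 2) t u ∧ (∀ y, 0 < u (t - r ^ 2) y) ∧
      ∫ y, u (t - r ^ 2) y ∂H.vol (t - r ^ 2) ≤ 2 ∧ ∀ z ∈ H.B t x r, c / r ^ 4 ≤ u t z := by
  have A := h.alg
  have I := h.int
  have E := h.evo
  have D := h.dist
  obtain ⟨C, hC, hk⟩ := h.kerH t0 h0
  have := pi_pos
  set c0 := exp (-3) / (8 * π) ^ 2 with hc0
  have c0p : 0 < c0 := by positivity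
  set Λ := (√(1 + log (32 * C / c0)) + 2) ^ 2 with hΛ
  refine ⟨8 * C * exp (-Λ), by positivity, fun t r r0 h1 h2 x => ?_⟩
  have r2 : 0 < r ^ 2 := by positivity
  set s := t - r ^ 2 with hs0
  have hs : H.St s t := ⟨h0.trans_le h1, by linarith, h2⟩
  have sm : s ∈ Icc s t := ⟨le_rfl, hs.2.1.le⟩
  have tm : t ∈ Icc s t := ⟨hs.2.1.le, le_rfl⟩
  set ε := min (min (1 / 2) (c0 / (32 * C))) (min r (r ^ 2)) with hε
  have ε0 : 0 < ε := by positivity
  have ε1 : ε ≤ 1 / 2 := (min_le_left _ _).trans (min_le_left _ _)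
  have ε2 : ε ≤ c0 / (32 * C) := (min_le_left _ _).trans (min_le_right _ _)
  have ε3 : ε ≤ r := (min_le_right _ _).trans (min_le_left _ _)
  have ε4 : ε ≤ r ^ 2 := (min_le_right _ _).trans (min_le_right _ _)
  obtain ⟨τ, τ0, τ1, w, sw, pw, mw, Ww, Nw, ow⟩ := h.bump t (hs.mem tm) x ε ε0
  obtain ⟨v, hv, rfl⟩ := h.solv.conj hs sw
  have pv := A.conj_pos E hs hv pw
  have n1 := A.Na_le I E hs hv pv τ0 mw Ww (abs_le.1 Nw).2 s sm
  have sv := A.sm_s0 hv.1 s sm
  obtain ⟨y, hy⟩ := exists_large A I (hs.mem sm) (τ := τ + t - s) (by linarith) sv (pv s sm)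
    ((A.conj_mass I hs hv sm tm).trans mw) (by linarith)
  have hy' : c0 / r ^ 4 ≤ v s y := by
    refine le_trans ?_ hy
    have e : c0 / r ^ 4 = exp (-3) / (4 * π * (2 * r ^ 2)) ^ 2 := by rw [hc0]; field_simp; ring
    rw [e]
    have : 0 < τ + t - s := by linarith
    gcongr
    linarith
  obtain ⟨b, sb, b0, b1, hb⟩ := N207.E.exists_bump A I (hs.mem sm) sv y
    (δ := c0 / (4 * r ^ 4)) (by positivity)
  have := I.fin s (hs.mem sm)
  set δ := 1 / ((H.vol s).real univ + 1) with hδ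
  have δ0 : 0 < δ := by positivity
  obtain ⟨u, hu, eu⟩ := h.solv.heat hs (A.s0_add sb (A.s0_const δ))
  have pu0 : ∀ y, 0 < u s y := fun y => by rw [eu]; have := b0 y; positivity
  have pu : ∀ t' ∈ Icc s t, ∀ y, 0 < u t' y := fun t' ht' y =>
    δ0.trans_le (A.heat_ge hs hu (fun y => by rw [eu]; linarith [b0 y]) t' ht' y)
  have mu : ∫ y, u s y ∂H.vol s ≤ 2 := by
    rw [eu, integral_add (A.integrable I (hs.mem sm) sb) (integrable_const _), b1, integral_const,
      smul_eq_mul, hδ, mul_one_div]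
    have : (H.vol s).real univ / ((H.vol s).real univ + 1) ≤ 1 :=
      (div_le_one (by positivity)).2 (by linarith)
    linarith
  refine ⟨u, hu, pu0, mu, fun z hz => ?_⟩
  set s' := t - r ^ 2 / 2 with hs1
  have hs' : H.St s' t := hs.mono (by linarith) (by linarith) le_rfl
  have hu' := A.heat_mono hu (a' := s') (by linarith) le_rfl
  set m := 8 * C / r ^ 4 with hm
  have m0 : 0 < m := by positivity
  have bm : ∀ y, u s' y ≤ m := fun y => by
    refine (hk h1 hs hu (fun y => (pu0 y).le) s' ⟨by linarith, by linarith⟩ y).trans ?_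
    refine (mul_le_mul_of_nonneg_left mu (by positivity)).trans_eq ?_
    rw [show s' - s = r ^ 2 / 2 by rw [hs1, hs0]; ring, hm]
    field_simp; ring
  have tm' : t ∈ Icc s' t := ⟨hs'.2.1.le, le_rfl⟩
  have pr : 3 * c0 / (4 * r ^ 4) ≤ ∫ y, u t y * v t y ∂H.vol t := by
    rw [← A.dual I hs hu hv sm tm]
    have : ∫ y, v s y * b y ∂H.vol s ≤ ∫ y, u s y * v s y ∂H.vol s :=
      integral_mono (A.integrable I (hs.mem sm) (A.s0_mul sv sb))
        (A.integrable I (hs.mem sm) (A.s0_mul (A.sm_s0 hu.1 s sm) sv)) fun y => by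
          rw [eu]; nlinarith [pv s sm y]
    have e : 3 * c0 / (4 * r ^ 4) = c0 / r ^ 4 - c0 / (4 * r ^ 4) := by field_simp; ring
    linarith
  obtain ⟨z0, hz0, lz0⟩ := exists_near A I D (hs.mem tm) (A.sm_s0 hu.1 t tm) sw
    (fun y => (pw y).le) mw (c := c0 / (4 * r ^ 4)) (by positivity) m0.le
    (A.heat_le hs' hu' bm t tm') ow (by
      refine lt_of_lt_of_le ?_ pr
      have k1 : m * ε ≤ c0 / (4 * r ^ 4) := by
        refine (mul_le_mul_of_nonneg_left ε2 m0.le).trans_eq ?_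
        rw [hm]; field_simp; ring
      have k2 : 0 < c0 / (4 * r ^ 4) := by positivity
      have e : 3 * c0 / (4 * r ^ 4) = 3 * (c0 / (4 * r ^ 4)) := by ring
      linarith)
  have har := A.harnack E D hs' hu' (fun t' ht' => pu t' ⟨by linarith [ht'.1], ht'.2⟩) bm
    ⟨hs'.2.1, le_rfl⟩ z0 z
  have d1 : H.d t z0 z / (2 * √(t - s')) ≤ 2 := by
    have k1 := D.tri t (hs.mem tm) z0 x z
    rw [D.symm t (hs.mem tm) z0 x] at k1
    have k2 : H.d t x z0 < ε := hz0
    have k3 : H.d t x z < r := hz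
    have k4 : r / 2 ≤ √(t - s') := le_sqrt_of_sq_le (by rw [hs1]; nlinarith)
    rw [div_le_iff₀ (by linarith)]
    linarith
  have d2 : √(1 + log m - log (u t z0)) ≤ √(1 + log (32 * C / c0)) := by
    refine sqrt_le_sqrt ?_
    have k1 := log_le_log (by positivity) lz0
    have e : log (32 * C / c0) = log m - log (c0 / (4 * r ^ 4)) := by
      rw [← log_div m0.ne' (by positivity), hm]; congr 1; field_simp; ring
    linarith
  have d3 : 1 + log m - log (u t z) ≤ Λ :=
    (sqrt_le_left (by positivity)).1 (har.trans (add_le_add d2 d1))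
  have e : 8 * C * exp (-Λ) / r ^ 4 = exp (log m - Λ) := by
    rw [sub_eq_add_neg, exp_add, exp_log m0, hm]; ring
  rw [e, ← exp_log (pu t tm z)]
  exact exp_le_exp.2 (by linarith)

/-- **no inflation** -/
theorem volUp (h : H.Ok) : H.VolUp := fun t0 h0 => by
  have A := h.alg
  have I := h.int
  obtain ⟨c, hc, h1⟩ := exists_heat_large h (half_pos h0)
  obtain ⟨V, hV, h2⟩ := vol_tot A I h.evo h0
  obtain ⟨K, hK⟩ := h.evo.R_bd
  have hK' : ∀ t ∈ Ioo 0 H.T, ∀ x, |H.R t x| ≤ |K| := fun t ht x =>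
    (hK t ht x).trans (le_abs_self _)
  refine ⟨exp (|K| * H.T) * 2 / c + V / (t0 / 2) ^ 2, by positivity, fun t ht x r r0 => ?_⟩
  have hm : t ∈ Ioo 0 H.T := ⟨h0.trans_le ht.1, ht.2⟩
  have := I.fin t hm
  have p1 : 0 ≤ exp (|K| * H.T) * 2 / c * r ^ 4 := by positivity
  have p2 : 0 ≤ V / (t0 / 2) ^ 2 * r ^ 4 := by positivity
  rw [add_mul]
  rcases le_total (r ^ 2) (t0 / 2) with hr | hr
  · obtain ⟨u, hu, pu, mu, lu⟩ := h1 t r r0 (by linarith [ht.1]) ht.2 x
    have r2 : 0 < r ^ 2 := by positivity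
    have hs : H.St (t - r ^ 2) t := ⟨by linarith [ht.1], by linarith, ht.2⟩
    have tm : t ∈ Icc (t - r ^ 2) t := ⟨hs.2.1.le, le_rfl⟩
    have k1 := A.heat_mass I hK' hs hu (fun y => (pu y).le) t tm
    have k2 : exp (|K| * (t - (t - r ^ 2))) * ∫ y, u (t - r ^ 2) y ∂H.vol (t - r ^ 2) ≤
        exp (|K| * H.T) * 2 := mul_le_mul (exp_le_exp.2 (mul_le_mul_of_nonneg_left
          (by linarith [ht.2, hs.1]) (abs_nonneg _))) mu (integral_nonneg fun y => (pu y).le)
          (exp_pos _).le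
    have k3 : c / r ^ 4 * (H.vol t).real (H.B t x r) ≤ ∫ y, u t y ∂H.vol t := by
      have mB := h.dist.meas_B hm x r
      rw [mul_comm, ← smul_eq_mul, ← integral_indicator_const _ mB]
      refine integral_mono ((integrable_const _).indicator mB)
        (A.integrable I hm (A.sm_s0 hu.1 t tm)) fun y => ?_
      by_cases hy : y ∈ H.B t x r
      · simpa [hy] using lu y hy
      · simpa [hy] using A.heat_ge hs hu (fun y => (pu y).le) t tm y
    have k4 := k3.trans (k1.trans k2)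
    rw [div_mul_eq_mul_div, div_le_iff₀ (by positivity)] at k4
    have : (H.vol t).real (H.B t x r) ≤ exp (|K| * H.T) * 2 / c * r ^ 4 := by
      rw [div_mul_eq_mul_div, le_div_iff₀ hc]; linarith
    linarith
  · have k1 : (H.vol t).real (H.B t x r) ≤ V := (measureReal_mono (subset_univ _)).trans (h2 t ht)
    have k2 : V ≤ V / (t0 / 2) ^ 2 * r ^ 4 := by
      rw [div_mul_eq_mul_div, le_div_iff₀ (by positivity)]
      refine mul_le_mul_of_nonneg_left ?_ hV.le
      calc (t0 / 2) ^ 2 ≤ (r ^ 2) ^ 2 := pow_le_pow_left₀ (by positivity) hr 2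
        _ = r ^ 4 := by ring
    linarith

end HC

end Crest.Agent.N207

end
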