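import Crest.Agent.N207.C.Max
import Crest.Agent.N207.C.Sob3

/-! Row 207, block C: the `W` functional at a fixed time versus the log-Sobolev inequality. -/

set_option autoImplicit false
set_option linter.dupNamespace false
set_option linter.unusedSectionVars false
open Set MeasureTheory Filter Topology Real
open scoped ContDiff

noncomputable section

namespace Crest.Agent.N207

namespace HC

variable {M : Type*} [TopologicalSpace M] [CompactSpace M] [MeasurableSpace M]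
  [OpensMeasurableSpace M] {H : HC M}

/-- the static structure at time `t` -/
theorem Alg.sobSt (A : H.Alg) {t : ℝ} (ht : t ∈ Ioo 0 H.T) :
    Sob.St H.S0 (fun w => H.gam t w w) where
  cont := fun _ hw => A.s0_cont hw
  contG := fun _ hw => A.s0_cont (A.s0_gam ht hw hw)
  nn := fun _ hw => A.gam_nonneg t ht hw
  comp := fun _ _ hw hφ => A.s0_compU hφ hw
  gcomp := fun _ _ hw hφ => A.gam_compU2 ht hφ hw

/-- `W` of `w²` -/
theorem Alg.W_sq (A : H.Alg) (I : H.Intg) {t : ℝ} (ht : t ∈ Ioo 0 H.T) (τ : ℝ) {w : M → ℝ}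
    (hw : H.S0 w) (hp : ∀ x, 0 < w x) (h1 : ∫ x, w x ^ 2 ∂H.vol t = 1) :
    H.W t τ (fun x => w x ^ 2) = 4 * τ * ∫ x, H.gam t w w x ∂H.vol t +
      τ * ∫ x, H.R t x * w x ^ 2 ∂H.vol t - ∫ x, w x ^ 2 * log (w x ^ 2) ∂H.vol t -
        2 * log (4 * π * τ) - 4 := by
  have s2 := A.s0_pow 2 hw
  have p2 : ∀ x, 0 < w x ^ 2 := fun x => pow_pos (hp x) 2
  have g2 : ∀ x, H.gam t (fun x => w x ^ 2) (fun x => w x ^ 2) x = 4 * w x ^ 2 * H.gam t w w x := by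
    intro x
    rw [A.gam_compU2 ht (φ := fun y => y ^ 2) (by fun_prop) hw x]
    have : deriv (fun y : ℝ => y ^ 2) (w x) = 2 * w x := by simp
    rw [this]; ring
  have i1 := A.integrable I ht (A.s0_gam ht hw hw)
  have i2 := A.integrable I ht (A.s0_mul (A.s0_R ht) s2)
  have i3 := A.integrable I ht (A.s0_mul s2 (A.s0_log s2 p2))
  have i4 := A.integrable I ht s2
  have e : ∀ x, (τ * (H.gam t (fun x => w x ^ 2) (fun x => w x ^ 2) x / (w x ^ 2) ^ 2 + H.R t x)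
      + pot τ (fun x => w x ^ 2) x - 4) * w x ^ 2 =
      4 * τ * H.gam t w w x + τ * (H.R t x * w x ^ 2) - w x ^ 2 * log (w x ^ 2) -
        (2 * log (4 * π * τ) + 4) * w x ^ 2 := by
    intro x
    rw [g2, pot]
    have := (hp x).ne'
    field_simp
    ring
  unfold W
  simp only [e]
  have j1 : Integrable (fun x => 4 * τ * H.gam t w w x + τ * (H.R t x * w x ^ 2)) (H.vol t) :=
    (i1.const_mul _).add (i2.const_mul _)
  have j2 : Integrable (fun x => 4 * τ * H.gam t w w x + τ * (H.R t x * w x ^ 2) -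
      w x ^ 2 * log (w x ^ 2)) (H.vol t) := j1.sub i3
  rw [integral_sub j2 (i4.const_mul _), integral_sub j1 i3,
    integral_add (i1.const_mul _) (i2.const_mul _), integral_const_mul, integral_const_mul,
    integral_const_mul, h1]
  ring

theorem Alg.int_R_sq (A : H.Alg) (I : H.Intg) {t : ℝ} (ht : t ∈ Ioo 0 H.T) {K : ℝ}
    (hK : ∀ x, |H.R t x| ≤ K) {u : M → ℝ} (hu : H.S0 u) (hp : ∀ x, 0 ≤ u x) :
    |∫ x, H.R t x * u x ∂H.vol t| ≤ K * ∫ x, u x ∂H.vol t := by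
  rw [← integral_const_mul]
  refine (abs_integral_le_integral_abs).trans (integral_mono
    (A.integrable I ht (A.s0_mul (A.s0_R ht) hu)).abs
    (A.integrable I ht (A.s0_cmul K hu)) fun x => ?_)
  simp only [abs_mul, abs_of_nonneg (hp x)]
  exact mul_le_mul_of_nonneg_right (hK x) (hp x)

/-- log-Sobolev ⇒ lower bound for `W` -/
theorem Alg.W_ge_of_ls (A : H.Alg) (I : H.Intg) {t : ℝ} (ht : t ∈ Ioo 0 H.T) {K τ0 a : ℝ}
    (hK : ∀ x, |H.R t x| ≤ K) (hL : Sob.LS (H.vol t) H.S0 (fun w => H.gam t w w) τ0 a)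
    {τ : ℝ} (h0 : 0 < τ) (h1 : τ ≤ τ0) {u : M → ℝ} (hu : H.S0 u) (hp : ∀ x, 0 < u x)
    (hm : ∫ x, u x ∂H.vol t = 1) : -(a + 2 * log (4 * π) + 4 + τ * K) ≤ H.W t τ u := by
  have hw := A.s0_sqrt hu hp
  have e : ∀ x, √(u x) ^ 2 = u x := fun x => sq_sqrt (hp x).le
  have hm' : ∫ x, √(u x) ^ 2 ∂H.vol t = 1 := by simpa only [e] using hm
  have k1 := A.W_sq I ht τ hw (fun x => sqrt_pos.2 (hp x)) hm'
  have k2 := hL τ h0 h1 _ hw (fun x => sqrt_pos.2 (hp x)) hm'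
  have k3 := A.int_R_sq I ht hK hu fun x => (hp x).le
  simp only [e] at k1 k2
  rw [hm, mul_one] at k3
  rw [log_mul (by positivity) h0.ne'] at k1
  have k4 := mul_le_mul_of_nonneg_left (abs_le.1 k3).1 h0.le
  have : H.W t τ u = H.W t τ fun x => u x := rfl
  linarith

/-- lower bound for `W` ⇒ log-Sobolev -/
theorem Alg.ls_of_W (A : H.Alg) (I : H.Intg) {t : ℝ} (ht : t ∈ Ioo 0 H.T) {K τ0 C : ℝ}
    (hK : ∀ x, |H.R t x| ≤ K)
    (hW : ∀ τ, 0 < τ → τ ≤ τ0 → ∀ u, H.S0 u → (∀ x, 0 < u x) → ∫ x, u x ∂H.vol t = 1 →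
      -C ≤ H.W t τ u) :
    Sob.LS (H.vol t) H.S0 (fun w => H.gam t w w) τ0 (C + τ0 * |K|) := by
  intro τ h0 h1 w hw hp hm
  have s2 := A.s0_pow 2 hw
  have k1 := A.W_sq I ht τ hw hp hm
  have k2 := hW τ h0 h1 _ s2 (fun x => pow_pos (hp x) 2) hm
  have k3 := A.int_R_sq I ht hK s2 fun x => sq_nonneg _
  rw [hm, mul_one] at k3
  rw [log_mul (by positivity) h0.ne'] at k1
  have k4 := mul_le_mul_of_nonneg_left ((abs_le.1 k3).2.trans (le_abs_self K)) h0.le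
  have k5 := mul_le_mul_of_nonneg_right h1 (abs_nonneg K)
  have k6 : 0 ≤ log (4 * π) := log_nonneg (by linarith [pi_gt_three])
  linarith

/-- fixed-time log-Sobolev inequality -/
theorem ls0 (A : H.Alg) (I : H.Intg) (S : H.Sob0) {t : ℝ} (ht : t ∈ Ioo 0 H.T) (τ0 : ℝ) :
    ∃ a, Sob.LS (H.vol t) H.S0 (fun w => H.gam t w w) (|τ0|) a := by
  obtain ⟨a, b, ha, hb, h⟩ := S t ht
  have := I.fin t ht
  exact ⟨_, Sob.SobI.ls (A.sobSt ht) ha hb.le h _⟩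

/-- fixed-time lower bound for `W` (all scales `0 < τ ≤ t2`) -/
theorem W_lower' (A : H.Alg) (I : H.Intg) (E : H.Evo) (S : H.Sob0) {t : ℝ} (ht : t ∈ Ioo 0 H.T)
    (t2 : ℝ) : ∃ C, ∀ τ, 0 < τ → τ ≤ t2 → ∀ u, H.S0 u → (∀ x, 0 < u x) →
      ∫ x, u x ∂H.vol t = 1 → -C ≤ H.W t τ u := by
  obtain ⟨a, ha⟩ := ls0 A I S ht t2
  obtain ⟨K, hK⟩ := E.R_bd
  refine ⟨a + 2 * log (4 * π) + 4 + |t2| * |K|, fun τ h0 h1 u hu hp hm => ?_⟩
  have h2 := h1.trans (le_abs_self t2)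
  have := A.W_ge_of_ls I ht (K := |K|) (fun x => (hK t ht x).trans (le_abs_self K)) ha h0 h2 hu hp hm
  have k5 := mul_le_mul_of_nonneg_right h2 (abs_nonneg K)
  linarith

theorem W_lower (A : H.Alg) (I : H.Intg) (E : H.Evo) (S : H.Sob0) {t t1 t2 : ℝ}
    (ht : t ∈ Ioo 0 H.T) (h1 : 0 < t1) (_h2 : t1 ≤ t2) : ∃ C, ∀ τ ∈ Icc t1 t2, ∀ u, H.S0 u →
      (∀ x, 0 < u x) → ∫ x, u x ∂H.vol t = 1 → -C ≤ H.W t τ u := by
  obtain ⟨C, hC⟩ := W_lower' A I E S ht t2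
  exact ⟨C, fun τ hτ => hC τ (h1.trans_le hτ.1) hτ.2⟩

/-- uniform log-Sobolev inequality on `[t0, T)` -/
def ULS (H : HC M) (t0 : ℝ) : Prop :=
  ∃ τ0 A : ℝ, 0 < τ0 ∧ ∀ t ∈ Ico t0 H.T, Sob.LS (H.vol t) H.S0 (fun w => H.gam t w w) τ0 A

end HC

end Crest.Agent.N207

end
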